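import Crest.Agent.R166.B.AlgS

/-! # Star matrices: determinant, continuity -/

set_option autoImplicit false
set_option linter.unusedVariables false
set_option linter.unusedSectionVars false

open MeasureTheory ProbabilityTheory Filter Topology Matrix
open scoped ENNReal BoundedContinuousFunction Kronecker

namespace Crest.Agent.R166.B

section
variable {D : ℕ} {t : ℝ} {z : ℂ} {m : Fin (D + 1) → ℂ}

private theorem AlgS2_ne (hz : 0 ≤ z.im) (hm : ∀ j, 0 < (m j).im) : (t : ℂ) - z - ∑ j, m j ≠ 0 := by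
  intro h
  have h1 := congrArg Complex.im h
  have h2 : 0 < ∑ j, (m j).im := Finset.sum_pos (fun j _ => hm j) Finset.univ_nonempty
  simp only [Complex.sub_im, Complex.ofReal_im, Complex.im_sum, Complex.zero_im] at h1
  linarith

private theorem AlgS2_detR : (Matrix.of (Rs t z m)).det =
    (((√z.im)⁻¹ * ∏ j, (√(m j).im)⁻¹ : ℝ) : ℂ) * ((t : ℂ) - z - ∑ j, m j) := by
  have h : (Matrix.of (Rs t z m)).submatrix (Equiv.optionEquivSumPUnit.{0} (Fin (D + 1))).symm
      (Equiv.optionEquivSumPUnit.{0} (Fin (D + 1))).symm =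
      diagonal (Sum.elim (fun j => (((√(m j).im)⁻¹ : ℝ) : ℂ)) fun _ => (((√z.im)⁻¹ : ℝ) : ℂ)) *
        fromBlocks 1 (Matrix.of fun j _ => m j) (Matrix.of fun _ _ => 1)
          (Matrix.of fun _ _ => (t : ℂ) - z) := by
    ext (a | a) (b | b) <;> simp [Rs, diagonal_mul, Matrix.one_apply, div_eq_inv_mul, eq_comm]
  rw [← det_submatrix_equiv_self (Equiv.optionEquivSumPUnit.{0} (Fin (D + 1))).symm, h, det_mul,
    det_fromBlocks_one₁₁, det_diagonal, det_unique]
  simp [Matrix.mul_apply, mul_comm]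

private theorem AlgS2_PR (hz : 0 < z.im) (hm : ∀ j, 0 < (m j).im) :
    (Ps t z m).map ((↑) : ℝ → ℂ) = (Matrix.of (Rs t z m))ᴴ * Matrix.of (Rs t z m) := by
  have h1 : √z.im ≠ 0 := (Real.sqrt_pos.2 hz).ne'
  have h2 : ∀ j, √(m j).im ≠ 0 := fun j => (Real.sqrt_pos.2 (hm j)).ne'
  ext a b
  refine Complex.ext (by simp [Ps, Matrix.mul_apply]) ?_
  rcases a with _ | a <;> rcases b with _ | b <;>
    simp [Matrix.mul_apply, Fintype.sum_option, Rs, Complex.im_sum, apply_ite Complex.im,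
      apply_ite Complex.re, ite_div, neg_div, h1, h2, mul_comm (√_)]

/-- `det (Im gC) = |det C|²`, `det C = g √η Π √(Im m_j)` (add `m_i` times row `none` to row `i`) -/
theorem log_det_Ps (hz : 0 < z.im) (hm : ∀ j, 0 < (m j).im) :
    Real.log (Ps t z m).det =
      -(Real.log z.im + 2 * Real.log ‖gO t z m‖ + ∑ j, Real.log (m j).im) := by
  have h0 := AlgS2_ne (t := t) hz.le hm
  have h1 : (Ps t z m).det =
      (z.im⁻¹ * ∏ j, ((m j).im)⁻¹) * ‖(t : ℂ) - z - ∑ j, m j‖ ^ 2 := by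
    have h2 := congrArg Matrix.det (AlgS2_PR (t := t) hz hm)
    rw [det_mul, det_conjTranspose, Complex.star_def, Complex.conj_mul', AlgS2_detR, norm_mul,
      Complex.norm_real, ← Complex.ofReal_pow, mul_pow, Real.norm_eq_abs, sq_abs, mul_pow,
      ← Finset.prod_pow] at h2
    have h3 : (((Ps t z m).det : ℝ) : ℂ) = ((Ps t z m).map ((↑) : ℝ → ℂ)).det :=
      Complex.ofRealHom.map_det _
    rw [← h3, Complex.ofReal_inj] at h2
    simpa only [inv_pow, Real.sq_sqrt hz.le, Real.sq_sqrt (hm _).le] using h2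
  rw [h1, gO, norm_div, norm_one, one_div, Real.log_inv, Real.log_mul, Real.log_mul, Real.log_prod,
    Real.log_pow]
  · simp only [Real.log_inv, Finset.sum_neg_distrib]
    push_cast
    ring
  · exact fun j _ => inv_ne_zero (hm j).ne'
  · exact inv_ne_zero hz.ne'
  · exact Finset.prod_ne_zero_iff.2 fun j _ => inv_ne_zero (hm j).ne'
  · exact mul_ne_zero (inv_ne_zero hz.ne')
      (Finset.prod_ne_zero_iff.2 fun j _ => inv_ne_zero (hm j).ne')
  · exact pow_ne_zero _ (norm_ne_zero_iff.2 h0)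

theorem continuousAt_Bs (hz : 0 ≤ z.im) (hm : ∀ j, 0 < (m j).im) :
    ContinuousAt (fun w : ℝ × ℂ × (Fin (D + 1) → ℂ) => Bs w.1 w.2.1 w.2.2) (t, z, m) := by
  have hg : ContinuousAt (fun w : ℝ × ℂ × (Fin (D + 1) → ℂ) => gO w.1 w.2.1 w.2.2) (t, z, m) :=
    continuousAt_const.div (by fun_prop) (AlgS2_ne hz hm)
  refine continuousAt_pi.2 fun a => continuousAt_pi.2 fun b => ?_
  rcases a with _ | a <;> rcases b with (_ | b) | (_ | b) <;>
    simp only [Bs, Cs, Matrix.of_apply, Sum.elim_inl, Sum.elim_inr] <;> fun_prop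

theorem continuousAt_Ps (hz : 0 < z.im) (hm : ∀ j, 0 < (m j).im) :
    ContinuousAt (fun w : ℝ × ℂ × (Fin (D + 1) → ℂ) => Ps w.1 w.2.1 w.2.2) (t, z, m) := by
  have h1 : ((√z.im : ℝ) : ℂ) ≠ 0 := Complex.ofReal_ne_zero.2 (Real.sqrt_pos.2 hz).ne'
  have h2 : ∀ j, ((√(m j).im : ℝ) : ℂ) ≠ 0 := fun j =>
    Complex.ofReal_ne_zero.2 (Real.sqrt_pos.2 (hm j)).ne'
  have hR : ∀ a b, ContinuousAt (fun w : ℝ × ℂ × (Fin (D + 1) → ℂ) => Rs w.1 w.2.1 w.2.2 a b)
      (t, z, m) := by
    rintro (_ | a) (_ | b) <;> simp only [Rs] <;>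
      exact ContinuousAt.div (by fun_prop) (by fun_prop) (by first | exact h1 | exact h2 _)
  refine continuousAt_pi.2 fun a => continuousAt_pi.2 fun b => ?_
  simp only [Ps, Matrix.of_apply]
  exact tendsto_finsetSum _ fun c _ => Complex.continuous_re.continuousAt.comp
    ((Complex.continuous_conj.continuousAt.comp (hR c a)).mul (hR c b))

theorem measM_BS (p : ℕ) (s : ℝ) (z : ℂ) {mf : Env D → ℂ} (h : Measurable mf) :
    MeasM (BS p s z mf) := by
  refine MeasM.ten fun a b => ?_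
  rcases a with _ | a <;> rcases b with (_ | b) | (_ | b) <;>
    simp only [Bs, Cs, gO, Matrix.of_apply, Sum.elim_inl, Sum.elim_inr] <;> fun_prop

theorem measM_PS (p : ℕ) (s : ℝ) (z : ℂ) {mf : Env D → ℂ} (h : Measurable mf) :
    MeasM (PS p s z mf) := by
  have hR : ∀ a b, Measurable fun σ : StarEnv D =>
      Rs (s * (σ.1 : ℝ)) z (fun j => mf (σ.2 j)) a b := by
    rintro (_ | a) (_ | b) <;> simp only [Rs] <;> fun_prop
  refine MeasM.ten fun a b => ?_
  simp only [Ps, Matrix.of_apply]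
  exact Finset.measurable_sum _ fun c _ => Complex.measurable_re.comp
    ((Complex.continuous_conj.measurable.comp (hR c a)).mul (hR c b))

end

end Crest.Agent.R166.B
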