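import Crest.Agent.R166.B.AlgE0
import Crest.Agent.R166.B.AlgS2
import Crest.Agent.R166.T0a

/-! # Edge matrices; cavity functions -/

set_option autoImplicit false
set_option linter.unusedVariables false
set_option linter.unusedSectionVars false

open MeasureTheory ProbabilityTheory Filter Topology Matrix
open scoped ENNReal BoundedContinuousFunction Kronecker

namespace Crest.Agent.R166.B

section
variable {D : ℕ}

theorem cav_mT (s : ℝ) (β : Measure J) {z : ℂ} (hz : 0 < z.im) : Cav D s β z (mT s z) := by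
  exact ⟨hz.le, (continuous_mT hz).measurable, ae_of_all _ fun e => mT_im_pos hz e,
    fun j => ae_of_all _ fun σ => mT_comb hz σ.1 _⟩

theorem AlgE_ae_snd (β : Measure J) [IsProbabilityMeasure β] {P : Env D → Prop}
    (h : ∀ᵐ e ∂(envLaw D β), P e) : ∀ᵐ σ ∂(starLaw D β), ∀ j, P (σ.2 j) := by
  refine ae_all_iff.2 fun j => ?_
  rw [← map_star_snd β j] at h
  exact ae_of_ae_map (f := fun σ : StarEnv D => σ.2 j)
    ((measurable_pi_apply j).comp measurable_snd).aemeasurable h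

theorem AlgE_ae_out (β : Measure J) [IsProbabilityMeasure β] {P : Env D → Prop}
    (h : ∀ᵐ e ∂(envLaw D β), P e) (j : Fin (D + 1)) : ∀ᵐ σ ∂(starLaw D β), P (outEnv σ j) :=
  (measurePreserving_fst.comp (T0b_edge D β j)).quasiMeasurePreserving.ae h

/-- pass to the limit in `mT_comb` along `zj E j` (`map_eEnv`, `map_star_snd`) -/
theorem cav_m0 (hD : 1 ≤ D) {s E : ℝ} {β : Measure J} [IsProbabilityMeasure β]
    (hT : TreeOK D s β E) : Cav D s β E (m0 s E) := by
  refine ⟨by simp, measurable_m0 E, hT.1.mono fun e he => he.2, fun j => ?_⟩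
  have h1 := AlgE_ae_snd β hT.1
  have h2 := AlgE_ae_out β hT.1 j
  filter_upwards [h1, h2] with σ hσ hσ'
  have hz : ∀ l : ℕ, 0 < (zj E l).im := fun l => by
    simp only [zj, Complex.add_im, Complex.ofReal_im, Complex.mul_im, Complex.ofReal_re,
      Complex.I_im, Complex.I_re, mul_one, mul_zero, zero_add, add_zero]
    positivity
  have hzj : Tendsto (fun l => zj E l) atTop (𝓝 (E : ℂ)) := by
    have h3 : Tendsto (fun l : ℕ => (2⁻¹ : ℝ) ^ l) atTop (𝓝 0) :=
      tendsto_pow_atTop_nhds_zero_of_lt_one (by norm_num) (by norm_num)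
    have h4 := ((Complex.continuous_ofReal.tendsto _).comp h3).mul_const Complex.I
    simpa [zj] using h4.const_add (E : ℂ)
  refine tendsto_nhds_unique hσ'.1 ?_
  simp only [outEnv, mT_comb (hz _)]
  refine Tendsto.div tendsto_const_nhds ((tendsto_const_nhds.sub hzj).sub
    (tendsto_finsetSum _ fun c _ => (hσ _).1)) fun h0 => ?_
  have h5 := congrArg Complex.im h0
  simp only [Complex.sub_im, Complex.ofReal_im, Complex.im_sum, Complex.zero_im] at h5
  have : Nonempty (Fin D) := ⟨⟨0, hD⟩⟩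
  have h6 : 0 < ∑ c : Fin D, (m0 s E (σ.2 (j.succAbove c))).im :=
    Finset.sum_pos (fun c _ => (hσ _).2) Finset.univ_nonempty
  linarith

theorem Cav.pos_star {s : ℝ} {β : Measure J} [IsProbabilityMeasure β] {z : ℂ} {mf : Env D → ℂ}
    (h : Cav D s β z mf) :
    ∀ᵐ σ ∂(starLaw D β), ∀ j, 0 < (mf (σ.2 j)).im ∧ 0 < (mf (outEnv σ j)).im := by
  filter_upwards [AlgE_ae_snd β h.pos, ae_all_iff.2 fun j => AlgE_ae_out β h.pos j] with σ h1 h2 j
  exact ⟨h1 j, h2 j⟩

theorem Cav.pos_edge {s : ℝ} {β : Measure J} [IsProbabilityMeasure β] {z : ℂ} {mf : Env D → ℂ}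
    (h : Cav D s β z mf) : ∀ᵐ e ∂(env2 D β), 0 < (mf e.1).im ∧ 0 < (mf e.2).im := by
  filter_upwards [measurePreserving_fst.quasiMeasurePreserving.ae h.pos,
    measurePreserving_snd.quasiMeasurePreserving.ae h.pos] with e h1 h2
  exact ⟨h1, h2⟩

/-- the edge block of the star covariance (`gC_edge`) -/
theorem Cav.gram (hD : 1 ≤ D) {s : ℝ} {β : Measure J} [IsProbabilityMeasure β] {z : ℂ}
    {mf : Env D → ℂ} (h : Cav D s β z mf) (p : ℕ) (j : Fin (D + 1)) :
    ∀ᵐ σ ∂(starLaw D β), (BS p s z mf σ * (BS p s z mf σ)ᵀ).submatrix (eI j) (eI j) =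
      BE p mf (eEnv j σ) * (BE p mf (eEnv j σ))ᵀ := by
  filter_upwards [h.pos_star, h.recur j] with σ h1 h2
  unfold BS BE
  rw [ten_transpose, ten_mul, ten_transpose, ten_mul, Bs_gram h.zim fun i => (h1 i).1,
    Be_gram (m := mf (eEnv j σ).1) (m' := mf (eEnv j σ).2) (h1 j).2 (h1 j).1]
  refine (ten_submatrix _ (eV j)).trans ?_
  congr 1
  ext b c
  simp only [eEnv, imM, submatrix_apply, of_apply, h2]
  rw [gC_edge (m := fun i => mf (σ.2 i)) (Complex.ofReal_im _) h.zim (fun i => (h1 i).1) hD j b c]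
  rfl

theorem continuous_mats (p : ℕ) (s : ℝ) {z : ℂ} (hz : 0 < z.im) :
    Continuous (BS (D := D) p s z (mT s z)) ∧ Continuous (PS (D := D) p s z (mT s z)) ∧
      Continuous (BE (D := D) p (mT s z)) ∧ Continuous (PE (D := D) p (mT s z)) := by
  have hm := continuous_mT (D := D) (s := s) hz
  have h1 : Continuous fun σ : StarEnv D =>
      ((s * (σ.1 : ℝ), z, fun j => mT s z (σ.2 j)) : ℝ × ℂ × (Fin (D + 1) → ℂ)) := by fun_prop
  have h2 : Continuous fun e : Env D × Env D => (mT s z e.1, mT s z e.2) := by fun_prop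
  have a1 : Continuous fun σ : StarEnv D => Bs (s * (σ.1 : ℝ)) z fun j => mT s z (σ.2 j) :=
    continuous_iff_continuousAt.2 fun σ => ContinuousAt.comp
      (g := fun w : ℝ × ℂ × (Fin (D + 1) → ℂ) => Bs w.1 w.2.1 w.2.2)
      (f := fun σ : StarEnv D => (s * (σ.1 : ℝ), z, fun j => mT s z (σ.2 j)))
      (continuousAt_Bs hz.le fun j => mT_im_pos hz (σ.2 j)) h1.continuousAt
  have a2 : Continuous fun σ : StarEnv D => Ps (s * (σ.1 : ℝ)) z fun j => mT s z (σ.2 j) :=
    continuous_iff_continuousAt.2 fun σ => ContinuousAt.comp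
      (g := fun w : ℝ × ℂ × (Fin (D + 1) → ℂ) => Ps w.1 w.2.1 w.2.2)
      (f := fun σ : StarEnv D => (s * (σ.1 : ℝ), z, fun j => mT s z (σ.2 j)))
      (continuousAt_Ps hz fun j => mT_im_pos hz (σ.2 j)) h1.continuousAt
  have a3 : Continuous fun e : Env D × Env D => Be (mT s z e.1) (mT s z e.2) :=
    continuous_iff_continuousAt.2 fun e => ContinuousAt.comp
      (g := fun w : ℂ × ℂ => Be w.1 w.2) (f := fun e : Env D × Env D => (mT s z e.1, mT s z e.2))
      (continuousAt_Be (mT_im_pos hz e.1) (mT_im_pos hz e.2)) h2.continuousAt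
  have a4 : Continuous fun e : Env D × Env D => Pe (mT s z e.1) (mT s z e.2) :=
    continuous_iff_continuousAt.2 fun e => ContinuousAt.comp
      (g := fun w : ℂ × ℂ => Pe w.1 w.2) (f := fun e : Env D × Env D => (mT s z e.1, mT s z e.2))
      (continuousAt_Pe (mT_im_pos hz e.1) (mT_im_pos hz e.2)) h2.continuousAt
  exact ⟨continuous_ten.comp a1, continuous_ten.comp a2, continuous_ten.comp a3,
    continuous_ten.comp a4⟩

theorem AlgE_bdd {X : Type} [TopologicalSpace X] [CompactSpace X] {f : X → ℝ} (hf : Continuous f) :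
    ∃ C : ℝ, ∀ x, |f x| ≤ C := by
  obtain ⟨C, hC⟩ := isCompact_univ.exists_bound_of_continuousOn hf.continuousOn
  exact ⟨C, fun x => hC x trivial⟩

theorem AlgE_bdd_mat {X I I' : Type} [TopologicalSpace X] [CompactSpace X] [Fintype I] [Fintype I']
    {A : X → Matrix I I' ℝ} (hA : Continuous A) : ∃ C : ℝ, ∀ x i j, |A x i j| ≤ C := by
  obtain ⟨C, hC⟩ := AlgE_bdd (f := fun x => ∑ i, ∑ j, |A x i j|)
    (continuous_finsetSum _ fun i _ => continuous_finsetSum _ fun j _ =>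
      (hA.matrix_elem i j).abs)
  refine ⟨C, fun x i j => le_trans ?_ ((le_abs_self _).trans (hC x))⟩
  refine le_trans ?_ (Finset.single_le_sum (f := fun i => ∑ j, |A x i j|)
    (fun i _ => Finset.sum_nonneg fun j _ => abs_nonneg _) (Finset.mem_univ i))
  exact Finset.single_le_sum (f := fun j => |A x i j|) (fun j _ => abs_nonneg _) (Finset.mem_univ j)

/-- compactness of the environments -/
theorem bound_mats (p : ℕ) (s : ℝ) {z : ℂ} (hz : 0 < z.im) : ∃ C : ℝ,
    (∀ (σ : StarEnv D) i j, |BS p s z (mT s z) σ i j| ≤ C) ∧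
    (∀ (σ : StarEnv D) i j, |PS p s z (mT s z) σ i j| ≤ C) ∧
    (∀ σ : StarEnv D, |Real.log (PS p s z (mT s z) σ).det| ≤ C) ∧
    (∀ (e : Env D × Env D) i j, |BE p (mT s z) e i j| ≤ C) ∧
    (∀ (e : Env D × Env D) i j, |PE p (mT s z) e i j| ≤ C) ∧
    ∀ e : Env D × Env D, |Real.log (PE p (mT s z) e).det| ≤ C := by
  obtain ⟨h1, h2, h3, h4⟩ := continuous_mats (D := D) p s hz
  obtain ⟨C1, b1⟩ := AlgE_bdd_mat h1
  obtain ⟨C2, b2⟩ := AlgE_bdd_mat h2
  obtain ⟨C3, b3⟩ := AlgE_bdd (h2.matrix_det.log fun σ =>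
    (ten_posDef (Ps_posDef hz.le fun j => mT_im_pos hz (σ.2 j))).det_pos.ne')
  obtain ⟨C4, b4⟩ := AlgE_bdd_mat h3
  obtain ⟨C5, b5⟩ := AlgE_bdd_mat h4
  obtain ⟨C6, b6⟩ := AlgE_bdd (h4.matrix_det.log fun e =>
    (ten_posDef (Pe_posDef (mT_im_pos hz e.1) (mT_im_pos hz e.2))).det_pos.ne')
  refine ⟨max (max C1 (max C2 C3)) (max C4 (max C5 C6)), fun σ i j => (b1 σ i j).trans ?_,
    fun σ i j => (b2 σ i j).trans ?_, fun σ => (b3 σ).trans ?_, fun σ i j => (b4 σ i j).trans ?_,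
    fun σ i j => (b5 σ i j).trans ?_, fun σ => (b6 σ).trans ?_⟩ <;> simp

end

end Crest.Agent.R166.B
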