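import Crest.Agent.R166.B.Basic

/-! # Edge matrices -/

set_option autoImplicit false
set_option linter.unusedVariables false
set_option linter.unusedSectionVars false

open MeasureTheory ProbabilityTheory Filter Topology Matrix
open scoped ENNReal BoundedContinuousFunction Kronecker

namespace Crest.Agent.R166.B

theorem AlgE0_sq (m : ℂ) : ‖m‖ ^ 2 = m.re ^ 2 + m.im ^ 2 := by
  rw [Complex.sq_norm, Complex.normSq_apply]
  ring

theorem AlgE0_N (m m' : ℂ) : Complex.normSq (1 - m * m') =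
    (1 - m.re * m'.re + m.im * m'.im) ^ 2 + (m.re * m'.im + m.im * m'.re) ^ 2 := by
  rw [Complex.normSq_apply]
  simp only [Complex.sub_re, Complex.one_re, Complex.mul_re, Complex.sub_im, Complex.one_im,
    Complex.mul_im]
  ring

theorem AlgE0_imM (m m' : ℂ) : imM (gE m m') =
    !![(m.im + (m.re ^ 2 + m.im ^ 2) * m'.im) / Complex.normSq (1 - m * m'),
        -(m.re * m'.im + m.im * m'.re) / Complex.normSq (1 - m * m');
      -(m.re * m'.im + m.im * m'.re) / Complex.normSq (1 - m * m'),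
        (m'.im + (m'.re ^ 2 + m'.im ^ 2) * m.im) / Complex.normSq (1 - m * m')] := by
  ext i j
  fin_cases i <;> fin_cases j <;> simp [imM, gE, Complex.div_im] <;> ring

theorem qB_self (m : ℂ) (a b : ℝ) : qB m a b a b = ‖(b : ℂ) + m * a‖ ^ 2 / m.im := by
  rw [qB, Complex.mul_conj, Complex.ofReal_re, Complex.sq_norm]

theorem Pe_form {m m' : ℂ} (x y : Fin 2 → ℝ) :
    x ⬝ᵥ Pe m m' *ᵥ y = qB m' (x 0) (x 1) (y 0) (y 1) + qB m (x 1) (x 0) (y 1) (y 0) := by
  simp [dotProduct, mulVec, Pe, qB, Fin.sum_univ_two, AlgE0_sq]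
  ring

theorem Be_gram {m m' : ℂ} (hm : 0 < m.im) (hm' : 0 < m'.im) :
    Be m m' * (Be m m')ᵀ = imM (gE m m') := (chol_mul (imM_gE_posDef hm hm')).1

theorem Be_Pe_one {m m' : ℂ} (hm : 0 < m.im) (hm' : 0 < m'.im) :
    Be m m' * (Be m m')ᵀ * Pe m m' = 1 := by
  have hN : Complex.normSq (1 - m * m') ≠ 0 :=
    (Complex.normSq_pos.2 (T0b_one_sub_ne hm hm')).ne'
  have h1 := hm.ne'
  have h2 := hm'.ne'
  rw [Be_gram hm hm', AlgE0_imM]
  ext i j
  fin_cases i <;> fin_cases j <;> simp [Pe, Matrix.mul_apply, Fin.sum_univ_two, AlgE0_sq] <;>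
    field_simp <;> (try rw [AlgE0_N]) <;> ring

theorem Pe_posDef {m m' : ℂ} (hm : 0 < m.im) (hm' : 0 < m'.im) : (Pe m m').PosDef := by
  have h := Be_Pe_one hm hm'
  rw [Be_gram hm hm'] at h
  rw [← Matrix.inv_eq_right_inv h]
  exact (imM_gE_posDef hm hm').inv

theorem log_det_Pe {m m' : ℂ} (hm : 0 < m.im) (hm' : 0 < m'.im) :
    Real.log (Pe m m').det =
      2 * Real.log ‖1 - m * m'‖ - Real.log m.im - Real.log m'.im := by
  have hN : ‖1 - m * m'‖ ≠ 0 := norm_ne_zero_iff.2 (T0b_one_sub_ne hm hm')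
  have h1 := hm.ne'
  have h2 := hm'.ne'
  have e : (Pe m m').det = ‖1 - m * m'‖ ^ 2 / m.im / m'.im := by
    rw [Pe, Matrix.det_fin_two_of, AlgE0_sq m, AlgE0_sq m', Complex.sq_norm, AlgE0_N]
    field_simp
    ring
  rw [e, Real.log_div (div_ne_zero (pow_ne_zero 2 hN) h1) h2, Real.log_div (pow_ne_zero 2 hN) h1,
    Real.log_pow]
  norm_num

theorem Pe_swap (m m' : ℂ) : Pe m' m = (Pe m m').submatrix Fin.rev Fin.rev := by
  ext i j
  fin_cases i <;> fin_cases j <;> simp [Pe, add_comm]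

theorem gE_swap (m m' : ℂ) : imM (gE m' m) = (imM (gE m m')).submatrix Fin.rev Fin.rev := by
  ext i j
  fin_cases i <;> fin_cases j <;> simp [imM, gE, mul_comm]

theorem AlgE0_contS {m m' : ℂ} (hm : 0 < m.im) (hm' : 0 < m'.im) (i j : Fin 2) :
    ContinuousAt (fun w : ℂ × ℂ => imM (gE w.1 w.2) i j) (m, m') := by
  have hN := T0b_one_sub_ne hm hm'
  refine Complex.continuous_im.continuousAt.comp (ContinuousAt.div ?_ (by fun_prop) hN)
  split_ifs <;> fun_prop

theorem AlgE0_measS (i j : Fin 2) : Measurable fun w : ℂ × ℂ => imM (gE w.1 w.2) i j := by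
  refine Complex.measurable_im.comp (Measurable.div ?_ (by fun_prop))
  split_ifs <;> fun_prop

theorem continuousAt_Be {m m' : ℂ} (hm : 0 < m.im) (hm' : 0 < m'.im) :
    ContinuousAt (fun w : ℂ × ℂ => Be w.1 w.2) (m, m') := by
  have hS := AlgE0_contS hm hm'
  have h0 : 0 < imM (gE m m') 0 0 := (imM_gE_posDef hm hm').diag_pos
  refine continuousAt_pi.2 fun i => continuousAt_pi.2 fun j => ?_
  fin_cases i <;> fin_cases j
  · exact (hS 0 0).sqrt
  · exact continuousAt_const
  · exact (hS 1 0).div (hS 0 0).sqrt (Real.sqrt_pos.2 h0).ne'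
  · exact ((hS 1 1).sub (((hS 1 0).pow 2).div (hS 0 0) h0.ne')).sqrt

theorem continuousAt_Pe {m m' : ℂ} (hm : 0 < m.im) (hm' : 0 < m'.im) :
    ContinuousAt (fun w : ℂ × ℂ => Pe w.1 w.2) (m, m') := by
  have h1 := hm.ne'
  have h2 := hm'.ne'
  refine continuousAt_pi.2 fun i => continuousAt_pi.2 fun j => ?_
  fin_cases i <;> fin_cases j
  · show ContinuousAt (fun w : ℂ × ℂ => 1 / w.1.im + ‖w.2‖ ^ 2 / w.2.im) (m, m')
    fun_prop (disch := assumption)
  · show ContinuousAt (fun w : ℂ × ℂ => w.1.re / w.1.im + w.2.re / w.2.im) (m, m')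
    fun_prop (disch := assumption)
  · show ContinuousAt (fun w : ℂ × ℂ => w.1.re / w.1.im + w.2.re / w.2.im) (m, m')
    fun_prop (disch := assumption)
  · show ContinuousAt (fun w : ℂ × ℂ => ‖w.1‖ ^ 2 / w.1.im + 1 / w.2.im) (m, m')
    fun_prop (disch := assumption)

section
variable {D : ℕ}

theorem measM_BE (p : ℕ) {mf : Env D → ℂ} (h : Measurable mf) : MeasM (BE p mf) := by
  refine MeasM.ten fun i j => ?_
  have hw : Measurable fun e : Env D × Env D => (mf e.1, mf e.2) := by fun_prop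
  have hS := fun i j => (AlgE0_measS i j).comp hw
  fin_cases i <;> fin_cases j
  · exact (hS 0 0).sqrt
  · exact measurable_const
  · exact (hS 1 0).div (hS 0 0).sqrt
  · exact ((hS 1 1).sub (((hS 1 0).pow_const 2).div (hS 0 0))).sqrt

theorem measM_PE (p : ℕ) {mf : Env D → ℂ} (h : Measurable mf) : MeasM (PE p mf) := by
  refine MeasM.ten fun i j => ?_
  fin_cases i <;> fin_cases j
  · show Measurable fun e : Env D × Env D => 1 / (mf e.1).im + ‖mf e.2‖ ^ 2 / (mf e.2).im
    fun_prop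
  · show Measurable fun e : Env D × Env D => (mf e.1).re / (mf e.1).im + (mf e.2).re / (mf e.2).im
    fun_prop
  · show Measurable fun e : Env D × Env D => (mf e.1).re / (mf e.1).im + (mf e.2).re / (mf e.2).im
    fun_prop
  · show Measurable fun e : Env D × Env D => ‖mf e.1‖ ^ 2 / (mf e.1).im + 1 / (mf e.2).im
    fun_prop

end

end Crest.Agent.R166.B
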