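import Crest.Agent.R166.B.Basic

/-! # Star matrices -/

set_option autoImplicit false
set_option linter.unusedVariables false
set_option linter.unusedSectionVars false

open MeasureTheory ProbabilityTheory Filter Topology Matrix
open scoped ENNReal BoundedContinuousFunction Kronecker

namespace Crest.Agent.R166.B

section
variable {D : ℕ} {t : ℝ} {z : ℂ} {m : Fin (D + 1) → ℂ}

private theorem algS_gw (hz : 0 ≤ z.im) (hm : ∀ j, 0 < (m j).im) :
    gO t z m * ((t : ℂ) - z - ∑ j, m j) = 1 := by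
  have h : (t : ℂ) - z - ∑ j, m j ≠ 0 := fun e => by
    have h1 := congrArg Complex.im e
    have h2 : 0 < ∑ j, (m j).im := Finset.sum_pos (fun j _ => hm j) Finset.univ_nonempty
    simp only [Complex.sub_im, Complex.ofReal_im, Complex.im_sum, Complex.zero_im] at h1
    linarith
  unfold gO
  field_simp

private theorem algS_im (w : ℂ) : ((w.im : ℝ) : ℂ) = (w - (starRingEnd ℂ) w) / (2 * Complex.I) := by
  rw [Complex.sub_conj]
  field_simp
  push_cast
  ring

private theorem algS_img (hz : 0 ≤ z.im) (hm : ∀ j, 0 < (m j).im) :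
    gO t z m * (starRingEnd ℂ) (gO t z m) * (((z.im : ℝ) : ℂ) + ∑ j, (((m j).im : ℝ) : ℂ)) =
      ((gO t z m).im : ℝ) := by
  have h1 := algS_gw (t := t) hz hm
  have h2 := congrArg (starRingEnd ℂ) h1
  have h3 : ((z.im : ℝ) : ℂ) + ∑ j, (((m j).im : ℝ) : ℂ) =
      -((((t : ℂ) - z - ∑ j, m j).im : ℝ) : ℂ) := by
    simp only [Complex.sub_im, Complex.ofReal_im, Complex.im_sum]
    push_cast
    ring
  rw [map_mul, map_one] at h2
  rw [h3, algS_im, algS_im]
  linear_combination (-(starRingEnd ℂ) (gO t z m) / (2 * Complex.I)) * h1 +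
    (gO t z m / (2 * Complex.I)) * h2

private theorem algS_sq {x : ℝ} (hx : 0 ≤ x) : ((√x : ℝ) : ℂ) * ((√x : ℝ) : ℂ) = (x : ℝ) := by
  rw [← Complex.ofReal_mul, Real.mul_self_sqrt hx]

private theorem algS_CC (hz : 0 ≤ z.im) (hm : ∀ j, 0 < (m j).im) (a b : SV D) :
    ∑ c, Cs t z m a c * (starRingEnd ℂ) (Cs t z m b c) = ((gC t z m a b).im : ℝ) := by
  have hg := algS_img (t := t) hz hm
  have key : ∀ (v v' : ℂ) (E E' : Fin (D + 1) → ℂ),
      v * gO t z m * (√z.im : ℝ) * (starRingEnd ℂ) (v' * gO t z m * (√z.im : ℝ)) +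
        ∑ j, (E j - v * gO t z m) * (√(m j).im : ℝ) *
          (starRingEnd ℂ) ((E' j - v' * gO t z m) * (√(m j).im : ℝ)) =
      v * (starRingEnd ℂ) v' * ((gO t z m).im : ℝ) +
        (∑ j, E j * (starRingEnd ℂ) (E' j) * (((m j).im : ℝ) : ℂ)) -
        v * gO t z m * (∑ j, (starRingEnd ℂ) (E' j) * (((m j).im : ℝ) : ℂ)) -
        (starRingEnd ℂ) v' * (starRingEnd ℂ) (gO t z m) * ∑ j, E j * (((m j).im : ℝ) : ℂ) := by
    intro v v' E E'
    rw [← hg, mul_add, mul_add, Finset.mul_sum, Finset.mul_sum, Finset.mul_sum, Finset.mul_sum,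
      add_assoc, ← Finset.sum_add_distrib, add_sub_assoc, ← Finset.sum_sub_distrib, add_sub_assoc,
      ← Finset.sum_sub_distrib]
    simp only [map_mul, map_sub, Complex.conj_ofReal]
    congr 1
    · linear_combination (v * gO t z m * (starRingEnd ℂ) v' * (starRingEnd ℂ) (gO t z m)) *
        algS_sq hz
    · refine Finset.sum_congr rfl fun j _ => ?_
      linear_combination ((E j - v * gO t z m) * ((starRingEnd ℂ) (E' j) -
        (starRingEnd ℂ) v' * (starRingEnd ℂ) (gO t z m))) * algS_sq (hm j).le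
  rw [Fintype.sum_option]
  rcases a with _ | i <;> rcases b with _ | k
  · have := key 1 1 0 0
    simp only [Pi.zero_apply, one_mul, zero_sub, map_one, map_zero, zero_mul, mul_zero,
      Finset.sum_const_zero, add_zero, sub_zero] at this
    simpa only [Cs, gC] using this
  · have := key 1 (-m k) 0 fun j => if k = j then 1 else 0
    simp only [Pi.zero_apply, one_mul, zero_sub, zero_mul, mul_zero, Finset.sum_const_zero,
      add_zero, sub_zero, neg_mul, sub_neg_eq_add, apply_ite (starRingEnd ℂ), map_one, map_zero,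
      ite_mul, Finset.sum_ite_eq, Finset.mem_univ, if_true] at this
    simp only [Cs, gC, neg_mul]
    rw [this]
    simp only [algS_im, map_neg, map_mul]
    ring
  · have := key (-m i) 1 (fun j => if i = j then 1 else 0) 0
    simp only [Pi.zero_apply, one_mul, zero_sub, zero_mul, mul_zero, Finset.sum_const_zero,
      add_zero, sub_zero, neg_mul, sub_neg_eq_add, map_one, map_zero, mul_one,
      ite_mul, Finset.sum_ite_eq, Finset.mem_univ, if_true] at this
    simp only [Cs, gC, neg_mul]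
    rw [this]
    simp only [algS_im, map_neg, map_mul]
    ring
  · have := key (-m i) (-m k) (fun j => if i = j then 1 else 0) fun j => if k = j then 1 else 0
    simp only [one_mul, zero_mul, neg_mul, sub_neg_eq_add, apply_ite (starRingEnd ℂ), map_one,
      map_zero, ite_mul, Finset.sum_ite_eq, Finset.mem_univ, if_true] at this
    simp only [Cs, gC, neg_mul]
    rw [this]
    by_cases hik : i = k
    · subst hik
      simp only [if_true, algS_im, map_neg, map_mul, map_add]
      ring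
    · simp only [if_neg hik, if_neg (Ne.symm hik), algS_im, map_neg, map_mul, zero_add]
      ring

/-- `Im g = |g|² (Im z + Σ Im m_j)`; entrywise -/
theorem Bs_gram (hz : 0 ≤ z.im) (hm : ∀ j, 0 < (m j).im) :
    Bs t z m * (Bs t z m)ᵀ = imM (gC t z m) := by
  ext a b
  have h := congrArg Complex.re (algS_CC (t := t) hz hm a b)
  rw [Complex.ofReal_re, Complex.re_sum] at h
  simp only [Matrix.mul_apply, Matrix.transpose_apply, Bs, Matrix.of_apply, Fintype.sum_sum_type,
    Sum.elim_inl, Sum.elim_inr, imM]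
  rw [← h, ← Finset.sum_add_distrib]
  refine Finset.sum_congr rfl fun c _ => ?_
  simp

private theorem algS_Rx0 (x : SV D → ℝ) : ∑ a, Rs t z m none a * (x a : ℝ) =
    (((t : ℂ) - z) * (x none : ℝ) + ((∑ j, x (some j) : ℝ) : ℂ)) / (√z.im : ℝ) := by
  rw [Fintype.sum_option, add_div, Complex.ofReal_sum, Finset.sum_div]
  simp only [Rs]
  congr 1
  · ring
  · exact Finset.sum_congr rfl fun j _ => by ring

private theorem algS_Rx1 (x : SV D → ℝ) (j : Fin (D + 1)) : ∑ a, Rs t z m (some j) a * (x a : ℝ) =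
    ((x (some j) : ℂ) + m j * (x none : ℝ)) / (√(m j).im : ℝ) := by
  rw [Fintype.sum_option, Finset.sum_eq_single j]
  · simp only [Rs, if_true]
    ring
  · intro i _ hi
    simp [Rs, hi]
  · simp

private theorem algS_re {η : ℝ} (hη : 0 ≤ η) (A B : ℂ) :
    ((starRingEnd ℂ) (A / (√η : ℝ)) * (B / (√η : ℝ))).re = (A * (starRingEnd ℂ) B).re / η := by
  rw [map_div₀, Complex.conj_ofReal, div_mul_div_comm, algS_sq hη, Complex.div_ofReal_re]
  congr 1
  simp

theorem Ps_form (hz : 0 ≤ z.im) (hm : ∀ j, 0 < (m j).im) (x y : SV D → ℝ) :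
    x ⬝ᵥ Ps t z m *ᵥ y =
      ((((t : ℂ) - z) * (x none : ℝ) + ((∑ j, x (some j) : ℝ) : ℂ)) *
        (starRingEnd ℂ) (((t : ℂ) - z) * (y none : ℝ) + ((∑ j, y (some j) : ℝ) : ℂ))).re / z.im +
      ∑ j, qB (m j) (x none) (x (some j)) (y none) (y (some j)) := by
  have h1 : x ⬝ᵥ Ps t z m *ᵥ y = ∑ c, ((starRingEnd ℂ) (∑ a, Rs t z m c a * (x a : ℝ)) *
      ∑ b, Rs t z m c b * (y b : ℝ)).re := by
    simp only [dotProduct, Matrix.mulVec, Ps, Matrix.of_apply, map_sum, Finset.sum_mul,
      Finset.mul_sum, Complex.re_sum]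
    rw [Finset.sum_comm (f := fun c b => ∑ a, ((starRingEnd ℂ) (Rs t z m c a * (x a : ℝ)) *
      (Rs t z m c b * (y b : ℝ))).re), Finset.sum_comm]
    refine Finset.sum_congr rfl fun b _ => ?_
    rw [Finset.sum_comm]
    refine Finset.sum_congr rfl fun c _ => Finset.sum_congr rfl fun a _ => ?_
    simp
    ring
  rw [h1, Fintype.sum_option, algS_Rx0, algS_Rx0, algS_re hz]
  congr 1
  refine Finset.sum_congr rfl fun j _ => ?_
  rw [algS_Rx1, algS_Rx1, algS_re (hm j).le, qB]

theorem Ps_posDef (hz : 0 ≤ z.im) (hm : ∀ j, 0 < (m j).im) : (Ps t z m).PosDef := by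
  refine Matrix.PosDef.of_dotProduct_mulVec_pos ?_ fun x hx => ?_
  · ext a b
    simp only [Matrix.conjTranspose_apply, star_trivial, Ps, Matrix.of_apply]
    refine Finset.sum_congr rfl fun c _ => ?_
    simp
    ring
  · rw [star_trivial, Ps_form hz hm, Complex.mul_conj, Complex.ofReal_re]
    have hq : ∀ j, qB (m j) (x none) (x (some j)) (x none) (x (some j)) =
        Complex.normSq ((x (some j) : ℂ) + m j * (x none : ℝ)) / (m j).im := fun j => by
      rw [qB, Complex.mul_conj, Complex.ofReal_re]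
    simp only [hq]
    refine add_pos_of_nonneg_of_pos (div_nonneg (Complex.normSq_nonneg _) hz)
      (Finset.sum_pos' (fun j _ => div_nonneg (Complex.normSq_nonneg _) (hm j).le) ?_)
    by_contra hne
    have h0 : ∀ j, (x (some j) : ℂ) + m j * (x none : ℝ) = 0 := fun j => by
      by_contra h
      exact hne ⟨j, Finset.mem_univ _, div_pos (Complex.normSq_pos.2 h) (hm j)⟩
    have h1 : x none = 0 := by
      have := congrArg Complex.im (h0 0)
      simpa [(hm 0).ne'] using this
    refine hx (funext fun a => ?_)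
    rcases a with _ | j
    · exact h1
    · simpa [h1] using h0 j

private theorem algS_RC (hz : 0 ≤ z.im) (hm : ∀ j, 0 < (m j).im) :
    Matrix.of (Rs t z m) * Matrix.of (Cs t z m) = Matrix.diagonal fun a : SV D =>
      a.elim (((√z.im : ℝ) : ℂ) / (√z.im : ℝ)) fun _ => 1 := by
  have hg := algS_gw (t := t) hz hm
  have hs : ∀ j, ((√(m j).im : ℝ) : ℂ) ≠ 0 := fun j =>
    Complex.ofReal_ne_zero.2 (Real.sqrt_pos.2 (hm j)).ne'
  ext a b
  rw [Matrix.mul_apply, Fintype.sum_option]
  rcases a with _ | i <;> rcases b with _ | k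
  · simp only [Matrix.of_apply, Rs, Cs, Matrix.diagonal_apply_eq, Option.elim]
    have : ∑ j, 1 / ((√z.im : ℝ) : ℂ) * (-(m j * gO t z m) * (√z.im : ℝ)) =
        -(∑ j, m j) * gO t z m * (((√z.im : ℝ) : ℂ) / (√z.im : ℝ)) := by
      rw [neg_mul, neg_mul, Finset.sum_mul, Finset.sum_mul, ← Finset.sum_neg_distrib]
      exact Finset.sum_congr rfl fun j _ => by ring
    rw [this]
    linear_combination (((√z.im : ℝ) : ℂ) / (√z.im : ℝ)) * hg
  · simp only [Matrix.of_apply, Rs, Cs]
    have : ∑ j, 1 / ((√z.im : ℝ) : ℂ) *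
        (((if j = k then 1 else 0) + m j * gO t z m) * (√(m k).im : ℝ)) =
        (1 + (∑ j, m j) * gO t z m) * (((√(m k).im : ℝ) : ℂ) / (√z.im : ℝ)) := by
      have e : (1 : ℂ) = ∑ j, if j = k then 1 else 0 := by simp
      conv_rhs => rw [e, Finset.sum_mul, ← Finset.sum_add_distrib, Finset.sum_mul]
      exact Finset.sum_congr rfl fun j _ => by ring
    rw [this, Matrix.diagonal_apply_ne _ (by simp)]
    linear_combination (-(((√(m k).im : ℝ) : ℂ) / (√z.im : ℝ))) * hg
  · rw [Finset.sum_eq_single i, Matrix.diagonal_apply_ne _ (by simp)]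
    · simp only [Matrix.of_apply, Rs, Cs, if_true]
      ring
    · intro j _ hj
      simp [Rs, hj]
    · simp
  · rw [Finset.sum_eq_single i]
    · simp only [Matrix.of_apply, Rs, Cs, if_true]
      by_cases hik : i = k
      · subst hik
        simp only [if_true, Matrix.diagonal_apply_eq, Option.elim]
        have := hs i
        field_simp
        ring
      · rw [if_neg hik, Matrix.diagonal_apply_ne _ (by simpa using hik)]
        ring
    · intro j _ hj
      simp [Rs, hj]
    · simp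

private theorem algS_CR (hz : 0 ≤ z.im) (hm : ∀ j, 0 < (m j).im) {x : SV D → ℝ}
    (hx : 0 < z.im ∨ ∑ j, x (some j) = (z.re - t) * x none) (a : SV D) :
    ∑ c, Cs t z m a c * ∑ b, Rs t z m c b * (x b : ℝ) = (x a : ℝ) := by
  have hg := algS_gw (t := t) hz hm
  have hs : ∀ j, ((√(m j).im : ℝ) : ℂ) ≠ 0 := fun j =>
    Complex.ofReal_ne_zero.2 (Real.sqrt_pos.2 (hm j)).ne'
  have h0 : ((√z.im : ℝ) : ℂ) *
      ((((t : ℂ) - z) * (x none : ℝ) + ((∑ j, x (some j) : ℝ) : ℂ)) / (√z.im : ℝ)) =
      ((t : ℂ) - z) * (x none : ℝ) + ∑ j, ((x (some j) : ℝ) : ℂ) := by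
    rw [← Complex.ofReal_sum]
    rcases hz.eq_or_lt with e | e
    · rcases hx with hx | hx
      · exact absurd e hx.ne
      · have : ((t : ℂ) - z) * (x none : ℝ) + ((∑ j, x (some j) : ℝ) : ℂ) = 0 := by
          rw [hx]
          apply Complex.ext <;> simp [← e]
          ring
        rw [this, zero_div, mul_zero]
    · have : ((√z.im : ℝ) : ℂ) ≠ 0 := Complex.ofReal_ne_zero.2 (Real.sqrt_pos.2 e).ne'
      field_simp
  have h1 : ∀ (E : Fin (D + 1) → ℂ) (G : ℂ), ∑ j, (E j + G) * (√(m j).im : ℝ) *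
      (((x (some j) : ℂ) + m j * (x none : ℝ)) / (√(m j).im : ℝ)) =
      ∑ j, E j * ((x (some j) : ℂ) + m j * (x none : ℝ)) +
        G * (∑ j, ((x (some j) : ℝ) : ℂ) + (∑ j, m j) * (x none : ℝ)) := by
    intro E G
    rw [Finset.sum_mul, ← Finset.sum_add_distrib, Finset.mul_sum, ← Finset.sum_add_distrib]
    refine Finset.sum_congr rfl fun j _ => ?_
    have := hs j
    field_simp
  rw [Fintype.sum_option, algS_Rx0]
  simp only [algS_Rx1]
  rcases a with _ | i
  · have := h1 0 (-gO t z m)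
    simp only [Pi.zero_apply, zero_add, zero_mul, Finset.sum_const_zero] at this
    simp only [Cs]
    rw [this, mul_assoc, h0]
    linear_combination ((x none : ℝ) : ℂ) * hg
  · have := h1 (fun j => if i = j then 1 else 0) (m i * gO t z m)
    simp only [ite_mul, one_mul, zero_mul, Finset.sum_ite_eq, Finset.mem_univ, if_true] at this
    simp only [Cs]
    rw [this, mul_assoc, h0]
    linear_combination (-(m i * ((x none : ℝ) : ℂ))) * hg

/-- With `C = Cs`, `R = Rs` as complex matrices: `C Cᴴ = Im gC` is real, `R C` is the diagonal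
projection `Π` with `Π R = R`, and `C R x = x`; so `Σ Rᴴ R x = C (R C)ᴴ R x = x`; take real parts. -/
theorem Bs_Ps_fix (hz : 0 ≤ z.im) (hm : ∀ j, 0 < (m j).im) {x : SV D → ℝ}
    (hx : 0 < z.im ∨ ∑ j, x (some j) = (z.re - t) * x none) :
    (Bs t z m * (Bs t z m)ᵀ * Ps t z m) *ᵥ x = x := by
  rw [Bs_gram hz hm]
  set C : Matrix (SV D) (SV D) ℂ := Matrix.of (Cs t z m) with hC
  set R : Matrix (SV D) (SV D) ℂ := Matrix.of (Rs t z m) with hR
  have h1 : C * Cᴴ = (imM (gC t z m)).map (fun r : ℝ => (r : ℂ)) := by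
    ext a b
    exact algS_CC hz hm a b
  have h2 : (R * C)ᴴ * R = R := by
    rw [hR, hC, algS_RC hz hm, Matrix.diagonal_conjTranspose]
    ext a b
    rw [Matrix.diagonal_mul]
    rcases a with _ | j
    · by_cases e : ((√z.im : ℝ) : ℂ) = 0
      · rcases b with _ | k <;> simp [Rs, e]
      · simp [div_self e]
    · simp
  have h3 : (imM (gC t z m)).map (fun r : ℝ => (r : ℂ)) * (Rᴴ * R) = C * R := by
    rw [← h1, Matrix.mul_assoc, ← Matrix.mul_assoc Cᴴ, ← Matrix.conjTranspose_mul, h2]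
  funext a
  have h4 : ((C * R) *ᵥ fun b => ((x b : ℝ) : ℂ)) a = (x a : ℝ) := by
    rw [← Matrix.mulVec_mulVec]
    exact algS_CR hz hm hx a
  rw [← h3] at h4
  have h5 := congrArg Complex.re h4
  rw [Complex.ofReal_re] at h5
  rw [← h5]
  simp only [Matrix.mulVec, dotProduct, Matrix.mul_apply, Matrix.map_apply, Complex.re_sum,
    Complex.mul_re, Complex.ofReal_re, Complex.ofReal_im, mul_zero, zero_mul, sub_zero, Ps,
    Matrix.of_apply, Matrix.conjTranspose_apply, hR, Complex.star_def]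

theorem Bs_Ps_one (hz : 0 < z.im) (hm : ∀ j, 0 < (m j).im) :
    Bs t z m * (Bs t z m)ᵀ * Ps t z m = 1 := by
  refine Matrix.ext_of_mulVec_single fun i => ?_
  rw [Bs_Ps_fix hz.le hm (Or.inl hz), Matrix.one_mulVec]

end

end Crest.Agent.R166.B
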