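import Crest.Agent.R166.B.Defs
import Crest.Agent.R166.T0b

/-! # Part B: elementary facts -/

set_option autoImplicit false
set_option linter.unusedVariables false
set_option linter.unusedSectionVars false

open MeasureTheory ProbabilityTheory Filter Topology Matrix
open scoped ENNReal BoundedContinuousFunction Kronecker

namespace Crest.Agent.R166.B

section Ten
variable {p : ℕ} {K N M : Type}

theorem ten_apply (A : Matrix K N ℝ) (k : K × Fin p) (n : N × Fin p) :
    ten p A k n = if k.2 = n.2 then A k.1 n.1 else 0 := by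
  simp [ten, Matrix.one_apply]

theorem ten_transpose (A : Matrix K N ℝ) : (ten p A)ᵀ = ten p Aᵀ := by
  ext k n
  simp [ten_apply, eq_comm]

theorem ten_mul [Fintype N] (A : Matrix K N ℝ) (B : Matrix N M ℝ) :
    ten p A * ten p B = ten p (A * B) := by
  rw [ten, ten, ten, ← Matrix.mul_kronecker_mul, Matrix.one_mul]

theorem ten_one [DecidableEq K] : ten p (1 : Matrix K K ℝ) = 1 := by
  simp [ten]

theorem ten_mulVec [Fintype N] (A : Matrix K N ℝ) (g : N × Fin p → ℝ) (k : K × Fin p) :
    (ten p A *ᵥ g) k = ∑ n, A k.1 n * g (n, k.2) := by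
  simp only [Matrix.mulVec, dotProduct, ten_apply, Fintype.sum_prod_type, ite_mul, zero_mul,
    Finset.sum_ite_eq, Finset.mem_univ, if_true]

theorem ten_form [Fintype K] [Fintype N] (A : Matrix K N ℝ) (x : K × Fin p → ℝ)
    (y : N × Fin p → ℝ) :
    x ⬝ᵥ ten p A *ᵥ y = ∑ a, (fun k => x (k, a)) ⬝ᵥ A *ᵥ fun n => y (n, a) := by
  simp only [dotProduct, ten_mulVec, Fintype.sum_prod_type]
  rw [Finset.sum_comm]
  rfl

theorem ten_det [Fintype K] [DecidableEq K] (A : Matrix K K ℝ) : (ten p A).det = A.det ^ p := by
  simp [ten, Matrix.det_kronecker]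

theorem ten_trace [Fintype K] (A : Matrix K K ℝ) : (ten p A).trace = p * A.trace := by
  simp [ten, Matrix.trace_kronecker, mul_comm]

theorem ten_posSemidef [Fintype K] {A : Matrix K K ℝ} (h : A.PosSemidef) :
    (ten p A).PosSemidef := by
  exact h.kronecker Matrix.PosSemidef.one

theorem ten_posDef [Fintype K] {A : Matrix K K ℝ} (h : A.PosDef) : (ten p A).PosDef := by
  classical
  exact h.kronecker Matrix.PosDef.one

theorem ten_submatrix {K' : Type} (A : Matrix K K ℝ) (f : K' → K) :
    (ten p A).submatrix (fun k : K' × Fin p => (f k.1, k.2)) (fun k => (f k.1, k.2)) =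
      ten p (A.submatrix f f) := by
  ext k n
  simp [ten_apply]

theorem MeasM.ten {S : Type} [MeasurableSpace S] {A : S → Matrix K N ℝ} (h : MeasM A) :
    MeasM fun σ => ten p (A σ) := by
  intro i j
  simp only [ten_apply]
  split_ifs
  · exact h _ _
  · exact measurable_const

theorem continuous_ten : Continuous (ten p : Matrix K N ℝ → _) := by
  refine continuous_pi fun i => continuous_pi fun j => ?_
  simp only [ten_apply]
  split_ifs
  · exact (continuous_apply _).comp (continuous_apply _)
  · exact continuous_const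

end Ten

section Edge
variable {D p : ℕ}

theorem continuous_eEnv (j : Fin (D + 1)) : Continuous (eEnv j : StarEnv D → _) := by
  exact (continuous_outEnv j).prodMk ((continuous_apply j).comp continuous_snd)

theorem continuous_edgeJ (j : Fin (D + 1)) : Continuous (edgeJ j : SX D p → _) := by
  exact ((continuous_eEnv j).comp continuous_fst).prodMk
    (continuous_pi fun k => (continuous_apply _).comp continuous_snd)

theorem continuous_flipE : Continuous (flipE : EX D p → _) := by
  exact (continuous_swap.comp continuous_fst).prodMk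
    (continuous_pi fun k => (continuous_apply _).comp continuous_snd)

theorem flipE_flipE (q : EX D p) : flipE (flipE q) = q := by
  refine Prod.ext rfl (funext fun k => ?_)
  simp [flipE, swI]

theorem map_eEnv (β : Measure J) [IsProbabilityMeasure β] (j : Fin (D + 1)) :
    (starLaw D β).map (eEnv j) = env2 D β := starLaw_edge D β j

theorem map_star_snd (β : Measure J) [IsProbabilityMeasure β] (j : Fin (D + 1)) :
    (starLaw D β).map (fun σ => σ.2 j) = envLaw D β := by
  have h := congrArg (Measure.map Prod.snd) (map_eEnv β j)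
  rw [Measure.map_map measurable_snd (continuous_eEnv j).measurable] at h
  rw [show (fun σ : StarEnv D => σ.2 j) = Prod.snd ∘ eEnv j from rfl, h]
  simp

instance (μ : Measure (SX D p)) [IsProbabilityMeasure μ] : IsProbabilityMeasure (edgeLaw μ) := by
  constructor
  have h : ∀ j, μ.map (edgeJ j) Set.univ = 1 := fun j => by
    rw [Measure.map_apply (continuous_edgeJ j).measurable MeasurableSet.univ]; simp
  simp only [edgeLaw, Measure.smul_apply, Measure.coe_finsetSum, Finset.sum_apply, h,
    Finset.sum_const, Finset.card_univ, Fintype.card_fin, smul_eq_mul, nsmul_eq_mul, mul_one]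
  exact ENNReal.inv_mul_cancel (by simp) (by simp)

theorem integrable_edgeLaw {μ : Measure (SX D p)} {G : Type} [NormedAddCommGroup G]
    {f : EX D p → G} (hf : StronglyMeasurable f) :
    Integrable f (edgeLaw μ) ↔ ∀ j, Integrable (fun q => f (edgeJ j q)) μ := by
  rw [edgeLaw, integrable_smul_measure (by simp) (by simp), integrable_finsetSum_measure]
  simp only [Finset.mem_univ, forall_true_left]
  exact forall_congr' fun j =>
    integrable_map_measure hf.aestronglyMeasurable (continuous_edgeJ j).measurable.aemeasurable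

theorem integral_edgeLaw {μ : Measure (SX D p)} {f : EX D p → ℝ} (hf : StronglyMeasurable f)
    (hi : ∀ j, Integrable (fun q => f (edgeJ j q)) μ) :
    ∫ q, f q ∂(edgeLaw μ) = avg fun j => ∫ q, f (edgeJ j q) ∂μ := by
  have h : ∀ j, Integrable f (μ.map (edgeJ j)) := fun j =>
    (integrable_map_measure hf.aestronglyMeasurable
      (continuous_edgeJ j).measurable.aemeasurable).2 (hi j)
  rw [edgeLaw, integral_smul_measure, integral_finsetSum_measure fun j _ => h j]
  simp only [integral_map (continuous_edgeJ _).measurable.aemeasurable hf.aestronglyMeasurable]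
  rw [avg, Fintype.card_fin, ENNReal.toReal_inv, ENNReal.toReal_natCast, smul_eq_mul,
    div_eq_inv_mul]

theorem ae_edgeLaw {μ : Measure (SX D p)} {P : EX D p → Prop} (h : ∀ᵐ q ∂(edgeLaw μ), P q)
    (j : Fin (D + 1)) : ∀ᵐ q ∂μ, P (edgeJ j q) := by
  refine ae_of_ae_map (continuous_edgeJ j).measurable.aemeasurable ?_
  rw [edgeLaw, Measure.ae_ennreal_smul_measure_iff (by simp), ae_finsetSum_measure_iff] at h
  exact h j (Finset.mem_univ j)

theorem ae_edgeLaw_of {μ : Measure (SX D p)} {P : EX D p → Prop} (hP : MeasurableSet {q | P q})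
    (h : ∀ j, ∀ᵐ q ∂μ, P (edgeJ j q)) : ∀ᵐ q ∂(edgeLaw μ), P q := by
  rw [edgeLaw, Measure.ae_ennreal_smul_measure_iff (by simp), ae_finsetSum_measure_iff]
  exact fun j _ => (ae_map_iff (continuous_edgeJ j).measurable.aemeasurable hP).2 (h j)

theorem measurable_cmap {S K : Type} [MeasurableSpace S] {F : ℝ → ℝ} (hF : Measurable F) :
    Measurable (cmap F : S × (K → ℝ) → _) := by
  exact measurable_fst.prodMk
    (measurable_pi_lambda _ fun k => hF.comp ((measurable_pi_apply k).comp measurable_snd))

theorem edgeLaw_cmap (μ : Measure (SX D p)) {F : ℝ → ℝ} (hF : Measurable F) :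
    edgeLaw (μ.map (cmap F)) = (edgeLaw μ).map (cmap F) := by
  rw [edgeLaw, edgeLaw, Measure.map_smul, Measure.map_finset_sum (measurable_cmap hF).aemeasurable]
  congr 1
  refine Finset.sum_congr rfl fun j _ => ?_
  rw [Measure.map_map (continuous_edgeJ j).measurable (measurable_cmap hF),
    Measure.map_map (measurable_cmap hF) (continuous_edgeJ j).measurable]
  rfl

theorem continuous_clip (L : ℝ) : Continuous (clip L) := by
  unfold clip
  fun_prop

theorem abs_clip_le {L : ℝ} (hL : 0 ≤ L) (t : ℝ) : |clip L t| ≤ L ∧ |clip L t| ≤ |t| := by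
  unfold clip
  constructor
  · exact abs_le.2 ⟨le_max_left _ _, max_le (by linarith) (min_le_left _ _)⟩
  · refine abs_le.2 ⟨le_max_of_le_right (le_min ?_ (neg_abs_le t)), max_le ?_ ?_⟩
    · linarith [abs_nonneg t]
    · linarith [abs_nonneg t]
    · exact (min_le_right _ _).trans (le_abs_self t)

theorem clip_eq {L t : ℝ} (h : |t| ≤ L) : clip L t = t := by
  rw [clip, min_eq_right (abs_le.1 h).2, max_eq_right (abs_le.1 h).1]

theorem Part.τe_edgeJ (Q : Part D p) (j : Fin (D + 1)) (q : SX D p) :
    Q.τe (edgeJ j q) = Q.he (Q.τ q) j := by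
  simp only [Part.τe, Part.he, Part.τ, edgeJ, eEnv, outEnv, Q.hcmb]
  rfl

theorem Part.measurable_τ (Q : Part D p) : Measurable Q.τ := by
  refine (Q.ma.comp (measurable_fst.comp measurable_fst)).prodMk (Measurable.prodMk ?_ ?_)
  · exact measurable_pi_lambda _ fun j =>
      Q.mt.comp ((measurable_pi_apply j).comp (measurable_snd.comp measurable_fst))
  · exact measurable_pi_lambda _ fun v => Q.mk'.comp
      (measurable_pi_lambda _ fun i => (measurable_pi_apply _).comp measurable_snd)

theorem Part.measurable_τe (Q : Part D p) : Measurable Q.τe := by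
  refine Measurable.prodMk (Measurable.prodMk ?_ ?_) (Measurable.prodMk ?_ ?_)
  · exact Q.mt.comp (measurable_fst.comp measurable_fst)
  · exact Q.mk'.comp (measurable_pi_lambda _ fun i => (measurable_pi_apply _).comp measurable_snd)
  · exact Q.mt.comp (measurable_snd.comp measurable_fst)
  · exact Q.mk'.comp (measurable_pi_lambda _ fun i => (measurable_pi_apply _).comp measurable_snd)

instance (β : Measure J) [IsProbabilityMeasure β] : IsProbabilityMeasure (lamS D p β) := by
  unfold lamS; infer_instance

instance (β : Measure J) [IsProbabilityMeasure β] : IsProbabilityMeasure (lamE D p β) := by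
  unfold lamE; infer_instance

/-- the edge seen from a half-edge -/
theorem edgeJ_starS {n : ℕ} (π : Pairing n D) (ω : Fin n → J) (x : Fin n × Fin p → ℝ)
    (h : HE n D) : edgeJ h.2 (starS π.1 ω x h.1) =
      ((envH π.1 ω h, envH π.1 ω (π.1 h)), fun q => x (ends π.1 h q.1, q.2)) := by
  refine Prod.ext (Prod.ext (envH_eq_outEnv _ _ _).symm rfl) (funext fun q => ?_)
  obtain ⟨b, a⟩ := q
  fin_cases b <;> rfl

theorem flipE_edgeJ_starS {n : ℕ} (π : Pairing n D) (ω : Fin n → J) (x : Fin n × Fin p → ℝ)
    (h : HE n D) : flipE (edgeJ h.2 (starS π.1 ω x h.1)) =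
      edgeJ (π.1 h).2 (starS π.1 ω x (π.1 h).1) := by
  rw [edgeJ_starS, edgeJ_starS, π.2.1]
  refine Prod.ext rfl (funext fun q => ?_)
  obtain ⟨b, a⟩ := q
  fin_cases b
  · rfl
  · simp [flipE, swI, ends, π.2.1]

theorem continuous_starS {n : ℕ} (π : Equiv.Perm (HE n D)) (v : Fin n) :
    Continuous fun w : (Fin n → J) × (Fin n × Fin p → ℝ) => starS π w.1 w.2 v := by
  refine Continuous.prodMk (Continuous.prodMk ((continuous_apply v).comp continuous_fst)
    (continuous_pi fun i => continuous_pi fun l => (continuous_apply _).comp continuous_fst))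
    (continuous_pi fun k => (continuous_apply _).comp continuous_snd)

end Edge

end Crest.Agent.R166.B
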