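import Crest.Agent.R166.B.Defs

/-! # Likelihood and posterior mean: bounds -/

set_option autoImplicit false
set_option linter.unusedVariables false
set_option linter.unusedSectionVars false

open MeasureTheory ProbabilityTheory Filter Topology Matrix
open scoped ENNReal BoundedContinuousFunction Kronecker

namespace Crest.Agent.R166.B

section
variable {K N : Type} [Fintype K] [Fintype N] {P : Matrix K K ℝ} {B : Matrix K N ℝ}
  {κ : Measure (K → ℝ)} {u : ℝ}

theorem wt_pos (P : Matrix K K ℝ) (u : ℝ) (y x : K → ℝ) : 0 < wt P u y x := Real.exp_pos _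

theorem continuous_wt (P : Matrix K K ℝ) (u : ℝ) :
    Continuous fun w : (K → ℝ) × (K → ℝ) => wt P u w.1 w.2 := by
  simp only [wt, dotProduct, mulVec]
  fun_prop

theorem Bayes0_psd (hP : P.PosSemidef) (x : K → ℝ) : 0 ≤ x ⬝ᵥ P *ᵥ x := by
  simpa using hP.dotProduct_mulVec_nonneg x

theorem Bayes0_symm (hP : P.PosSemidef) (x y : K → ℝ) : y ⬝ᵥ P *ᵥ x = x ⬝ᵥ P *ᵥ y := by
  have h : Pᵀ = P := by simpa using hP.isHermitian.eq
  rw [dotProduct_mulVec, ← mulVec_transpose, h, dotProduct_comm]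

/-- `0 ≤ P (u x - y)` -/
theorem wt_le (hP : P.PosSemidef) (hu : 0 < u) (y x : K → ℝ) :
    wt P u y x ≤ Real.exp (y ⬝ᵥ P *ᵥ y / (2 * u)) := by
  unfold wt
  refine Real.exp_le_exp.2 ?_
  have h := Bayes0_psd hP (u • x - y)
  simp only [mulVec_sub, mulVec_smul, sub_dotProduct, dotProduct_sub, smul_dotProduct,
    dotProduct_smul, smul_eq_mul, Bayes0_symm hP x y] at h
  rw [le_div_iff₀ (by positivity)]
  nlinarith

theorem Bayes0_cont (P : Matrix K K ℝ) (u : ℝ) (y : K → ℝ) : Continuous (wt P u y) :=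
  (continuous_wt P u).comp (Continuous.prodMk_right y)

theorem Bayes0_bdd (hP : P.PosSemidef) (hu : 0 ≤ u) {y : K → ℝ}
    (h : 0 < u ∨ y = 0 ∨ ∃ L, ∀ᵐ x ∂κ, ∀ k, |x k| ≤ L) :
    ∃ C : ℝ, ∀ᵐ x ∂κ, ‖wt P u y x‖ ≤ C := by
  have h0 : ∀ x, ‖wt P u y x‖ = wt P u y x := fun x => Real.norm_of_nonneg (wt_pos P u y x).le
  have h1 : ∀ x, wt P u y x ≤ Real.exp (x ⬝ᵥ P *ᵥ y) := by
    intro x
    refine Real.exp_le_exp.2 ?_
    have := mul_nonneg hu (Bayes0_psd hP x)
    linarith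
  simp only [h0]
  rcases h with h | h | ⟨L, h⟩
  · exact ⟨_, Eventually.of_forall fun x => wt_le hP h y x⟩
  · refine ⟨1, Eventually.of_forall fun x => (h1 x).trans ?_⟩
    simp [h]
  · refine ⟨Real.exp (∑ k, L * |(P *ᵥ y) k|), h.mono fun x hx => (h1 x).trans ?_⟩
    refine Real.exp_le_exp.2 (Finset.sum_le_sum fun k _ => (le_abs_self _).trans ?_)
    rw [abs_mul]
    exact mul_le_mul_of_nonneg_right (hx k) (abs_nonneg _)

/-- the likelihood is integrable when `u > 0`, or `y = 0`, or the signal is bounded -/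
theorem integrable_wt [IsProbabilityMeasure κ] (hP : P.PosSemidef) (hu : 0 ≤ u) {y : K → ℝ}
    (h : 0 < u ∨ y = 0 ∨ ∃ L, ∀ᵐ x ∂κ, ∀ k, |x k| ≤ L) : Integrable (wt P u y) κ := by
  obtain ⟨C, hC⟩ := Bayes0_bdd hP hu h
  exact Integrable.of_bound (Bayes0_cont P u y).aestronglyMeasurable C hC

theorem Zf_pos [IsProbabilityMeasure κ] {y : K → ℝ} (h : Integrable (wt P u y) κ) :
    0 < Zf P κ u y := by
  unfold Zf
  rw [integral_pos_iff_support_of_nonneg (fun x => (wt_pos P u y x).le) h]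
  have : Function.support (wt P u y) = Set.univ :=
    Set.eq_univ_of_forall fun x => (wt_pos P u y x).ne'
  rw [this]
  simp

theorem integrable_wt_mul [IsProbabilityMeasure κ] (hP : P.PosSemidef) (hu : 0 ≤ u) {y : K → ℝ}
    (h : 0 < u ∨ y = 0 ∨ ∃ L, ∀ᵐ x ∂κ, ∀ k, |x k| ≤ L) (k : K)
    (hx : Integrable (fun x => x k) κ) : Integrable (fun x => wt P u y x * x k) κ := by
  obtain ⟨C, hC⟩ := Bayes0_bdd hP hu h
  exact hx.bdd_mul (Bayes0_cont P u y).aestronglyMeasurable hC

theorem abs_Mf_le [IsProbabilityMeasure κ] {L : ℝ} (hb : ∀ᵐ x ∂κ, ∀ k, |x k| ≤ L)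
    (y : K → ℝ) (k : K) : |Mf P κ u y k| ≤ L := by
  obtain ⟨x₀, hx₀⟩ := hb.exists
  have hL : 0 ≤ L := (abs_nonneg _).trans (hx₀ k)
  by_cases hi : Integrable (wt P u y) κ
  · have hZ := Zf_pos hi
    unfold Mf
    rw [abs_div, abs_of_pos hZ, div_le_iff₀ hZ, ← Real.norm_eq_abs]
    refine (norm_integral_le_of_norm_le (hi.const_mul L) (hb.mono fun x hx => ?_)).trans ?_
    · rw [norm_mul, Real.norm_of_nonneg (wt_pos P u y x).le, mul_comm]
      exact mul_le_mul_of_nonneg_right (hx k) (wt_pos P u y x).le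
    · rw [integral_const_mul]
      rfl
  · have hZ : Zf P κ u y = 0 := integral_undef hi
    simp [Mf, hZ, hL]

/-- linear constraints pass to the posterior mean -/
theorem dot_Mf_eq_zero {y b : K → ℝ} (hi : ∀ k, Integrable (fun x => wt P u y x * x k) κ)
    (hb : ∀ᵐ x ∂κ, b ⬝ᵥ x = 0) : b ⬝ᵥ Mf P κ u y = 0 := by
  have h1 : ∑ k, b k * ∫ x, wt P u y x * x k ∂κ = 0 := by
    simp only [← integral_const_mul]
    rw [← integral_finsetSum _ fun k _ => (hi k).const_mul (b k)]
    refine integral_eq_zero_of_ae (hb.mono fun x hx => ?_)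
    have : ∑ k, b k * (wt P u y x * x k) = wt P u y x * (b ⬝ᵥ x) := by
      rw [dotProduct, Finset.mul_sum]
      exact Finset.sum_congr rfl fun k _ => by ring
    simp only [this, hx, mul_zero, Pi.zero_apply]
  simp only [dotProduct, Mf, ← mul_div_assoc]
  rw [← Finset.sum_div, h1, zero_div]

theorem measurable_Zf' [SFinite κ] : Measurable (Zf P κ u) :=
  ((continuous_wt P u).stronglyMeasurable.integral_prod_right' (ν := κ)).measurable

theorem measurable_Mf' [SFinite κ] : Measurable (Mf P κ u) := by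
  refine measurable_pi_lambda _ fun k => Measurable.div ?_ measurable_Zf'
  have h : Continuous fun w : (K → ℝ) × (K → ℝ) => wt P u w.1 w.2 * w.2 k :=
    (continuous_wt P u).mul (by fun_prop)
  exact (h.stronglyMeasurable.integral_prod_right' (ν := κ)).measurable

end

end Crest.Agent.R166.B
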