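import Crest.Agent.R166.B.Defs
import Crest.Agent.R166.Gauss1

/-! # Gaussian measure: uniqueness, support, cells -/

set_option autoImplicit false
set_option linter.unusedVariables false
set_option linter.unusedSectionVars false

open MeasureTheory ProbabilityTheory Filter Topology Matrix
open scoped ENNReal BoundedContinuousFunction Kronecker

namespace Crest.Agent.R166.B

section
variable {K N : Type} [Fintype K] [Fintype N]

/-- `Measure.ext_of_charFunDual` (every functional on `K → ℝ` is `θ ⬝ᵥ ·`; `φ = 0, -π/2`) -/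
theorem ext_of_cos {μ ν : Measure (K → ℝ)} [IsFiniteMeasure μ] [IsFiniteMeasure ν]
    (h : ∀ (θ : K → ℝ) (φ : ℝ),
      ∫ x, Real.cos (φ + θ ⬝ᵥ x) ∂μ = ∫ x, Real.cos (φ + θ ⬝ᵥ x) ∂ν) : μ = ν := by
  classical
  refine Measure.ext_of_charFunDual (funext fun L => ?_)
  obtain ⟨t, hL⟩ : ∃ t : K → ℝ, ∀ x, L x = t ⬝ᵥ x :=
    ⟨_, fun y => ((L : (K → ℝ) →ₗ[ℝ] ℝ).pi_apply_eq_sum_univ y).trans (dotProduct_comm y _)⟩
  have key : ∀ (m : Measure (K → ℝ)) [IsFiniteMeasure m], charFunDual m L =
      (∫ x, Real.cos (0 + L x) ∂m : ℝ) +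
        (∫ x, Real.cos (-(Real.pi / 2) + L x) ∂m : ℝ) * Complex.I := fun m _ => by
    have hi : ∀ φ : ℝ, Integrable (fun x => (Real.cos (φ + L x) : ℂ)) m := fun φ =>
      (Integrable.of_bound (f := fun x => Real.cos (φ + L x))
        (Continuous.aestronglyMeasurable (by fun_prop)) 1
        (Eventually.of_forall fun x => Real.abs_cos_le_one _)).ofReal
    rw [charFunDual_apply, ← integral_complex_ofReal, ← integral_complex_ofReal, ← integral_mul_const,
      ← integral_add (hi _) ((hi _).mul_const _)]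
    congr 1
    funext x
    rw [zero_add, neg_add_eq_sub, Real.cos_sub_pi_div_two, Complex.exp_mul_I]
    simp
  rw [key, key]
  simp only [hL, h]

instance : (gpi N).IsOpenPosMeasure := by
  haveI : (gaussianReal 0 1).IsOpenPosMeasure :=
    (gaussianReal_absolutelyContinuous' 0 one_ne_zero).isOpenPosMeasure
  unfold gpi
  infer_instance

/-- product cells -/
theorem gpi_cells {V T : Type} [Fintype V] {p : ℕ} [MeasurableSpace T] [MeasurableSingletonClass T]
    {k : (Fin p → ℝ) → T} (hk : Measurable k) (c : V → T) :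
    (gpi (V × Fin p)).real {y | ∀ v, k (fun a => y (v, a)) = c v} =
      ∏ v, (gpi (Fin p)).real (k ⁻¹' {c v}) := by
  have h1 : (gpi (V × Fin p)).map (MeasurableEquiv.curry V (Fin p) ℝ) =
      Measure.pi fun _ : V => gpi (Fin p) := by
    have := Measure.infinitePi_map_curry (ι := V) (κ := Fin p) fun _ _ => gaussianReal 0 1
    simp only [Measure.infinitePi_eq_pi] at this
    exact this
  have h2 : {y : V × Fin p → ℝ | ∀ v, k (fun a => y (v, a)) = c v} =
      MeasurableEquiv.curry V (Fin p) ℝ ⁻¹' Set.univ.pi fun v => k ⁻¹' {c v} := by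
    ext y
    simp only [Set.mem_setOf_eq, Set.mem_preimage, Set.mem_univ_pi, Set.mem_singleton_iff]
    rfl
  rw [h2, Measure.real, ← MeasurableEquiv.map_apply, h1, Measure.pi_pi, ENNReal.toReal_prod]
  rfl

end

end Crest.Agent.R166.B
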