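import Crest.Agent.R166.B.GInt
import Crest.Agent.R166.B.GInt2
import Crest.Agent.R166.B.Bayes0

/-! # Bayes formula for the Gaussian channel -/

set_option autoImplicit false
set_option linter.unusedVariables false
set_option linter.unusedSectionVars false

open MeasureTheory ProbabilityTheory Filter Topology Matrix
open scoped ENNReal BoundedContinuousFunction Kronecker

namespace Crest.Agent.R166.B

section
variable {K N : Type} [Fintype K] [Fintype N] {P : Matrix K K ℝ} {B : Matrix K N ℝ}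
  {κ : Measure (K → ℝ)} {u : ℝ}

theorem by_meas_n (B : Matrix K N ℝ) (u : ℝ) : Measurable fun ξ : N → ℝ => √u • B *ᵥ ξ := by
  refine Continuous.measurable ?_
  fun_prop

theorem by_meas_ob (B : Matrix K N ℝ) (u : ℝ) :
    Measurable fun w : (K → ℝ) × (N → ℝ) => ob B u w.1 w.2 := by
  refine Continuous.measurable ?_
  unfold ob
  fun_prop

theorem by_meas_wt (P : Matrix K K ℝ) (B : Matrix K N ℝ) (u : ℝ) :
    Measurable fun w : (K → ℝ) × (N → ℝ) => wt P u (√u • B *ᵥ w.2) w.1 :=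
  (continuous_wt P u).measurable.comp
    (((by_meas_n B u).comp measurable_snd).prodMk measurable_fst)

theorem by_int_wt [IsProbabilityMeasure κ] (hc : Ch P B κ) (hu : 0 ≤ u) (ξ : N → ℝ) :
    0 < u ∨ √u • B *ᵥ ξ = 0 ∨ ∃ L, ∀ᵐ x ∂κ, ∀ k, |x k| ≤ L := by
  rcases hu.eq_or_lt with h | h
  · right; left; rw [← h]; simp
  · left; exact h

theorem by_lint [IsProbabilityMeasure κ] (hc : Ch P B κ) (hu : 0 ≤ u)
    {F : (K → ℝ) × (K → ℝ) → ℝ≥0∞} (hF : Measurable F) :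
    ∫⁻ w, F (w.1, ob B u w.1 w.2) ∂(κ.prod (gpi N)) =
      ∫⁻ w, ENNReal.ofReal (wt P u (√u • B *ᵥ w.2) w.1) * F (w.1, √u • B *ᵥ w.2)
        ∂(κ.prod (gpi N)) := by
  have h1 : Measurable fun w : (K → ℝ) × (N → ℝ) => F (w.1, ob B u w.1 w.2) :=
    hF.comp (measurable_fst.prodMk (by_meas_ob B u))
  have h2 : Measurable fun w : (K → ℝ) × (N → ℝ) =>
      ENNReal.ofReal (wt P u (√u • B *ᵥ w.2) w.1) * F (w.1, √u • B *ᵥ w.2) :=
    (by_meas_wt P B u).ennreal_ofReal.mul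
      (hF.comp (measurable_fst.prodMk ((by_meas_n B u).comp measurable_snd)))
  rw [lintegral_prod _ h1.aemeasurable, lintegral_prod _ h2.aemeasurable]
  refine lintegral_congr_ae ?_
  filter_upwards [hc.supp] with x hx
  have hPs : Pᵀ = P := by
    have := hc.psd.1
    rwa [Matrix.IsHermitian, conjTranspose_eq_transpose_of_trivial] at this
  set v : N → ℝ := √u • (Bᵀ *ᵥ (P *ᵥ x)) with hv
  have huu : √u * √u = u := Real.mul_self_sqrt hu
  have hBv : B *ᵥ (Bᵀ *ᵥ (P *ᵥ x)) = x := by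
    rw [Matrix.mulVec_mulVec, Matrix.mulVec_mulVec]; exact hx
  have hob : ∀ ξ, ob B u x ξ = √u • B *ᵥ (ξ + v) := by
    intro ξ
    rw [ob, hv, Matrix.mulVec_add, Matrix.mulVec_smul, hBv, smul_add, smul_smul, huu, add_comm]
  have hdot : ∀ ξ : N → ℝ, (Bᵀ *ᵥ (P *ᵥ x)) ⬝ᵥ ξ = x ⬝ᵥ P *ᵥ (B *ᵥ ξ) := by
    intro ξ
    rw [Matrix.mulVec_transpose, ← Matrix.dotProduct_mulVec, Matrix.dotProduct_mulVec x,
      ← Matrix.mulVec_transpose, hPs]
  have hG : Measurable fun ξ : N → ℝ => F (x, √u • B *ᵥ ξ) :=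
    hF.comp (measurable_const.prodMk (by_meas_n B u))
  have hsh : Measurable fun g : N → ℝ => g + v := by fun_prop
  have hd : Measurable fun g : N → ℝ => ENNReal.ofReal (Real.exp (v ⬝ᵥ g - v ⬝ᵥ v / 2)) := by
    refine Measurable.ennreal_ofReal (Continuous.measurable ?_)
    fun_prop
  simp only [hob]
  rw [← lintegral_map hG hsh, gpi_shift, lintegral_withDensity_eq_lintegral_mul _ hd hG]
  refine lintegral_congr fun ξ => ?_
  simp only [Pi.mul_apply, wt]
  congr 3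
  have e1 : v ⬝ᵥ ξ = x ⬝ᵥ P *ᵥ (√u • B *ᵥ ξ) := by
    rw [hv, smul_dotProduct, hdot, Matrix.mulVec_smul, dotProduct_smul]
  have e2 : v ⬝ᵥ v = u * (x ⬝ᵥ P *ᵥ x) := by
    rw [hv, smul_dotProduct, dotProduct_smul, hdot, hBv, smul_eq_mul, smul_eq_mul, ← mul_assoc, huu]
  rw [e1, e2]; ring

/-- Cameron–Martin: for `x` in the support, `ob B u x ξ = √u • B (ξ + √u • w)`, `w = Bᵀ P x`,
`w ⬝ ξ = x ⬝ P B ξ`, `w ⬝ w = x ⬝ P x`; use `gpi_shift`. -/
theorem bayes_map [IsProbabilityMeasure κ] (hc : Ch P B κ) (hu : 0 ≤ u) :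
    (κ.prod (gpi N)).map (fun w => (w.1, ob B u w.1 w.2)) =
      ((κ.prod (gpi N)).withDensity
        fun w => ENNReal.ofReal (wt P u (√u • B *ᵥ w.2) w.1)).map fun w => (w.1, √u • B *ᵥ w.2) := by
  refine Measure.ext_of_lintegral _ fun F hF => ?_
  have h1 : Measurable fun w : (K → ℝ) × (N → ℝ) => (w.1, ob B u w.1 w.2) :=
    measurable_fst.prodMk (by_meas_ob B u)
  have h2 : Measurable fun w : (K → ℝ) × (N → ℝ) => (w.1, √u • B *ᵥ w.2) :=
    measurable_fst.prodMk ((by_meas_n B u).comp measurable_snd)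
  rw [lintegral_map hF h1, lintegral_map hF h2, by_lint hc hu hF,
    lintegral_withDensity_eq_lintegral_mul _ (by_meas_wt P B u).ennreal_ofReal
      (g := fun w => F (w.1, √u • B *ᵥ w.2)) (hF.comp h2)]
  rfl

theorem bayes_obs [IsProbabilityMeasure κ] (hc : Ch P B κ) (hu : 0 ≤ u) :
    (κ.prod (gpi N)).map (fun w => ob B u w.1 w.2) =
      ((gpi N).withDensity fun ξ => ENNReal.ofReal (Zf P κ u (√u • B *ᵥ ξ))).map
        fun ξ => √u • B *ᵥ ξ := by
  refine Measure.ext_of_lintegral _ fun F hF => ?_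
  have hZ : Measurable fun ξ : N → ℝ => ENNReal.ofReal (Zf P κ u (√u • B *ᵥ ξ)) :=
    (measurable_Zf'.comp (by_meas_n B u)).ennreal_ofReal
  have h2 : Measurable fun w : (K → ℝ) × (N → ℝ) =>
      ENNReal.ofReal (wt P u (√u • B *ᵥ w.2) w.1) * F (√u • B *ᵥ w.2) :=
    (by_meas_wt P B u).ennreal_ofReal.mul (hF.comp ((by_meas_n B u).comp measurable_snd))
  rw [lintegral_map hF (by_meas_ob B u), lintegral_map hF (by_meas_n B u),
    lintegral_withDensity_eq_lintegral_mul _ hZ (g := fun ξ => F (√u • B *ᵥ ξ))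
      (hF.comp (by_meas_n B u))]
  refine (by_lint hc hu (F := fun w => F w.2) (hF.comp measurable_snd)).trans ?_
  rw [lintegral_prod_symm _ h2.aemeasurable]
  refine lintegral_congr fun ξ => ?_
  have h3 : Measurable fun x : K → ℝ => ENNReal.ofReal (wt P u (√u • B *ᵥ ξ) x) :=
    ((continuous_wt P u).measurable.comp (measurable_const.prodMk measurable_id)).ennreal_ofReal
  simp only [Pi.mul_apply, Function.comp]
  rw [lintegral_mul_const _ h3, Zf, ofReal_integral_eq_lintegral_ofReal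
    (integrable_wt hc.psd hu (by_int_wt hc hu ξ)) (Eventually.of_forall fun x => (wt_pos _ _ _ _).le)]

/-- integral form of `bayes_map` -/
theorem bayes_integral [IsProbabilityMeasure κ] (hc : Ch P B κ) (hu : 0 ≤ u)
    {F : (K → ℝ) × (K → ℝ) → ℝ} (hF : Measurable F)
    (hi : Integrable (fun w => F (w.1, ob B u w.1 w.2)) (κ.prod (gpi N))) :
    Integrable (fun w => wt P u (√u • B *ᵥ w.2) w.1 * F (w.1, √u • B *ᵥ w.2)) (κ.prod (gpi N)) ∧
    ∫ w, F (w.1, ob B u w.1 w.2) ∂(κ.prod (gpi N)) =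
      ∫ ξ, ∫ x, wt P u (√u • B *ᵥ ξ) x * F (x, √u • B *ᵥ ξ) ∂κ ∂(gpi N) := by
  have h1 : Measurable fun w : (K → ℝ) × (N → ℝ) => (w.1, ob B u w.1 w.2) :=
    measurable_fst.prodMk (by_meas_ob B u)
  have h2 : Measurable fun w : (K → ℝ) × (N → ℝ) => (w.1, √u • B *ᵥ w.2) :=
    measurable_fst.prodMk ((by_meas_n B u).comp measurable_snd)
  have hw := (by_meas_wt P B u).ennreal_ofReal
  have hlt : ∀ᵐ w ∂(κ.prod (gpi N)), ENNReal.ofReal (wt P u (√u • B *ᵥ w.2) w.1) < ∞ :=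
    Eventually.of_forall fun w => ENNReal.ofReal_lt_top
  have h3 : Integrable F ((κ.prod (gpi N)).map fun w => (w.1, ob B u w.1 w.2)) :=
    (integrable_map_measure hF.aestronglyMeasurable h1.aemeasurable).2 hi
  rw [bayes_map hc hu, integrable_map_measure hF.aestronglyMeasurable h2.aemeasurable,
    integrable_withDensity_iff_integrable_smul' hw hlt] at h3
  simp only [ENNReal.toReal_ofReal (wt_pos _ _ _ _).le, smul_eq_mul, Function.comp] at h3
  refine ⟨h3, ?_⟩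
  rw [← integral_map h1.aemeasurable hF.aestronglyMeasurable, bayes_map hc hu,
    integral_map h2.aemeasurable hF.aestronglyMeasurable,
    integral_withDensity_eq_integral_toReal_smul hw hlt]
  simp only [ENNReal.toReal_ofReal (wt_pos _ _ _ _).le, smul_eq_mul]
  exact integral_prod_symm _ h3

theorem by_obs_int [IsProbabilityMeasure κ] (hc : Ch P B κ) (hu : 0 ≤ u)
    {G : (K → ℝ) → ℝ} (hG : Measurable G) :
    (Integrable (fun w => G (ob B u w.1 w.2)) (κ.prod (gpi N)) ↔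
      Integrable (fun ξ => Zf P κ u (√u • B *ᵥ ξ) * G (√u • B *ᵥ ξ)) (gpi N)) ∧
    ∫ w, G (ob B u w.1 w.2) ∂(κ.prod (gpi N)) =
      ∫ ξ, Zf P κ u (√u • B *ᵥ ξ) * G (√u • B *ᵥ ξ) ∂(gpi N) := by
  have hZ : Measurable fun ξ : N → ℝ => ENNReal.ofReal (Zf P κ u (√u • B *ᵥ ξ)) :=
    (measurable_Zf'.comp (by_meas_n B u)).ennreal_ofReal
  have hlt : ∀ᵐ ξ ∂(gpi N), ENNReal.ofReal (Zf P κ u (√u • B *ᵥ ξ)) < ∞ :=
    Eventually.of_forall fun w => ENNReal.ofReal_lt_top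
  have hpos : ∀ ξ : N → ℝ, 0 ≤ Zf P κ u (√u • B *ᵥ ξ) := fun ξ =>
    (Zf_pos (integrable_wt hc.psd hu (by_int_wt hc hu ξ))).le
  constructor
  · refine (integrable_map_measure hG.aestronglyMeasurable (by_meas_ob B u).aemeasurable).symm.trans ?_
    rw [bayes_obs hc hu, integrable_map_measure hG.aestronglyMeasurable (by_meas_n B u).aemeasurable,
      integrable_withDensity_iff_integrable_smul' hZ hlt]
    simp only [ENNReal.toReal_ofReal (hpos _), smul_eq_mul, Function.comp]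
  · rw [← integral_map (by_meas_ob B u).aemeasurable hG.aestronglyMeasurable, bayes_obs hc hu,
      integral_map (by_meas_n B u).aemeasurable hG.aestronglyMeasurable,
      integral_withDensity_eq_integral_toReal_smul hZ hlt]
    simp only [ENNReal.toReal_ofReal (hpos _), smul_eq_mul]

/-- the posterior mean is the conditional expectation -/
theorem bayes_ce [IsProbabilityMeasure κ] (hc : Ch P B κ) (hu : 0 ≤ u) (k : K)
    (hx : Integrable (fun x => x k) κ) {h : (K → ℝ) → ℝ} (hh : Measurable h)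
    (hi : Integrable (fun w => w.1 k * h (ob B u w.1 w.2)) (κ.prod (gpi N))) :
    Integrable (fun w => Mf P κ u (ob B u w.1 w.2) k * h (ob B u w.1 w.2)) (κ.prod (gpi N)) ∧
    ∫ w, Mf P κ u (ob B u w.1 w.2) k * h (ob B u w.1 w.2) ∂(κ.prod (gpi N)) =
      ∫ w, w.1 k * h (ob B u w.1 w.2) ∂(κ.prod (gpi N)) ∧
    ∫ w, |Mf P κ u (ob B u w.1 w.2) k * h (ob B u w.1 w.2)| ∂(κ.prod (gpi N)) ≤
      ∫ w, |w.1 k * h (ob B u w.1 w.2)| ∂(κ.prod (gpi N)) := by
  have hF : Measurable fun w : (K → ℝ) × (K → ℝ) => w.1 k * h w.2 :=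
    ((measurable_pi_apply k).comp measurable_fst).mul (hh.comp measurable_snd)
  have hG : Measurable fun y : K → ℝ => Mf P κ u y k * h y :=
    ((measurable_pi_apply k).comp measurable_Mf').mul hh
  obtain ⟨a1, a2⟩ := bayes_integral hc hu hF hi
  obtain ⟨b1, b2⟩ := bayes_integral hc hu (F := fun w => |w.1 k * h w.2|) hF.abs hi.abs
  have hpos : ∀ ξ : N → ℝ, 0 < Zf P κ u (√u • B *ᵥ ξ) := fun ξ =>
    Zf_pos (integrable_wt hc.psd hu (by_int_wt hc hu ξ))
  have key : ∀ ξ : N → ℝ, Zf P κ u (√u • B *ᵥ ξ) * (Mf P κ u (√u • B *ᵥ ξ) k * h (√u • B *ᵥ ξ)) =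
      ∫ x, wt P u (√u • B *ᵥ ξ) x * (x k * h (√u • B *ᵥ ξ)) ∂κ := by
    intro ξ
    simp only [← mul_assoc]
    rw [integral_mul_const, Mf, mul_div_cancel₀ _ (hpos ξ).ne']
  have c1 : Integrable (fun ξ : N → ℝ =>
      Zf P κ u (√u • B *ᵥ ξ) * (Mf P κ u (√u • B *ᵥ ξ) k * h (√u • B *ᵥ ξ))) (gpi N) := by
    simp only [key]
    exact a1.integral_prod_right
  refine ⟨(by_obs_int hc hu hG).1.2 c1, ?_, ?_⟩
  · rw [(by_obs_int hc hu hG).2, a2]
    simp only [key]
  · rw [(by_obs_int hc hu (G := fun y => |Mf P κ u y k * h y|) hG.abs).2, b2]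
    have key2 : ∀ ξ : N → ℝ,
        Zf P κ u (√u • B *ᵥ ξ) * |Mf P κ u (√u • B *ᵥ ξ) k * h (√u • B *ᵥ ξ)| =
        |Zf P κ u (√u • B *ᵥ ξ) * (Mf P κ u (√u • B *ᵥ ξ) k * h (√u • B *ᵥ ξ))| := by
      intro ξ
      rw [abs_mul (Zf _ _ _ _), abs_of_pos (hpos ξ)]
    simp only [key2]
    refine integral_mono c1.abs b1.integral_prod_right fun ξ => ?_
    simp only [key]
    refine (abs_integral_le_integral_abs).trans (le_of_eq ?_)
    refine integral_congr_ae (Eventually.of_forall fun x => ?_)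
    simp only
    rw [abs_mul (wt _ _ _ _), abs_of_pos (wt_pos _ _ _ _)]

theorem bayes_ae [IsProbabilityMeasure κ] (hc : Ch P B κ) (hu : 0 ≤ u) {A : Set (K → ℝ)}
    (hA : MeasurableSet A) (h : ∀ᵐ w ∂(κ.prod (gpi N)), ob B u w.1 w.2 ∈ A) :
    ∀ᵐ ξ ∂(gpi N), √u • B *ᵥ ξ ∈ A := by
  have hZ : Measurable fun ξ : N → ℝ => ENNReal.ofReal (Zf P κ u (√u • B *ᵥ ξ)) :=
    (measurable_Zf'.comp (by_meas_n B u)).ennreal_ofReal
  have h1 : ∀ᵐ y ∂((κ.prod (gpi N)).map fun w => ob B u w.1 w.2), y ∈ A :=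
    (ae_map_iff (by_meas_ob B u).aemeasurable hA).2 h
  rw [bayes_obs hc hu] at h1
  replace h1 := (ae_map_iff (by_meas_n B u).aemeasurable hA).1 h1
  refine (withDensity_absolutelyContinuous' hZ.aemeasurable (Eventually.of_forall fun ξ => ?_)).ae_le h1
  exact (ENNReal.ofReal_pos.2 (Zf_pos (integrable_wt hc.psd hu (by_int_wt hc hu ξ)))).ne'

end

end Crest.Agent.R166.B
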