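import Crest.Agent.R166.B.GInt

/-! # Density of a non-degenerate Gaussian vector -/

set_option autoImplicit false
set_option linter.unusedVariables false
set_option linter.unusedSectionVars false

open MeasureTheory ProbabilityTheory Filter Topology Matrix
open scoped ENNReal BoundedContinuousFunction Kronecker

namespace Crest.Agent.R166.B

section
variable {K N : Type} [Fintype K] [Fintype N] [DecidableEq K]

theorem posDef_of_inv {B : Matrix K N ℝ} {P : Matrix K K ℝ} (h : B * Bᵀ * P = 1) :
    P.PosDef ∧ (B * Bᵀ).PosDef ∧ P * (B * Bᵀ) = 1 := by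
  have h1 : (B * Bᵀ).PosSemidef := by
    simpa using Matrix.posSemidef_self_mul_conjTranspose B
  have hu : IsUnit (B * Bᵀ) := by
    rw [Matrix.isUnit_iff_isUnit_det]
    exact Matrix.isUnit_det_of_right_inverse h
  have h2 : (B * Bᵀ).PosDef := h1.posDef_iff_isUnit.2 hu
  have h3 : (B * Bᵀ)⁻¹ = P := Matrix.inv_eq_right_inv h
  exact ⟨h3 ▸ h2.inv, h2, mul_eq_one_comm.1 h⟩

theorem exists_sq_root {S : Matrix K K ℝ} (h : S.PosSemidef) :
    ∃ A : Matrix K K ℝ, A * Aᵀ = S := by
  open scoped MatrixOrder in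
  obtain ⟨C, hC⟩ := CStarAlgebra.nonneg_iff_eq_star_mul_self.mp h.nonneg
  refine ⟨Cᵀ, ?_⟩
  rw [hC, Matrix.transpose_transpose, Matrix.star_eq_conjTranspose,
    Matrix.conjTranspose_eq_transpose_of_trivial]

theorem gden_pos {P : Matrix K K ℝ} (h : P.PosDef) (x y : K → ℝ) : 0 < gden P x y := by
  unfold gden
  exact mul_pos (Real.sqrt_pos.2 h.det_pos) (Real.exp_pos _)

theorem measurable_gden {S : Type} [MeasurableSpace S] {P : S → Matrix K K ℝ} (hP : MeasM P)
    {x y : S → K → ℝ} (hx : Measurable x) (hy : Measurable y) :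
    Measurable fun σ => gden (P σ) (x σ) (y σ) := by
  have hx' : ∀ i, Measurable fun σ => x σ i := fun i => (measurable_pi_apply i).comp hx
  have hy' : ∀ i, Measurable fun σ => y σ i := fun i => (measurable_pi_apply i).comp hy
  have hd : Measurable fun σ => (P σ).det := by
    simp only [Matrix.det_apply']
    exact Finset.measurable_sum _ fun s _ =>
      (Finset.measurable_prod _ fun i _ => hP _ _).const_mul _
  unfold gden
  refine hd.sqrt.mul (Real.measurable_exp.comp (Measurable.sub ?_ ?_))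
  · simp only [dotProduct]
    exact (Finset.measurable_sum _ fun i _ => (hy' i).mul (hy' i)).div_const _
  · simp only [dotProduct, Matrix.mulVec, Pi.sub_apply]
    exact (Finset.measurable_sum _ fun i _ => ((hy' i).sub (hx' i)).mul
      (Finset.measurable_sum _ fun j _ => (hP i j).mul ((hy' j).sub (hx' j)))).div_const _

private theorem gd_gpi : gpi K = (volume : Measure (K → ℝ)).withDensity fun y =>
    ENNReal.ofReal (((√(2 * Real.pi))⁻¹) ^ Fintype.card K * Real.exp (-(y ⬝ᵥ y) / 2)) := by
  have e : ∀ y : K → ℝ, ((√(2 * Real.pi))⁻¹) ^ Fintype.card K * Real.exp (-(y ⬝ᵥ y) / 2)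
      = ∏ i, gaussianPDFReal 0 1 (y i) := by
    intro y
    simp only [gaussianPDFReal, Finset.prod_mul_distrib, Finset.prod_const, Finset.card_univ,
      ← Real.exp_sum, dotProduct]
    congr 2
    · simp
    · rw [← Finset.sum_neg_distrib, Finset.sum_div]
      exact Finset.sum_congr rfl fun i _ => by simp; ring
  simp only [e]
  unfold gpi
  refine Measure.pi_eq fun s hs => ?_
  have hi : ∀ i, Integrable ((s i).indicator (gaussianPDFReal 0 1)) volume := fun i =>
    (integrable_gaussianPDFReal 0 1).indicator (hs i)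
  have h0 : ∀ i t, 0 ≤ (s i).indicator (gaussianPDFReal 0 1) t := fun i t =>
    Set.indicator_nonneg (fun _ _ => gaussianPDFReal_nonneg _ _ _) _
  rw [withDensity_apply _ (MeasurableSet.univ_pi hs), ← lintegral_indicator
    (MeasurableSet.univ_pi hs)]
  have e2 : (Set.univ.pi s).indicator
      (fun y : K → ℝ => ENNReal.ofReal (∏ i, gaussianPDFReal 0 1 (y i)))
      = fun y => ENNReal.ofReal (∏ i, (s i).indicator (gaussianPDFReal 0 1) (y i)) := by
    funext y
    by_cases hy : y ∈ Set.univ.pi s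
    · rw [Set.indicator_of_mem hy]
      congr 1
      exact Finset.prod_congr rfl fun i _ => (Set.indicator_of_mem (hy i trivial) _).symm
    · rw [Set.indicator_of_notMem hy]
      obtain ⟨i, hi⟩ : ∃ i, y i ∉ s i := by simpa using hy
      rw [Finset.prod_eq_zero (Finset.mem_univ i) (Set.indicator_of_notMem hi _)]
      simp
  rw [e2, volume_pi, ← ofReal_integral_eq_lintegral_ofReal (Integrable.fintype_prod hi)
    (Eventually.of_forall fun y => Finset.prod_nonneg fun i _ => h0 i _),
    integral_fintype_prod_eq_prod,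
    ENNReal.ofReal_prod_of_nonneg fun i _ => integral_nonneg (h0 i)]
  refine Finset.prod_congr rfl fun i _ => ?_
  rw [gaussianReal_apply_eq_integral _ one_ne_zero, integral_indicator (hs i)]

/-- Reduce to a square invertible `A` (`exists_sq_root`, `gpi_map_cov`); `gpi K` has the product
density with respect to `volume`; `Real.map_matrix_volume_pi_eq_smul_volume_pi`, translation
invariance; `P = A⁻ᵀ A⁻¹`, `√det P = |det A|⁻¹`. -/
theorem gauss_density {B : Matrix K N ℝ} {P : Matrix K K ℝ} (h : B * Bᵀ * P = 1) (x : K → ℝ) :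
    (gpi N).map (fun ξ => x + B *ᵥ ξ) =
      (gpi K).withDensity fun y => ENNReal.ofReal (gden P x y) := by
  obtain ⟨hP, hS, hPS⟩ := posDef_of_inv h
  obtain ⟨A, hA⟩ := exists_sq_root hS.posSemidef
  have hmB : Measurable (fun g : N → ℝ => B *ᵥ g) :=
    (continuous_const.matrix_mulVec continuous_id).measurable
  have hmA : Measurable (fun g : K → ℝ => A *ᵥ g) :=
    (continuous_const.matrix_mulVec continuous_id).measurable
  have hadd : Measurable (fun y : K → ℝ => x + y) := measurable_const_add x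
  have hdet : A.det * A.det * P.det = 1 := by
    have := congrArg Matrix.det h
    rwa [← hA, Matrix.det_mul, Matrix.det_mul, Matrix.det_transpose, Matrix.det_one] at this
  have hA0 : A.det ≠ 0 := by
    intro h0; rw [h0] at hdet; simp at hdet
  have hsq : √P.det = |(A.det)⁻¹| := by
    rw [← Real.sqrt_sq_eq_abs]
    congr 1
    field_simp
    linarith
  have hAPA : Aᵀ * P * A = 1 := by
    have hu : IsUnit A := (Matrix.isUnit_iff_isUnit_det A).2 (isUnit_iff_ne_zero.2 hA0)
    refine hu.mul_left_cancel ?_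
    rw [← Matrix.mul_assoc, ← Matrix.mul_assoc, hA, h, Matrix.one_mul, Matrix.mul_one]
  have e1 : (gpi N).map (fun ξ => x + B *ᵥ ξ) = (gpi K).map (fun ξ => x + A *ᵥ ξ) := by
    have h1 := Measure.map_map (μ := gpi N) hadd hmB
    have h2 := Measure.map_map (μ := gpi K) hadd hmA
    rw [gpi_map_cov B A hA.symm, h2] at h1
    exact h1.symm
  have hT : Measurable (fun ξ : K → ℝ => x + A *ᵥ ξ) := hadd.comp hmA
  have hvol : (volume : Measure (K → ℝ)).map (fun ξ => x + A *ᵥ ξ)
      = ENNReal.ofReal |(A.det)⁻¹| • volume := by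
    have h2 := Measure.map_map (μ := (volume : Measure (K → ℝ))) hadd hmA
    have h3 : (volume : Measure (K → ℝ)).map (fun g => A *ᵥ g)
        = ENNReal.ofReal |(A.det)⁻¹| • volume := Real.map_matrix_volume_pi_eq_smul_volume_pi hA0
    rw [h3, Measure.map_smul, map_add_left_eq_self] at h2
    exact h2.symm
  set c : ℝ := ((√(2 * Real.pi))⁻¹) ^ Fintype.card K with hc
  have hc0 : 0 ≤ c := by positivity
  set ψ : (K → ℝ) → ℝ≥0∞ := fun y =>
    ENNReal.ofReal (c * Real.exp (-((y - x) ⬝ᵥ P *ᵥ (y - x)) / 2)) with hψ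
  have hψm : Measurable ψ := by
    refine ENNReal.measurable_ofReal.comp (Continuous.measurable ?_)
    refine continuous_const.mul (Real.continuous_exp.comp (Continuous.div_const ?_ _))
    exact ((continuous_id.sub continuous_const).dotProduct
      (continuous_const.matrix_mulVec (continuous_id.sub continuous_const))).neg
  have hgm : Measurable fun y => ENNReal.ofReal (gden P x y) :=
    ENNReal.measurable_ofReal.comp (measurable_gden (P := fun _ => P) (fun _ _ => measurable_const)
      measurable_const measurable_id)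
  have hφm : Measurable fun y : K → ℝ => ENNReal.ofReal (c * Real.exp (-(y ⬝ᵥ y) / 2)) := by
    refine ENNReal.measurable_ofReal.comp (Continuous.measurable ?_)
    exact continuous_const.mul (Real.continuous_exp.comp
      (Continuous.div_const (continuous_id.dotProduct continuous_id).neg _))
  have e2 : (fun y : K → ℝ => ENNReal.ofReal (c * Real.exp (-(y ⬝ᵥ y) / 2)))
      = fun ξ => ψ (x + A *ᵥ ξ) := by
    funext ξ
    simp only [hψ, add_sub_cancel_left]
    rw [Matrix.mulVec_mulVec, Matrix.dotProduct_mulVec, Matrix.vecMul_mulVec, ← Matrix.mul_assoc,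
      hAPA, Matrix.vecMul_one]
  rw [e1, gd_gpi, ← withDensity_mul _ hφm hgm, e2]
  ext s hs
  rw [Measure.map_apply hT hs, withDensity_apply _ (hT hs), withDensity_apply _ hs,
    ← setLIntegral_map hs hψm hT, hvol, Measure.restrict_smul, lintegral_smul_measure, smul_eq_mul,
    ← lintegral_const_mul _ hψm, ← e2]
  refine lintegral_congr fun y => ?_
  simp only [hψ, Pi.mul_apply, gden]
  rw [← ENNReal.ofReal_mul (abs_nonneg _), ← ENNReal.ofReal_mul (by positivity), hsq]
  congr 1
  have : Real.exp (-((y - x) ⬝ᵥ P *ᵥ (y - x)) / 2)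
      = Real.exp (-(y ⬝ᵥ y) / 2) * Real.exp (y ⬝ᵥ y / 2 - (y - x) ⬝ᵥ P *ᵥ (y - x) / 2) := by
    rw [← Real.exp_add]; congr 1; ring
  rw [this]; ring

theorem integral_log_gden {B : Matrix K N ℝ} {P : Matrix K K ℝ} (h : B * Bᵀ * P = 1) (x : K → ℝ) :
    Integrable (fun ξ => Real.log (gden P x (x + B *ᵥ ξ))) (gpi N) ∧
      ∫ ξ, Real.log (gden P x (x + B *ᵥ ξ)) ∂(gpi N) =
        Real.log P.det / 2 - Fintype.card K / 2 + (x ⬝ᵥ x + (B * Bᵀ).trace) / 2 := by
  obtain ⟨hP, hS, hPS⟩ := posDef_of_inv h
  have q1 := integral_quad (1 : Matrix K K ℝ) B x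
  have q2 := integral_quad P B 0
  simp only [Matrix.one_mulVec, Matrix.one_mul] at q1
  simp only [zero_add, hPS, Matrix.trace_one, zero_dotProduct] at q2
  have e : (fun ξ => Real.log (gden P x (x + B *ᵥ ξ))) = fun ξ => Real.log P.det / 2 +
      ((x + B *ᵥ ξ) ⬝ᵥ (x + B *ᵥ ξ) / 2 - (B *ᵥ ξ) ⬝ᵥ P *ᵥ (B *ᵥ ξ) / 2) := by
    funext ξ
    rw [gden, Real.log_mul (Real.sqrt_pos.2 hP.det_pos).ne' (Real.exp_pos _).ne', Real.log_exp,
      Real.log_sqrt hP.det_pos.le, add_sub_cancel_left]
  have i1 := q1.1.div_const 2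
  have i2 := q2.1.div_const 2
  have i3 : Integrable (fun ξ => (x + B *ᵥ ξ) ⬝ᵥ (x + B *ᵥ ξ) / 2
      - (B *ᵥ ξ) ⬝ᵥ P *ᵥ (B *ᵥ ξ) / 2) (gpi N) := i1.sub i2
  rw [e]
  refine ⟨(integrable_const _).add i3, ?_⟩
  rw [integral_add (integrable_const _) i3, integral_const, integral_sub i1 i2, integral_div,
    integral_div, q1.2, q2.2]
  simp only [probReal_univ, smul_eq_mul, one_mul]
  ring

end

end Crest.Agent.R166.B
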