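import Crest.Agent.R166.B.GBayes
import Crest.Agent.R166.B.GDen

/-! # Density of the noisy law -/

set_option autoImplicit false
set_option linter.unusedVariables false
set_option linter.unusedSectionVars false

open MeasureTheory ProbabilityTheory Filter Topology Matrix
open scoped ENNReal BoundedContinuousFunction Kronecker

namespace Crest.Agent.R166.B

/-- density of `noisy (l ⊗ₘ κ) B` with respect to `l ⊗ gpi K` -/
noncomputable def rhoD {K S : Type} [Fintype K] [DecidableEq K] [MeasurableSpace S]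
    (κ : Kernel S (K → ℝ)) (P : S → Matrix K K ℝ) (q : S × (K → ℝ)) : ℝ :=
  Zf (P q.1) (κ q.1) 1 q.2 * gden (P q.1) 0 q.2

section aux
variable {K N S : Type} [Fintype K] [Fintype N] [DecidableEq K] [MeasurableSpace S]

private theorem den_symm {P : Matrix K K ℝ} (hP : P.PosDef) (x y : K → ℝ) :
    y ⬝ᵥ P *ᵥ x = x ⬝ᵥ P *ᵥ y := by
  have h : Pᵀ = P := by
    have := hP.isHermitian
    rwa [Matrix.IsHermitian, Matrix.conjTranspose_eq_transpose_of_trivial] at this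
  rw [Matrix.dotProduct_mulVec, ← Matrix.mulVec_transpose, h, dotProduct_comm]

private theorem gden_eq {P : Matrix K K ℝ} (hP : P.PosDef) (x y : K → ℝ) :
    gden P x y = wt P 1 y x * gden P 0 y := by
  unfold gden wt
  rw [mul_left_comm, ← Real.exp_add]
  congr 2
  simp only [sub_zero, Matrix.mulVec_sub, sub_dotProduct, dotProduct_sub]
  rw [den_symm hP x y]
  ring

private theorem log_gden0 {P : Matrix K K ℝ} (hP : P.PosDef) (y : K → ℝ) :
    Real.log (gden P 0 y) = Real.log P.det / 2 + y ⬝ᵥ y / 2 - y ⬝ᵥ P *ᵥ y / 2 := by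
  unfold gden
  rw [Real.log_mul (Real.sqrt_pos.2 hP.det_pos).ne' (Real.exp_pos _).ne', Real.log_exp,
    Real.log_sqrt hP.det_pos.le, sub_zero]
  ring

private theorem meas_y {B : S → Matrix K N ℝ} (hB : MeasM B) :
    Measurable fun w : (S × (K → ℝ)) × (N → ℝ) => w.1.2 + B w.1.1 *ᵥ w.2 := by
  have := measurable_ob hB 1
  simpa [ob] using this

private theorem meas_det {P : S → Matrix K K ℝ} (hP : MeasM P) :
    Measurable fun σ => (P σ).det := by
  simp only [Matrix.det_apply']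
  refine Finset.measurable_sum _ fun s _ => Measurable.const_mul ?_ _
  exact Finset.measurable_prod _ fun i _ => hP _ _

private theorem form_le {Q : Matrix K K ℝ} {C L : ℝ} (hQ : ∀ i j, |Q i j| ≤ C) {x : K → ℝ}
    (hx : ∀ k, |x k| ≤ L) : |x ⬝ᵥ Q *ᵥ x| ≤ ∑ _i : K, ∑ _j : K, L * (C * L) := by
  unfold dotProduct Matrix.mulVec dotProduct
  refine (Finset.abs_sum_le_sum_abs _ _).trans (Finset.sum_le_sum fun i _ => ?_)
  rw [Finset.mul_sum]
  refine (Finset.abs_sum_le_sum_abs _ _).trans (Finset.sum_le_sum fun j _ => ?_)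
  rw [abs_mul, abs_mul]
  have h0 : 0 ≤ L := (abs_nonneg _).trans (hx i)
  exact mul_le_mul (hx i) (mul_le_mul (hQ i j) (hx j) (abs_nonneg _)
    ((abs_nonneg _).trans (hQ i j))) (by positivity) h0

private theorem int_fst (l : Measure S) [IsProbabilityMeasure l] (κ : Kernel S (K → ℝ))
    [IsMarkovKernel κ] {g : S → ℝ} (hg : Measurable g) (hi : Integrable g l) :
    Integrable (fun q : S × (K → ℝ) => g q.1) (l ⊗ₘ κ) ∧
      ∫ q, g q.1 ∂(l ⊗ₘ κ) = ∫ σ, g σ ∂l := by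
  have h : (l ⊗ₘ κ).map Prod.fst = l := Measure.fst_compProd l κ
  constructor
  · rw [← h] at hi
    exact (integrable_map_measure hg.aestronglyMeasurable measurable_fst.aemeasurable).1 hi
  · conv_rhs => rw [← h]
    rw [integral_map measurable_fst.aemeasurable hg.aestronglyMeasurable]

private theorem quad_int (μ : Measure (S × (K → ℝ))) [IsProbabilityMeasure μ]
    {Q : S → Matrix K K ℝ} {B : S → Matrix K N ℝ} (hQ : MeasM Q) (hB : MeasM B)
    (hpsd : ∀ σ, (Q σ).PosSemidef) (h1 : Integrable (fun q => q.2 ⬝ᵥ Q q.1 *ᵥ q.2) μ)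
    (h2 : Integrable (fun q : S × (K → ℝ) => (Q q.1 * (B q.1 * (B q.1)ᵀ)).trace) μ) :
    Integrable (fun w : (S × (K → ℝ)) × (N → ℝ) =>
      (w.1.2 + B w.1.1 *ᵥ w.2) ⬝ᵥ Q w.1.1 *ᵥ (w.1.2 + B w.1.1 *ᵥ w.2)) (μ.prod (gpi N)) ∧
    ∫ w, (w.1.2 + B w.1.1 *ᵥ w.2) ⬝ᵥ Q w.1.1 *ᵥ (w.1.2 + B w.1.1 *ᵥ w.2) ∂(μ.prod (gpi N)) =
      (∫ q, q.2 ⬝ᵥ Q q.1 *ᵥ q.2 ∂μ) + ∫ q, (Q q.1 * (B q.1 * (B q.1)ᵀ)).trace ∂μ := by
  have hm : Measurable fun w : (S × (K → ℝ)) × (N → ℝ) =>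
      (w.1.2 + B w.1.1 *ᵥ w.2) ⬝ᵥ Q w.1.1 *ᵥ (w.1.2 + B w.1.1 *ᵥ w.2) :=
    measurable_form (hQ.comp (measurable_fst.comp measurable_fst)) (meas_y hB) (meas_y hB)
  have hi : Integrable (fun w : (S × (K → ℝ)) × (N → ℝ) =>
      (w.1.2 + B w.1.1 *ᵥ w.2) ⬝ᵥ Q w.1.1 *ᵥ (w.1.2 + B w.1.1 *ᵥ w.2)) (μ.prod (gpi N)) := by
    rw [integrable_prod_iff hm.aestronglyMeasurable]
    refine ⟨ae_of_all _ fun q => (integral_quad (Q q.1) (B q.1) q.2).1, ?_⟩
    refine (h1.add h2).congr (ae_of_all _ fun q => ?_)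
    simp only [Pi.add_apply]
    rw [← (integral_quad (Q q.1) (B q.1) q.2).2]
    refine integral_congr_ae (ae_of_all _ fun ξ => ?_)
    have := (hpsd q.1).dotProduct_mulVec_nonneg (q.2 + B q.1 *ᵥ ξ)
    simp only [star_trivial] at this
    simp only [Real.norm_eq_abs, abs_of_nonneg this]
  refine ⟨hi, ?_⟩
  rw [integral_prod _ hi, ← integral_add h1 h2]
  exact integral_congr_ae (ae_of_all _ fun q => (integral_quad (Q q.1) (B q.1) q.2).2)

private theorem logZ_int (l : Measure S) [IsProbabilityMeasure l] (κ : Kernel S (K → ℝ))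
    [IsMarkovKernel κ] {P : S → Matrix K K ℝ} {B : S → Matrix K N ℝ} (hP : MeasM P) (hB : MeasM B)
    (h1 : ∀ σ, B σ * (B σ)ᵀ * P σ = 1) {Λ : ℝ}
    (hb : ∀ᵐ q ∂(l ⊗ₘ κ), q.2 ⬝ᵥ P q.1 *ᵥ q.2 ≤ Λ) :
    Integrable (fun w : (S × (K → ℝ)) × (N → ℝ) =>
      Real.log (Zf (P w.1.1) (κ w.1.1) 1 (w.1.2 + B w.1.1 *ᵥ w.2))) ((l ⊗ₘ κ).prod (gpi N)) ∧
    ∫ w, Real.log (Zf (P w.1.1) (κ w.1.1) 1 (w.1.2 + B w.1.1 *ᵥ w.2)) ∂((l ⊗ₘ κ).prod (gpi N)) =
      Psi l κ P B 1 := by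
  have hob : ∀ σ x ξ, ob (B σ) 1 x ξ = x + B σ *ᵥ ξ := fun σ x ξ => by simp [ob]
  have hm : Measurable fun w : (S × (K → ℝ)) × (N → ℝ) =>
      Real.log (Zf (P w.1.1) (κ w.1.1) 1 (w.1.2 + B w.1.1 *ᵥ w.2)) :=
    ((measurable_Zf hP κ 1).comp
      ((measurable_fst.comp measurable_fst).prodMk (meas_y hB))).log
  have hmx : Measurable fun ξ : N → ℝ => ξ ⬝ᵥ ξ := by
    unfold dotProduct
    fun_prop
  have hxi : Integrable (fun ξ : N → ℝ => ξ ⬝ᵥ ξ) (gpi N) := by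
    classical
    have := (integral_quad (1 : Matrix N N ℝ) (1 : Matrix N N ℝ) 0).1
    simpa using this
  have hs : MeasurableSet {w : (S × (K → ℝ)) × (N → ℝ) |
      ‖Real.log (Zf (P w.1.1) (κ w.1.1) 1 (w.1.2 + B w.1.1 *ᵥ w.2))‖ ≤ 3 * Λ + w.2 ⬝ᵥ w.2} :=
    measurableSet_le hm.norm ((hmx.comp measurable_snd).const_add _)
  have hae : ∀ᵐ w ∂((l ⊗ₘ κ).prod (gpi N)),
      ‖Real.log (Zf (P w.1.1) (κ w.1.1) 1 (w.1.2 + B w.1.1 *ᵥ w.2))‖ ≤ 3 * Λ + w.2 ⬝ᵥ w.2 := by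
    rw [Measure.ae_prod_iff_ae_ae hs]
    refine (Measure.ae_ae_comm (μ := l ⊗ₘ κ) (ν := gpi N) (p := fun q ξ =>
      ‖Real.log (Zf (P q.1) (κ q.1) 1 (q.2 + B q.1 *ᵥ ξ))‖ ≤ 3 * Λ + ξ ⬝ᵥ ξ) hs).2 ?_
    refine ae_of_all _ fun ξ => ?_
    refine Measure.ae_compProd_of_ae_ae (measurable_prodMk_right (y := ξ) hs) ?_
    filter_upwards [Measure.ae_ae_of_ae_compProd hb] with σ hσ
    have hc : Ch (P σ) (B σ) (κ σ) :=
      ⟨(posDef_of_inv (h1 σ)).1.posSemidef, ae_of_all _ fun x => by rw [h1 σ, Matrix.one_mulVec]⟩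
    filter_upwards [abs_log_Zf_le hc hσ zero_le_one] with x hx
    have := hx ξ
    rw [hob] at this
    simp only [Real.norm_eq_abs]
    linarith
  have hi : Integrable (fun w : (S × (K → ℝ)) × (N → ℝ) =>
      Real.log (Zf (P w.1.1) (κ w.1.1) 1 (w.1.2 + B w.1.1 *ᵥ w.2))) ((l ⊗ₘ κ).prod (gpi N)) :=
    Integrable.mono' ((integrable_const (3 * Λ)).add (hxi.comp_snd (l ⊗ₘ κ)))
      hm.aestronglyMeasurable hae
  refine ⟨hi, ?_⟩
  rw [integral_prod _ hi, Measure.integral_compProd hi.integral_prod_left]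
  simp only [Psi, psi, hob]

private theorem den_eq (l : Measure S) [IsProbabilityMeasure l] (κ : Kernel S (K → ℝ))
    [IsMarkovKernel κ] {P : S → Matrix K K ℝ} {B : S → Matrix K N ℝ} (hP : MeasM P) (hB : MeasM B)
    (h1 : ∀ σ, B σ * (B σ)ᵀ * P σ = 1) (hm : Measurable (rhoD κ P)) :
    noisy (l ⊗ₘ κ) B = (l.prod (gpi K)).withDensity fun q => ENNReal.ofReal (rhoD κ P q) := by
  refine Measure.ext_of_lintegral _ fun f hf => ?_
  have hT : Measurable fun w : (S × (K → ℝ)) × (N → ℝ) => (w.1.1, w.1.2 + B w.1.1 *ᵥ w.2) :=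
    (measurable_fst.comp measurable_fst).prodMk (meas_y hB)
  have hfT : Measurable fun w : (S × (K → ℝ)) × (N → ℝ) =>
      f (w.1.1, w.1.2 + B w.1.1 *ᵥ w.2) := hf.comp hT
  unfold noisy
  rw [lintegral_map hf hT, lintegral_prod _ hfT.aemeasurable,
    Measure.lintegral_compProd hfT.lintegral_prod_right',
    lintegral_withDensity_eq_lintegral_mul _ hm.ennreal_ofReal hf,
    lintegral_prod _ (hm.ennreal_ofReal.mul hf).aemeasurable]
  refine lintegral_congr fun σ => ?_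
  have hPd := (posDef_of_inv (h1 σ)).1
  have hfσ : Measurable fun y => f (σ, y) := hf.comp measurable_prodMk_left
  have hg : Measurable fun w : (K → ℝ) × (K → ℝ) => gden (P σ) w.1 w.2 :=
    measurable_gden (P := fun _ => P σ) (fun _ _ => measurable_const) measurable_fst measurable_snd
  have e1 : ∀ x, ∫⁻ ξ, f (σ, x + B σ *ᵥ ξ) ∂(gpi N) =
      ∫⁻ y, ENNReal.ofReal (gden (P σ) x y) * f (σ, y) ∂(gpi K) := by
    intro x
    have hx : Measurable fun ξ : N → ℝ => x + B σ *ᵥ ξ :=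
      (meas_y hB).comp (measurable_prodMk_left (x := (σ, x)))
    have hgx : Measurable fun y => gden (P σ) x y := hg.comp (measurable_prodMk_left (x := x))
    rw [← lintegral_map hfσ hx, gauss_density (h1 σ) x,
      lintegral_withDensity_eq_lintegral_mul _ hgx.ennreal_ofReal hfσ]
    rfl
  simp only [e1, Pi.mul_apply]
  rw [lintegral_lintegral_swap
    (hg.ennreal_ofReal.mul (hfσ.comp measurable_snd)).aemeasurable]
  refine lintegral_congr fun y => ?_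
  have hgy : Measurable fun x => gden (P σ) x y := hg.comp (measurable_prodMk_right (y := y))
  rw [lintegral_mul_const _ hgy.ennreal_ofReal]
  congr 1
  have hw : Integrable (wt (P σ) 1 y) (κ σ) :=
    integrable_wt hPd.posSemidef zero_le_one (Or.inl one_pos)
  rw [lintegral_congr fun x => congrArg ENNReal.ofReal (gden_eq hPd x y)]
  rw [← ofReal_integral_eq_lintegral_ofReal (hw.mul_const _)
    (ae_of_all _ fun x => (mul_pos (wt_pos _ _ _ _) (gden_pos hPd _ _)).le), integral_mul_const]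
  rfl

end aux

/-- `gden P x y = wt P 1 y x * gden P 0 y`, `gauss_density`; then `log rhoD` is integrated with
`integral_tri`, `abs_log_Zf_le`, `integral_quad`. -/
theorem noisy_density {K N S : Type} [Fintype K] [Fintype N] [DecidableEq K] [MeasurableSpace S]
    (l : Measure S) [IsProbabilityMeasure l] (κ : Kernel S (K → ℝ)) [IsMarkovKernel κ]
    {P : S → Matrix K K ℝ} {B : S → Matrix K N ℝ} (hP : MeasM P) (hB : MeasM B)
    (h1 : ∀ σ, B σ * (B σ)ᵀ * P σ = 1) {C L : ℝ} (hPb : ∀ σ i j, |P σ i j| ≤ C)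
    (hBb : ∀ σ i j, |B σ i j| ≤ C) (hd : ∀ σ, |Real.log (P σ).det| ≤ C)
    (hL : ∀ᵐ q ∂(l ⊗ₘ κ), ∀ k, |q.2 k| ≤ L) :
    Measurable (rhoD κ P) ∧ (∀ q, 0 < rhoD κ P q) ∧
    (noisy (l ⊗ₘ κ) B = (l.prod (gpi K)).withDensity fun q => ENNReal.ofReal (rhoD κ P q)) ∧
    Integrable (fun q => Real.log (rhoD κ P q)) (noisy (l ⊗ₘ κ) B) ∧
    ∫ q, Real.log (rhoD κ P q) ∂(noisy (l ⊗ₘ κ) B) =
      Psi l κ P B 1 + (∫ σ, Real.log (P σ).det ∂l) / 2 -
        ((∫ q, q.2 ⬝ᵥ P q.1 *ᵥ q.2 ∂(l ⊗ₘ κ)) + Fintype.card K) / 2 +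
        ((∫ q, q.2 ⬝ᵥ q.2 ∂(l ⊗ₘ κ)) + ∫ σ, (B σ * (B σ)ᵀ).trace ∂l) / 2 := by
  have hPd : ∀ σ, (P σ).PosDef := fun σ => (posDef_of_inv (h1 σ)).1
  have hZ : ∀ σ y, 0 < Zf (P σ) (κ σ) 1 y := fun σ y =>
    Zf_pos (integrable_wt (hPd σ).posSemidef zero_le_one (Or.inl one_pos))
  have hm : Measurable (rhoD κ P) :=
    (measurable_Zf hP κ 1).mul
      (measurable_gden (hP.comp measurable_fst) measurable_const measurable_snd)
  have hT : Measurable fun w : (S × (K → ℝ)) × (N → ℝ) => (w.1.1, w.1.2 + B w.1.1 *ᵥ w.2) :=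
    (measurable_fst.comp measurable_fst).prodMk (meas_y hB)
  refine ⟨hm, fun q => mul_pos (hZ _ _) (gden_pos (hPd _) _ _), den_eq l κ hP hB h1 hm, ?_⟩
  have hb : ∀ᵐ q ∂(l ⊗ₘ κ), |q.2 ⬝ᵥ P q.1 *ᵥ q.2| ≤ ∑ _i : K, ∑ _j : K, L * (C * L) := by
    filter_upwards [hL] with q hq using form_le (hPb q.1) hq
  have hb1 : ∀ᵐ q ∂(l ⊗ₘ κ), |q.2 ⬝ᵥ (1 : Matrix K K ℝ) *ᵥ q.2| ≤
      ∑ _i : K, ∑ _j : K, L * (1 * L) := by
    filter_upwards [hL] with q hq
    refine form_le (fun i j => ?_) hq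
    rw [Matrix.one_apply]
    split_ifs <;> simp
  have hM1 : MeasM fun _ : S => (1 : Matrix K K ℝ) := fun _ _ => measurable_const
  have iP : Integrable (fun q => q.2 ⬝ᵥ P q.1 *ᵥ q.2) (l ⊗ₘ κ) :=
    Integrable.of_bound
      (measurable_form (hP.comp measurable_fst) measurable_snd measurable_snd).aestronglyMeasurable
      _ hb
  have i1 : Integrable (fun q : S × (K → ℝ) => q.2 ⬝ᵥ (1 : Matrix K K ℝ) *ᵥ q.2) (l ⊗ₘ κ) :=
    Integrable.of_bound
      (measurable_form (hM1.comp measurable_fst) measurable_snd measurable_snd).aestronglyMeasurable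
      _ hb1
  have tP : ∀ σ, (P σ * (B σ * (B σ)ᵀ)).trace = Fintype.card K := fun σ => by
    rw [(posDef_of_inv (h1 σ)).2.2, Matrix.trace_one]
  have mtr : Measurable fun σ => (B σ * (B σ)ᵀ).trace := by
    simp only [Matrix.trace, Matrix.diag, Matrix.mul_apply, Matrix.transpose_apply]
    exact Finset.measurable_sum _ fun i _ => Finset.measurable_sum _ fun j _ => (hB i j).mul (hB i j)
  have itr : Integrable (fun σ => (B σ * (B σ)ᵀ).trace) l := by
    refine Integrable.of_bound mtr.aestronglyMeasurable (∑ _i : K, ∑ _j : N, C * C)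
      (ae_of_all _ fun σ => ?_)
    simp only [Matrix.trace, Matrix.diag, Matrix.mul_apply, Matrix.transpose_apply,
      Real.norm_eq_abs]
    refine (Finset.abs_sum_le_sum_abs _ _).trans (Finset.sum_le_sum fun i _ => ?_)
    refine (Finset.abs_sum_le_sum_abs _ _).trans (Finset.sum_le_sum fun j _ => ?_)
    rw [abs_mul]
    exact mul_self_le_mul_self (abs_nonneg _) (hBb σ i j)
  obtain ⟨jtr, etr⟩ := int_fst l κ mtr itr
  have mld : Measurable fun σ => Real.log (P σ).det := (meas_det hP).log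
  obtain ⟨jld, eld⟩ := int_fst l κ mld
    (Integrable.of_bound mld.aestronglyMeasurable C (ae_of_all _ hd))
  obtain ⟨a1, b1⟩ := logZ_int l κ hP hB h1 (hb.mono fun q hq => (le_abs_self _).trans hq)
  obtain ⟨a4, b4⟩ := quad_int (l ⊗ₘ κ) hP hB (fun σ => (hPd σ).posSemidef) iP
    (by simp only [tP]; exact integrable_const _)
  obtain ⟨a3, b3⟩ := quad_int (l ⊗ₘ κ) hM1 hB (fun σ => Matrix.PosSemidef.one) i1
    (by simpa only [Matrix.one_mul] using jtr)
  simp only [Matrix.one_mul, Matrix.one_mulVec, etr] at a3 b3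
  simp only [tP, integral_const, probReal_univ, one_smul] at b4
  have a2 : Integrable (fun w : (S × (K → ℝ)) × (N → ℝ) => Real.log (P w.1.1).det)
      ((l ⊗ₘ κ).prod (gpi N)) := jld.comp_fst _
  have b2 : ∫ w : (S × (K → ℝ)) × (N → ℝ), Real.log (P w.1.1).det ∂((l ⊗ₘ κ).prod (gpi N)) =
      ∫ σ, Real.log (P σ).det ∂l := by
    rw [integral_prod _ a2, ← eld]
    simp
  have e : ∀ w : (S × (K → ℝ)) × (N → ℝ),
      Real.log (rhoD κ P (w.1.1, w.1.2 + B w.1.1 *ᵥ w.2)) =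
        Real.log (Zf (P w.1.1) (κ w.1.1) 1 (w.1.2 + B w.1.1 *ᵥ w.2)) +
          (Real.log (P w.1.1).det / 2 +
            (w.1.2 + B w.1.1 *ᵥ w.2) ⬝ᵥ (w.1.2 + B w.1.1 *ᵥ w.2) / 2 -
            (w.1.2 + B w.1.1 *ᵥ w.2) ⬝ᵥ P w.1.1 *ᵥ (w.1.2 + B w.1.1 *ᵥ w.2) / 2) := by
    intro w
    unfold rhoD
    rw [Real.log_mul (hZ _ _).ne' (gden_pos (hPd _) _ _).ne', log_gden0 (hPd _)]
  have a23 := (a2.div_const 2).fun_add (a3.div_const 2)
  have a234 := a23.sub' (a4.div_const 2)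
  unfold noisy
  constructor
  · rw [integrable_map_measure hm.log.aestronglyMeasurable hT.aemeasurable]
    exact (a1.add a234).congr (ae_of_all _ fun w => (e w).symm)
  · rw [integral_map hT.aemeasurable hm.log.aestronglyMeasurable]
    simp only [e]
    rw [integral_add a1 a234, integral_sub a23 (a4.div_const 2),
      integral_add (a2.div_const 2) (a3.div_const 2), integral_div, integral_div, integral_div,
      b1, b2, b3, b4]
    ring


end Crest.Agent.R166.B
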