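import Crest.Agent.R166.B.Bayes

/-! # Bounds for the channel functionals -/

set_option autoImplicit false
set_option linter.unusedVariables false
set_option linter.unusedSectionVars false

open MeasureTheory ProbabilityTheory Filter Topology Matrix
open scoped ENNReal BoundedContinuousFunction Kronecker

namespace Crest.Agent.R166.B

section
variable {K N : Type} [Fintype K] [Fintype N] {P : Matrix K K ℝ} {B : Matrix K N ℝ}
  {κ : Measure (K → ℝ)} {u : ℝ}

private theorem Step0_symm (hP : P.PosSemidef) (x y : K → ℝ) : x ⬝ᵥ P *ᵥ y = y ⬝ᵥ P *ᵥ x := by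
  have h : Pᵀ = P := by
    have := hP.1
    rwa [IsHermitian, conjTranspose_eq_transpose_of_trivial] at this
  rw [dotProduct_mulVec, ← mulVec_transpose, h, dotProduct_comm]

private theorem Step0_nn (hP : P.PosSemidef) (x : K → ℝ) : 0 ≤ x ⬝ᵥ P *ᵥ x := by
  simpa using hP.dotProduct_mulVec_nonneg x

private theorem Step0_cs (hP : P.PosSemidef) (x y : K → ℝ) :
    |x ⬝ᵥ P *ᵥ y| ≤ (x ⬝ᵥ P *ᵥ x + y ⬝ᵥ P *ᵥ y) / 2 := by
  have h1 := Step0_nn hP (x + y)
  have h2 := Step0_nn hP (x - y)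
  have h3 := Step0_symm hP x y
  simp only [mulVec_add, mulVec_sub, add_dotProduct, dotProduct_add, sub_dotProduct,
    dotProduct_sub] at h1 h2
  rw [abs_le]
  constructor <;> linarith

theorem psi_zero [IsProbabilityMeasure κ] : psi P B κ 0 = 0 := by
  simp [psi, Zf, wt, ob]

/-- `|x' P (u x + √u B ξ) - u x' P x' / 2| ≤ 2 u Λ + √(u Λ) |ξ|₂` on the support -/
theorem abs_log_Zf_le [IsProbabilityMeasure κ] (hc : Ch P B κ) {Λ : ℝ}
    (hb : ∀ᵐ x ∂κ, x ⬝ᵥ P *ᵥ x ≤ Λ) (hu : 0 ≤ u) :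
    ∀ᵐ x ∂κ, ∀ ξ, |Real.log (Zf P κ u (ob B u x ξ))| ≤ 2 * u * Λ + (u * Λ + ξ ⬝ᵥ ξ) := by
  classical
  filter_upwards [hb] with x hx ξ
  set c : ℝ := 2 * u * Λ + (u * Λ + ξ ⬝ᵥ ξ) with hc'
  have hΛ : 0 ≤ Λ := (Step0_nn hc.psd x).trans hx
  have hae : ∀ᵐ x' ∂κ, |x' ⬝ᵥ P *ᵥ ob B u x ξ - u / 2 * (x' ⬝ᵥ P *ᵥ x')| ≤ c := by
    filter_upwards [hb, hc.supp] with x' hx' hs
    set w : N → ℝ := Bᵀ *ᵥ (P *ᵥ x') with hw
    have hw1 : ∀ η : N → ℝ, x' ⬝ᵥ P *ᵥ (B *ᵥ η) = w ⬝ᵥ η := fun η => by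
      rw [Step0_symm hc.psd, dotProduct_comm, dotProduct_mulVec, hw, mulVec_transpose]
    have hw2 : w ⬝ᵥ w = x' ⬝ᵥ P *ᵥ x' := by
      rw [← hw1, hw, mulVec_mulVec, mulVec_mulVec, mulVec_mulVec, Matrix.mul_assoc P,
        Matrix.mul_assoc P, ← mulVec_mulVec, hs]
    have h1 : x' ⬝ᵥ P *ᵥ ob B u x ξ = u * (x' ⬝ᵥ P *ᵥ x) + (√u • w) ⬝ᵥ ξ := by
      simp only [ob, mulVec_add, mulVec_smul, dotProduct_add, dotProduct_smul, smul_eq_mul, hw1,
        smul_dotProduct]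
    have h2 := Step0_cs (P := (1 : Matrix N N ℝ)) PosSemidef.one (√u • w) ξ
    simp only [one_mulVec] at h2
    have h3 : (√u • w) ⬝ᵥ (√u • w) = u * (x' ⬝ᵥ P *ᵥ x') := by
      rw [smul_dotProduct, dotProduct_smul, hw2, smul_eq_mul, smul_eq_mul, ← mul_assoc,
        Real.mul_self_sqrt hu]
    have h4 := Step0_cs hc.psd x' x
    have h5 := Step0_nn hc.psd x'
    have h6 : 0 ≤ ξ ⬝ᵥ ξ := by
      simpa using Step0_nn (P := (1 : Matrix N N ℝ)) PosSemidef.one ξ
    rw [h3] at h2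
    rw [h1]
    rw [abs_le] at h2 h4 ⊢
    have h7 : u * (x' ⬝ᵥ P *ᵥ x') ≤ u * Λ := mul_le_mul_of_nonneg_left hx' hu
    have h8 : 0 ≤ u * (x' ⬝ᵥ P *ᵥ x') := mul_nonneg hu h5
    have h9 : u * (x' ⬝ᵥ P *ᵥ x) ≤ u * Λ := mul_le_mul_of_nonneg_left (by linarith [h4.2]) hu
    have h10 : u * (-Λ) ≤ u * (x' ⬝ᵥ P *ᵥ x) := mul_le_mul_of_nonneg_left (by linarith [h4.1]) hu
    constructor <;> nlinarith [h2.1, h2.2]
  have hup : ∀ᵐ x' ∂κ, wt P u (ob B u x ξ) x' ≤ Real.exp c := by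
    filter_upwards [hae] with x' h using Real.exp_le_exp.2 (abs_le.1 h).2
  have hlo : ∀ᵐ x' ∂κ, Real.exp (-c) ≤ wt P u (ob B u x ξ) x' := by
    filter_upwards [hae] with x' h using Real.exp_le_exp.2 (abs_le.1 h).1
  have hint : Integrable (wt P u (ob B u x ξ)) κ := by
    refine Integrable.of_bound (C := Real.exp c)
      ((continuous_wt P u).comp (Continuous.prodMk_right _)).aestronglyMeasurable ?_
    filter_upwards [hup] with x' h
    rwa [Real.norm_eq_abs, abs_of_pos (wt_pos _ _ _ _)]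
  have h1 : Zf P κ u (ob B u x ξ) ≤ Real.exp c := by
    simpa [Zf] using integral_mono_ae hint (integrable_const _) hup
  have h2 : Real.exp (-c) ≤ Zf P κ u (ob B u x ξ) := by
    simpa [Zf] using integral_mono_ae (integrable_const _) hint hlo
  have h3 := Zf_pos hint
  rw [abs_le]
  exact ⟨(Real.le_log_iff_exp_le h3).2 h2, (Real.log_le_iff_le_exp h3).2 h1⟩

theorem abs_psi_le [IsProbabilityMeasure κ] (hc : Ch P B κ) {Λ : ℝ}
    (hb : ∀ᵐ x ∂κ, x ⬝ᵥ P *ᵥ x ≤ Λ) (hu : 0 ≤ u) :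
    |psi P B κ u| ≤ 3 * u * Λ + Fintype.card N := by
  classical
  obtain ⟨hi, he⟩ := integral_quad (K := N) (N := N) 1 1 0
  simp only [one_mulVec, zero_add, dotProduct_zero, transpose_one, Matrix.mul_one, trace_one]
    at hi he
  have h : ∀ᵐ x ∂κ, ‖∫ ξ, Real.log (Zf P κ u (ob B u x ξ)) ∂(gpi N)‖ ≤
      3 * u * Λ + Fintype.card N := by
    filter_upwards [abs_log_Zf_le hc hb hu] with x hx
    refine (norm_integral_le_of_norm_le (g := fun ξ => 3 * u * Λ + ξ ⬝ᵥ ξ)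
      ((integrable_const _).add hi) (ae_of_all _ fun ξ => ?_)).trans ?_
    · have := hx ξ
      rw [Real.norm_eq_abs]
      linarith
    · rw [integral_add (integrable_const _) hi, he]
      simp
  simpa [psi] using norm_integral_le_of_norm_le_const h

/-- Jensen (or Cauchy–Schwarz) under the posterior -/
theorem Mf_form_le [IsProbabilityMeasure κ] (hP : P.PosSemidef) {L Λ : ℝ}
    (hL : ∀ᵐ x ∂κ, ∀ k, |x k| ≤ L) (hb : ∀ᵐ x ∂κ, x ⬝ᵥ P *ᵥ x ≤ Λ) (hu : 0 ≤ u) (y : K → ℝ) :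
    0 ≤ Mf P κ u y ⬝ᵥ P *ᵥ Mf P κ u y ∧ Mf P κ u y ⬝ᵥ P *ᵥ Mf P κ u y ≤ Λ := by
  refine ⟨Step0_nn hP _, ?_⟩
  have hw := integrable_wt hP hu (y := y) (Or.inr (Or.inr ⟨L, hL⟩))
  have hZ := Zf_pos hw
  have hk : ∀ k, Integrable (fun x => wt P u y x * x k) κ := fun k =>
    integrable_wt_mul hP hu (Or.inr (Or.inr ⟨L, hL⟩)) k
      (Integrable.of_bound (C := L) (measurable_pi_apply k).aestronglyMeasurable (by
        filter_upwards [hL] with x hx using hx k))
  set m := Mf P κ u y with hm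
  set v := P *ᵥ m with hv
  have he : ∀ x : K → ℝ, wt P u y x * (x ⬝ᵥ v) = ∑ k, wt P u y x * x k * v k := fun x => by
    simp only [dotProduct, Finset.mul_sum, mul_assoc]
  have hi : Integrable (fun x => wt P u y x * (x ⬝ᵥ v)) κ := by
    simp_rw [he]
    exact integrable_finset_sum _ fun k _ => (hk k).mul_const _
  have h1 : (m ⬝ᵥ v) * Zf P κ u y = ∫ x, wt P u y x * (x ⬝ᵥ v) ∂κ := by
    simp_rw [he]
    rw [integral_finset_sum _ fun k _ => (hk k).mul_const _, dotProduct, Finset.sum_mul]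
    refine Finset.sum_congr rfl fun k _ => ?_
    rw [integral_mul_const, hm, Mf]
    field_simp
  have h2 : ∫ x, wt P u y x * (x ⬝ᵥ v) ∂κ ≤ ∫ x, wt P u y x * ((Λ + m ⬝ᵥ v) / 2) ∂κ := by
    refine integral_mono_ae hi (hw.mul_const _) ?_
    filter_upwards [hb] with x hx
    refine mul_le_mul_of_nonneg_left ?_ (wt_pos _ _ _ _).le
    have := (abs_le.1 (Step0_cs hP x m)).2
    linarith
  rw [integral_mul_const, ← h1, mul_comm] at h2
  have h3 := le_of_mul_le_mul_left h2 hZ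
  linarith

/-- scaling the signal -/
theorem psi_scale [IsProbabilityMeasure κ] (hu : 0 ≤ u) :
    psi P B (κ.map fun x => (fun t => √u * t) ∘ x) 1 = psi P B κ u := by
  have hm : Measurable fun x : K → ℝ => (fun t => √u * t) ∘ x :=
    measurable_pi_lambda _ fun k => (measurable_pi_apply k).const_mul _
  have hs : ∀ x : K → ℝ, (fun t => √u * t) ∘ x = √u • x := fun x => rfl
  have hZ : ∀ y, Zf P (κ.map fun x => (fun t => √u * t) ∘ x) 1 y = Zf P κ u (√u • y) := by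
    intro y
    unfold Zf
    rw [integral_map (f := wt P 1 y) hm.aemeasurable
      ((continuous_wt P 1).comp (Continuous.prodMk_right y)).aestronglyMeasurable]
    refine integral_congr_ae (ae_of_all _ fun x => ?_)
    simp only [wt, hs, mulVec_smul, smul_dotProduct, dotProduct_smul, smul_eq_mul]
    rw [← mul_assoc (√u) (√u), Real.mul_self_sqrt hu]
    congr 1
    ring
  have hob : Continuous fun w : (K → ℝ) × (N → ℝ) => ob B 1 w.1 w.2 := by
    unfold ob
    fun_prop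
  unfold psi
  rw [integral_map hm.aemeasurable]
  · refine integral_congr_ae (ae_of_all _ fun x => ?_)
    refine integral_congr_ae (ae_of_all _ fun ξ => ?_)
    simp only [hZ]
    simp only [hs, ob, Real.sqrt_one, one_smul, smul_add, smul_smul, one_mul,
      Real.mul_self_sqrt hu]
  · exact (((measurable_Zf'.comp hob.measurable).log).stronglyMeasurable.integral_prod_right'
      (ν := gpi N)).aestronglyMeasurable

end

end Crest.Agent.R166.B
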