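import Crest.Agent.R166.B.Chain
import Crest.Agent.R166.B.Step0

/-! # One step of the channel; bounds; scaling -/

set_option autoImplicit false
set_option linter.unusedVariables false
set_option linter.unusedSectionVars false

open MeasureTheory ProbabilityTheory Filter Topology Matrix
open scoped ENNReal BoundedContinuousFunction Kronecker

namespace Crest.Agent.R166.B

section
variable {K N : Type} [Fintype K] [Fintype N] {P : Matrix K K ℝ} {B : Matrix K N ℝ}
  {κ : Measure (K → ℝ)} {u : ℝ}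

private theorem st_dot (hP : P.PosSemidef) (x : K → ℝ) (y : N → ℝ) :
    ((Bᵀ * P) *ᵥ x) ⬝ᵥ y = x ⬝ᵥ P *ᵥ (B *ᵥ y) := by
  have h : Pᵀ = P := hP.isHermitian
  rw [← mulVec_mulVec, mulVec_transpose, ← dotProduct_mulVec, dotProduct_mulVec x,
    ← mulVec_transpose, h]

private theorem st_sq (hP : P.PosSemidef) {x : K → ℝ} (hx : (B * Bᵀ * P) *ᵥ x = x) :
    ((Bᵀ * P) *ᵥ x) ⬝ᵥ ((Bᵀ * P) *ᵥ x) = x ⬝ᵥ P *ᵥ x := by
  rw [st_dot hP, mulVec_mulVec x B, ← Matrix.mul_assoc, hx]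

private theorem st_wt [DecidableEq N] (hP : P.PosSemidef) {x : K → ℝ}
    (hx : (B * Bᵀ * P) *ᵥ x = x) (y : N → ℝ) :
    wt 1 u y ((Bᵀ * P) *ᵥ x) = wt P u (B *ᵥ y) x := by
  rw [wt, wt, one_mulVec, one_mulVec, st_sq hP hx, st_dot hP]

private theorem st_ob [DecidableEq N] {x : K → ℝ} (hx : (B * Bᵀ * P) *ᵥ x = x) (ξ : N → ℝ) :
    B *ᵥ ob 1 u ((Bᵀ * P) *ᵥ x) ξ = ob B u x ξ := by
  rw [ob, ob, one_mulVec, mulVec_add, mulVec_smul, mulVec_smul, mulVec_mulVec, ← Matrix.mul_assoc,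
    hx]

private theorem st_meas (W : Matrix N K ℝ) : Measurable fun x : K → ℝ => W *ᵥ x :=
  (continuous_const.matrix_mulVec continuous_id).measurable

private theorem st_Zf [DecidableEq N] (hc : Ch P B κ) (y : N → ℝ) :
    Zf 1 (κ.map fun x => (Bᵀ * P) *ᵥ x) u y = Zf P κ u (B *ᵥ y) := by
  have h : Continuous fun x => wt (1 : Matrix N N ℝ) u y x :=
    (continuous_wt 1 u).comp (Continuous.prodMk_right y)
  rw [Zf, Zf, integral_map (st_meas _).aemeasurable h.aestronglyMeasurable]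
  exact integral_congr_ae (hc.supp.mono fun x hx => st_wt hc.psd hx y)

private theorem st_int [IsProbabilityMeasure κ] (hP : P.PosSemidef) {L : ℝ}
    (hL : ∀ᵐ x ∂κ, ∀ k, |x k| ≤ L) (hu : 0 ≤ u) (y : K → ℝ) (k : K) :
    Integrable (fun x => wt P u y x * x k) κ :=
  integrable_wt_mul hP hu (Or.inr (Or.inr ⟨L, hL⟩)) k
    (Integrable.of_bound (measurable_pi_apply k).aestronglyMeasurable L (hL.mono fun _ h => h k))

private theorem st_Mf [DecidableEq N] [IsProbabilityMeasure κ] (hc : Ch P B κ) {L : ℝ}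
    (hL : ∀ᵐ x ∂κ, ∀ k, |x k| ≤ L) (hu : 0 ≤ u) (y : N → ℝ) :
    Mf 1 (κ.map fun x => (Bᵀ * P) *ᵥ x) u y = (Bᵀ * P) *ᵥ Mf P κ u (B *ᵥ y) := by
  funext k
  have h : Continuous fun x => wt (1 : Matrix N N ℝ) u y x * x k :=
    ((continuous_wt 1 u).comp (Continuous.prodMk_right y)).mul (continuous_apply k)
  rw [Mf, st_Zf hc, integral_map (st_meas _).aemeasurable h.aestronglyMeasurable,
    integral_congr_ae (g := fun x => ∑ j, (Bᵀ * P) k j * (wt P u (B *ᵥ y) x * x j))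
      (hc.supp.mono fun x hx => ?_),
    integral_finsetSum _ fun j _ => (st_int hc.psd hL hu _ j).const_mul _]
  · simp only [integral_const_mul, mulVec, dotProduct, Mf, Finset.sum_div, mul_div_assoc]
  · simp only
    rw [st_wt hc.psd hx y]
    simp only [mulVec, dotProduct, Finset.mul_sum, mul_left_comm]

private theorem st_fix [IsProbabilityMeasure κ] (hc : Ch P B κ) {L : ℝ}
    (hL : ∀ᵐ x ∂κ, ∀ k, |x k| ≤ L) (hu : 0 ≤ u) (y : K → ℝ) :
    (B * Bᵀ * P) *ᵥ Mf P κ u y = Mf P κ u y := by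
  classical
  funext k
  have h := dot_Mf_eq_zero (b := (B * Bᵀ * P) k - Pi.single k 1) (st_int hc.psd hL hu y)
    (hc.supp.mono fun x hx => by
      rw [sub_dotProduct, single_one_dotProduct, sub_eq_zero]
      exact congrFun hx k)
  rw [sub_dotProduct, single_one_dotProduct, sub_eq_zero] at h
  exact h

private theorem st_obm [DecidableEq N] (u : ℝ) :
    Measurable fun w : (N → ℝ) × (N → ℝ) => ob (1 : Matrix N N ℝ) u w.1 w.2 := by
  simp only [ob, one_mulVec]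
  fun_prop

private theorem st_psi [DecidableEq N] [IsProbabilityMeasure κ] (hc : Ch P B κ) (u : ℝ) :
    psi 1 (1 : Matrix N N ℝ) (κ.map fun x => (Bᵀ * P) *ᵥ x) u = psi P B κ u := by
  have h := ((measurable_Zf' (P := 1) (κ := κ.map fun x => (Bᵀ * P) *ᵥ x) (u := u)).comp
    (st_obm u)).log.stronglyMeasurable.integral_prod_right' (ν := gpi N)
  simp only [Function.comp_apply] at h
  rw [psi, psi, integral_map (st_meas _).aemeasurable h.aestronglyMeasurable]
  refine integral_congr_ae (hc.supp.mono fun x hx => ?_)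
  simp only [st_Zf hc, st_ob hx]

private theorem st_mm [DecidableEq N] [IsProbabilityMeasure κ] (hc : Ch P B κ) {L : ℝ}
    (hL : ∀ᵐ x ∂κ, ∀ k, |x k| ≤ L) (hu : 0 ≤ u) :
    mm 1 (1 : Matrix N N ℝ) (κ.map fun x => (Bᵀ * P) *ᵥ x) u = mm P B κ u := by
  have h1 := (measurable_Mf' (P := 1) (κ := κ.map fun x => (Bᵀ * P) *ᵥ x) (u := u)).comp
    (st_obm u)
  have h2 : Measurable fun v : N → ℝ => v ⬝ᵥ (1 : Matrix N N ℝ) *ᵥ v :=
    (continuous_id.dotProduct (continuous_const.matrix_mulVec continuous_id)).measurable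
  have h := (h2.comp h1).stronglyMeasurable.integral_prod_right' (ν := gpi N)
  simp only [Function.comp_apply] at h
  rw [mm, mm, integral_map (st_meas _).aemeasurable h.aestronglyMeasurable]
  refine integral_congr_ae (hc.supp.mono fun x hx => ?_)
  simp only [st_Mf hc hL hu, st_ob hx, one_mulVec, st_sq hc.psd (st_fix hc hL hu _)]

/-- whitening: `m = κ.map (Bᵀ P ·)`, `ob B u x ξ = B (ob 1 u (Bᵀ P x) ξ)` on the support,
`Zf P κ u (B y) = Zf 1 m u y`, `Mf 1 m u y = Bᵀ P (Mf P κ u (B y))`, and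
`B Bᵀ P M = M` for `M = Mf ..` (`dot_Mf_eq_zero`); so `psi`, `mm` are the white ones. -/
theorem psi_step [IsProbabilityMeasure κ] (hc : Ch P B κ) {L Λ δ : ℝ}
    (hL : ∀ᵐ x ∂κ, ∀ k, |x k| ≤ L) (hb : ∀ᵐ x ∂κ, x ⬝ᵥ P *ᵥ x ≤ Λ) (hu : 0 ≤ u) (h0 : 0 ≤ δ)
    (h1 : δ ≤ 1) :
    δ / 2 * mm P B κ u ≤ psi P B κ (u + δ) - psi P B κ u ∧
    psi P B κ (u + δ) - psi P B κ u ≤ δ / 2 * mm P B κ u + cS Λ * δ ^ 2 := by
  classical
  have := Measure.isProbabilityMeasure_map (μ := κ) (st_meas (Bᵀ * P)).aemeasurable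
  have hb' : ∀ᵐ w ∂(κ.map fun x => (Bᵀ * P) *ᵥ x), w ⬝ᵥ w ≤ Λ := by
    refine (ae_map_iff (st_meas _).aemeasurable (measurableSet_le
      (continuous_id.dotProduct continuous_id).measurable measurable_const)).2 ?_
    filter_upwards [hc.supp, hb] with x h1 h2
    exact (st_sq hc.psd h1).trans_le h2
  have h := psi_step_white _ hb' hu h0 h1
  rwa [st_psi hc, st_psi hc, st_mm hc hL hu] at h

end

end Crest.Agent.R166.B
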