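import Crest.Agent.R166.B.GTri
import Crest.Agent.R166.B.Step

/-! # The channel with an environment -/

set_option autoImplicit false
set_option linter.unusedVariables false
set_option linter.unusedSectionVars false

open MeasureTheory ProbabilityTheory Filter Topology Matrix
open scoped ENNReal BoundedContinuousFunction Kronecker

namespace Crest.Agent.R166.B

section
variable {K N S : Type} [Fintype K] [Fintype N] [MeasurableSpace S]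
  {l : Measure S} {κ : Kernel S (K → ℝ)} {P : S → Matrix K K ℝ} {B : S → Matrix K N ℝ} {u : ℝ}

variable [IsProbabilityMeasure l] [IsMarkovKernel κ]

private theorem gb_meas (hB : MeasM B) (u : ℝ) : Measurable fun w : (S × (K → ℝ)) × (N → ℝ) =>
    (w.1, ob (B w.1.1) u w.1.2 w.2) := measurable_fst.prodMk (measurable_ob hB u)

private theorem gb_meas' (hB : MeasM B) (u : ℝ) (σ : S) : Measurable fun w : (K → ℝ) × (N → ℝ) =>
    (((σ, w.1), ob (B σ) u w.1 w.2) : (S × (K → ℝ)) × (K → ℝ)) :=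
  (gb_meas hB u).comp (f := fun w : (K → ℝ) × (N → ℝ) => ((σ, w.1), w.2)) (by fun_prop)

private theorem gb_integrable_tri (hB : MeasM B) {F : (S × (K → ℝ)) × (K → ℝ) → ℝ} (hF : Measurable F)
    (h1 : ∀ᵐ σ ∂l, Integrable (fun w => F ((σ, w.1), ob (B σ) u w.1 w.2)) ((κ σ).prod (gpi N)))
    {g : S → ℝ} (hg : Integrable g l)
    (h2 : ∀ᵐ σ ∂l, ∫ w, |F ((σ, w.1), ob (B σ) u w.1 w.2)| ∂((κ σ).prod (gpi N)) ≤ g σ) :
    Integrable F (tri (l ⊗ₘ κ) B u) := by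
  refine ⟨hF.aestronglyMeasurable, ?_⟩
  have hm : Measurable fun w : (S × (K → ℝ)) × (N → ℝ) => ‖F (w.1, ob (B w.1.1) u w.1.2 w.2)‖ₑ :=
    (hF.comp (gb_meas hB u)).enorm
  rw [hasFiniteIntegral_iff_enorm, tri, lintegral_map hF.enorm (gb_meas hB u),
    lintegral_prod _ hm.aemeasurable, Measure.lintegral_compProd hm.lintegral_prod_right']
  refine lt_of_le_of_lt (lintegral_mono_ae ?_) hg.2
  filter_upwards [h1, h2] with σ e1 e2
  rw [← lintegral_prod (fun w : (K → ℝ) × (N → ℝ) => ‖F ((σ, w.1), ob (B σ) u w.1 w.2)‖ₑ)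
    (hF.comp (gb_meas' hB u σ)).enorm.aemeasurable, ← ofReal_integral_norm_eq_lintegral_enorm e1]
  exact (ENNReal.ofReal_le_ofReal e2).trans (Real.ofReal_le_enorm _)

private theorem gb_ae_env (hB : MeasM B) {p : S → Prop} (h : ∀ᵐ σ ∂l, p σ) :
    ∀ᵐ w ∂(tri (l ⊗ₘ κ) B u), p w.1.1 := by
  have h1 : MeasurePreserving Prod.fst (tri (l ⊗ₘ κ) B u) (l ⊗ₘ κ) := ⟨measurable_fst, tri_fst _ hB u⟩
  have h2 : MeasurePreserving Prod.fst (l ⊗ₘ κ) l := ⟨measurable_fst, Measure.fst_compProd l κ⟩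
  exact (h2.comp h1).quasiMeasurePreserving.ae h

private theorem gb_mm_le {P : Matrix K K ℝ} {B : Matrix K N ℝ} {κ : Measure (K → ℝ)}
    [IsProbabilityMeasure κ] (hP : P.PosSemidef) {L Λ : ℝ}
    (hL : ∀ᵐ x ∂κ, ∀ k, |x k| ≤ L) (hb : ∀ᵐ x ∂κ, x ⬝ᵥ P *ᵥ x ≤ Λ) (hu : 0 ≤ u) :
    ‖mm P B κ u‖ ≤ Λ := by
  unfold mm
  refine (norm_integral_le_of_norm_le_const (C := Λ) (Eventually.of_forall fun x => ?_)).trans
    (by simp)
  refine (norm_integral_le_of_norm_le_const (C := Λ) (Eventually.of_forall fun ξ => ?_)).trans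
    (by simp)
  have := Mf_form_le hP hL hb hu (ob B u x ξ)
  rw [Real.norm_of_nonneg this.1]; exact this.2

theorem tri_ce (hc : GCh l κ P B) (hu : 0 ≤ u) (k : K)
    (hx : Integrable (fun q => q.2 k) (l ⊗ₘ κ)) {h : S × (K → ℝ) → ℝ} (hh : Measurable h)
    (hi : Integrable (fun w => w.1.2 k * h (w.1.1, w.2)) (tri (l ⊗ₘ κ) B u)) :
    Integrable (fun w => Mf (P w.1.1) (κ w.1.1) u w.2 k * h (w.1.1, w.2)) (tri (l ⊗ₘ κ) B u) ∧
    ∫ w, Mf (P w.1.1) (κ w.1.1) u w.2 k * h (w.1.1, w.2) ∂(tri (l ⊗ₘ κ) B u) =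
      ∫ w, w.1.2 k * h (w.1.1, w.2) ∂(tri (l ⊗ₘ κ) B u) := by
  have hF : Measurable fun w : (S × (K → ℝ)) × (K → ℝ) => w.1.2 k * h (w.1.1, w.2) := by fun_prop
  have hM : Measurable fun w : (S × (K → ℝ)) × (K → ℝ) => Mf (P w.1.1) (κ w.1.1) u w.2 :=
    (measurable_Mf hc.mP κ u).comp (measurable_fst.fst.prodMk measurable_snd)
  have hG : Measurable fun w : (S × (K → ℝ)) × (K → ℝ) =>
      Mf (P w.1.1) (κ w.1.1) u w.2 k * h (w.1.1, w.2) :=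
    ((measurable_pi_apply k).comp hM).mul (by fun_prop)
  obtain ⟨a1, -, a3⟩ := integral_tri hc.mB hF hi
  obtain ⟨-, b2, -⟩ := integral_tri hc.mB hF.abs hi.abs
  have hx' : ∀ᵐ σ ∂l, Integrable (fun x => x k) (κ σ) := hx.ae_of_compProd
  have key := (hc.ch.and (hx'.and a1)).mono fun σ hσ =>
    bayes_ce hσ.1 hu k hσ.2.1 (h := fun y => h (σ, y)) (by fun_prop) hσ.2.2
  have hGi : Integrable (fun w : (S × (K → ℝ)) × (K → ℝ) =>
      Mf (P w.1.1) (κ w.1.1) u w.2 k * h (w.1.1, w.2)) (tri (l ⊗ₘ κ) B u) :=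
    gb_integrable_tri hc.mB hG (key.mono fun σ hσ => hσ.1) b2 (key.mono fun σ hσ => hσ.2.2)
  refine ⟨hGi, ?_⟩
  rw [(integral_tri hc.mB hG hGi).2.2, a3]
  exact integral_congr_ae (key.mono fun σ hσ => hσ.2.1)

theorem tri_ae (hc : GCh l κ P B) (hu : 0 ≤ u) {A : Set (S × (K → ℝ))} (hA : MeasurableSet A)
    (h : ∀ᵐ w ∂(tri (l ⊗ₘ κ) B u), (w.1.1, w.2) ∈ A) :
    ∀ᵐ σ ∂l, ∀ᵐ ξ ∂(gpi N), (σ, √u • B σ *ᵥ ξ) ∈ A := by
  have h1 := Measure.ae_ae_of_ae_compProd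
    (Measure.ae_ae_of_ae_prod (ae_of_ae_map (gb_meas hc.mB u).aemeasurable h))
  filter_upwards [h1, hc.ch] with σ e1 e2
  refine bayes_ae e2 hu (A := {y | (σ, y) ∈ A}) (measurable_prodMk_left hA) ?_
  refine (Measure.ae_prod_iff_ae_ae ?_).2 e1
  exact (gb_meas' hc.mB u σ).snd (measurable_prodMk_left hA)

theorem tri_mm (hc : GCh l κ P B) (hu : 0 ≤ u) {L Λ : ℝ}
    (hL : ∀ᵐ q ∂(l ⊗ₘ κ), ∀ k, |q.2 k| ≤ L) (hb : ∀ᵐ q ∂(l ⊗ₘ κ), q.2 ⬝ᵥ P q.1 *ᵥ q.2 ≤ Λ) :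
    Mm l κ P B u = ∫ w, Mf (P w.1.1) (κ w.1.1) u w.2 ⬝ᵥ P w.1.1 *ᵥ Mf (P w.1.1) (κ w.1.1) u w.2
      ∂(tri (l ⊗ₘ κ) B u) := by
  have hM : Measurable fun w : (S × (K → ℝ)) × (K → ℝ) => Mf (P w.1.1) (κ w.1.1) u w.2 :=
    (measurable_Mf hc.mP κ u).comp (measurable_fst.fst.prodMk measurable_snd)
  have hF : Measurable fun w : (S × (K → ℝ)) × (K → ℝ) =>
      Mf (P w.1.1) (κ w.1.1) u w.2 ⬝ᵥ P w.1.1 *ᵥ Mf (P w.1.1) (κ w.1.1) u w.2 :=
    measurable_form (hc.mP.comp measurable_fst.fst) hM hM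
  have := tri_prob (l ⊗ₘ κ) hc.mB u
  have hi : Integrable (fun w : (S × (K → ℝ)) × (K → ℝ) =>
      Mf (P w.1.1) (κ w.1.1) u w.2 ⬝ᵥ P w.1.1 *ᵥ Mf (P w.1.1) (κ w.1.1) u w.2)
      (tri (l ⊗ₘ κ) B u) := by
    refine Integrable.of_bound hF.aestronglyMeasurable Λ ?_
    filter_upwards [gb_ae_env (κ := κ) (u := u) hc.mB (hc.ch.and
      ((Measure.ae_ae_of_ae_compProd hL).and (Measure.ae_ae_of_ae_compProd hb)))] with w hw
    have := Mf_form_le hw.1.psd hw.2.1 hw.2.2 hu w.2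
    rw [Real.norm_of_nonneg this.1]; exact this.2
  obtain ⟨a1, -, a3⟩ := integral_tri hc.mB hF hi
  rw [a3]
  exact integral_congr_ae (a1.mono fun σ hσ => (integral_prod _ hσ).symm)

theorem Psi_step (hc : GCh l κ P B) {L Λ δ : ℝ} (hL : ∀ᵐ q ∂(l ⊗ₘ κ), ∀ k, |q.2 k| ≤ L)
    (hb : ∀ᵐ q ∂(l ⊗ₘ κ), q.2 ⬝ᵥ P q.1 *ᵥ q.2 ≤ Λ) (hu : 0 ≤ u) (h0 : 0 ≤ δ) (h1 : δ ≤ 1) :
    δ / 2 * Mm l κ P B u ≤ Psi l κ P B (u + δ) - Psi l κ P B u ∧
    Psi l κ P B (u + δ) - Psi l κ P B u ≤ δ / 2 * Mm l κ P B u + cS Λ * δ ^ 2 := by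
  have hall := hc.ch.and ((Measure.ae_ae_of_ae_compProd hL).and (Measure.ae_ae_of_ae_compProd hb))
  have ip : ∀ v : ℝ, 0 ≤ v → Integrable (fun σ => psi (P σ) (B σ) (κ σ) v) l := fun v hv =>
    Integrable.of_bound (measurable_psi hc.mP hc.mB κ v).aestronglyMeasurable
      (3 * v * Λ + Fintype.card N) (hall.mono fun σ hσ => abs_psi_le hσ.1 hσ.2.2 hv)
  have im : Integrable (fun σ => mm (P σ) (B σ) (κ σ) u) l :=
    Integrable.of_bound (measurable_mm hc.mP hc.mB κ u).aestronglyMeasurable Λ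
      (hall.mono fun σ hσ => gb_mm_le hσ.1.psd hσ.2.1 hσ.2.2 hu)
  have key := hall.mono fun σ hσ => psi_step hσ.1 hσ.2.1 hσ.2.2 hu h0 h1
  have i1 := ip (u + δ) (add_nonneg hu h0)
  have i2 := ip u hu
  unfold Psi Mm
  rw [← integral_sub i1 i2, ← integral_const_mul]
  refine ⟨integral_mono_ae (im.const_mul _) (i1.sub i2) (key.mono fun σ hσ => hσ.1), ?_⟩
  refine (integral_mono_ae (i1.sub i2) ((im.const_mul (δ / 2)).add (integrable_const (cS Λ * δ ^ 2)))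
    (key.mono fun σ hσ => hσ.2)).trans (le_of_eq ?_)
  simp only [Pi.add_apply]
  rw [integral_add (im.const_mul _) (integrable_const _)]
  simp

theorem Psi_zero : Psi l κ P B 0 = 0 := by
  simp [Psi, psi_zero]

theorem Psi_scale (hu : 0 ≤ u) :
    Psi l (κ.map fun x => (fun t => √u * t) ∘ x) P B 1 = Psi l κ P B u := by
  unfold Psi
  refine integral_congr_ae (Eventually.of_forall fun σ => ?_)
  have hm : Measurable fun x : K → ℝ => (fun t => √u * t) ∘ x :=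
    measurable_pi_lambda _ fun k => (measurable_pi_apply k).const_mul _
  simp only
  rw [Kernel.map_apply _ hm, psi_scale hu]

end

end Crest.Agent.R166.B
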