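import Crest.Agent.R166.B.FlipD
import Crest.Agent.R166.B.GBayes

/-! # Star and edge channels; flip symmetry -/

set_option autoImplicit false
set_option linter.unusedVariables false
set_option linter.unusedSectionVars false

open MeasureTheory ProbabilityTheory Filter Topology Matrix
open scoped ENNReal BoundedContinuousFunction Kronecker

namespace Crest.Agent.R166.B

section
variable {D p : ℕ} {s : ℝ} {β : Measure J} [IsProbabilityMeasure β] {z : ℂ} {mf : Env D → ℂ}
  {μ : Measure (SX D p)} [IsProbabilityMeasure μ]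
  {κ : Kernel (StarEnv D) (SV D × Fin p → ℝ)} [IsMarkovKernel κ]
  {κ' : Kernel (Env D × Env D) (Fin 2 × Fin p → ℝ)} [IsMarkovKernel κ']

theorem gch_edge (hc : Cav D s β z mf) : GCh (env2 D β) κ' (PE p mf) (BE p mf) := by
  refine ⟨measM_PE p hc.meas, measM_BE p hc.meas, hc.pos_edge.mono fun e he => ⟨?_, ?_⟩⟩
  · exact (ten_posDef (Pe_posDef he.1 he.2)).posSemidef
  · refine Eventually.of_forall fun x => ?_
    unfold BE PE
    rw [ten_transpose, ten_mul, ten_mul, Be_Pe_one he.1 he.2, ten_one, one_mulVec]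

theorem gch_star (hc : Cav D s β z mf) (hd : μ = starLaw D β ⊗ₘ κ)
    (h : 0 < z.im ∨ ∀ᵐ q ∂μ, ∀ a, ∑ j, q.2 (some j, a) = (z.re - s * (q.1.1 : ℝ)) * q.2 (none, a)) :
    GCh (starLaw D β) κ (PS p s z mf) (BS p s z mf) := by
  have key : ∀ σ : StarEnv D, (∀ j, 0 < (mf (σ.2 j)).im) → ∀ x : SV D × Fin p → ℝ,
      (0 < z.im ∨ ∀ a, ∑ j, x (some j, a) = (z.re - s * (σ.1 : ℝ)) * x (none, a)) →
      (BS p s z mf σ * (BS p s z mf σ)ᵀ * PS p s z mf σ) *ᵥ x = x := by
    intro σ hσ x hx
    unfold BS PS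
    rw [ten_transpose, ten_mul, ten_mul]
    funext k
    rw [ten_mulVec]
    have := Bs_Ps_fix (t := s * (σ.1 : ℝ)) (z := z) (m := fun j => mf (σ.2 j)) hc.zim hσ
      (x := fun n => x (n, k.2)) (hx.imp id fun h => h k.2)
    exact congrFun this k.1
  refine ⟨measM_PS p s z hc.meas, measM_BS p s z hc.meas, ?_⟩
  rcases h with h | h
  · refine hc.pos_star.mono fun σ hσ => ⟨?_, Eventually.of_forall fun x => ?_⟩
    · exact (ten_posDef (Ps_posDef hc.zim fun j => (hσ j).1)).posSemidef
    · exact key σ (fun j => (hσ j).1) x (Or.inl h)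
  · rw [hd] at h
    filter_upwards [hc.pos_star, Measure.ae_ae_of_ae_compProd h] with σ hσ h2
    refine ⟨(ten_posDef (Ps_posDef hc.zim fun j => (hσ j).1)).posSemidef, ?_⟩
    exact h2.mono fun x hx => key σ (fun j => (hσ j).1) x (Or.inr hx)

/-- the edge channel is the average of the restrictions of the star channel (`tri_map`) -/
theorem tri_edge (hD : 1 ≤ D) (hc : Cav D s β z mf) (hfst : μ.map Prod.fst = starLaw D β) (u : ℝ) :
    tri (edgeLaw μ) (BE p mf) u = ((D + 1 : ℕ) : ℝ≥0∞)⁻¹ •
      ∑ j, (tri μ (BS p s z mf) u).map fun w => (edgeJ j w.1, w.2 ∘ eI j) := by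
  unfold edgeLaw
  rw [tri_smul_sum _ _ (measM_BE p hc.meas)]
  congr 1
  refine Finset.sum_congr rfl fun j _ => ?_
  have hg := hc.gram hD p j
  rw [← hfst] at hg
  exact (tri_map μ (measM_BS p s z hc.meas) (measM_BE p hc.meas) (continuous_eEnv j).measurable
    (eI j) (ae_of_ae_map measurable_fst.aemeasurable hg) u).symm

theorem tri_flip (hc : Cav D s β z mf) {ν : Measure (EX D p)} [IsProbabilityMeasure ν]
    (hfst : ν.map Prod.fst = env2 D β) (hflip : ν.map flipE = ν) (u : ℝ) :
    (tri ν (BE p mf) u).map (fun w => (flipE w.1, w.2 ∘ swI)) = tri ν (BE p mf) u := by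
  have hp := hc.pos_edge
  rw [← hfst] at hp
  have := tri_map ν (measM_BE p hc.meas) (measM_BE p hc.meas) (φ := Prod.swap) measurable_swap
    swI (by
      filter_upwards [ae_of_ae_map measurable_fst.aemeasurable hp] with q hq
      unfold BE
      rw [ten_transpose, ten_mul, ten_transpose, ten_mul, Be_gram hq.1 hq.2]
      simp only [Prod.fst_swap, Prod.snd_swap]
      rw [Be_gram hq.2 hq.1, gE_swap (mf q.1.1) (mf q.1.2), ← ten_submatrix]
      rfl) u
  have h2 : (ν.map fun q : EX D p => (Prod.swap q.1, q.2 ∘ swI)) = ν := hflip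
  rw [h2] at this
  exact this

theorem noisy_edge (hD : 1 ≤ D) (hc : Cav D s β z mf) (hfst : μ.map Prod.fst = starLaw D β) :
    edgeLaw (noisy μ (BS p s z mf)) = noisy (edgeLaw μ) (BE p mf) := by
  have m1 : Measurable fun w : EX D p × (Fin 2 × Fin p → ℝ) => (w.1.1, w.2) :=
    measurable_fst.fst.prodMk measurable_snd
  have m2 : Measurable fun w : SX D p × (SV D × Fin p → ℝ) => (w.1.1, w.2) :=
    measurable_fst.fst.prodMk measurable_snd
  rw [noisy_eq (edgeLaw μ) (measM_BE p hc.meas), tri_edge hD hc hfst 1,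
    noisy_eq μ (measM_BS p s z hc.meas), Measure.map_smul, Measure.map_finset_sum' m1.aemeasurable]
  unfold edgeLaw
  congr 1
  refine Finset.sum_congr rfl fun j _ => ?_
  have m3 : Measurable fun w : SX D p × (SV D × Fin p → ℝ) => (edgeJ j w.1, w.2 ∘ eI j) :=
    ((continuous_edgeJ j).measurable.comp measurable_fst).prodMk
      (measurable_pi_lambda _ fun k => (measurable_pi_apply _).comp measurable_snd)
  rw [Measure.map_map (continuous_edgeJ j).measurable m2, Measure.map_map m1 m3]
  rfl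

theorem noisy_flip (hc : Cav D s β z mf) {ν : Measure (EX D p)} [IsProbabilityMeasure ν]
    (hfst : ν.map Prod.fst = env2 D β) (hflip : ν.map flipE = ν) :
    (noisy ν (BE p mf)).map flipE = noisy ν (BE p mf) := by
  have m1 : Measurable fun w : EX D p × (Fin 2 × Fin p → ℝ) => (w.1.1, w.2) :=
    measurable_fst.fst.prodMk measurable_snd
  have m3 : Measurable fun w : EX D p × (Fin 2 × Fin p → ℝ) => (flipE w.1, w.2 ∘ swI) :=
    (continuous_flipE.measurable.comp measurable_fst).prodMk
      (measurable_pi_lambda _ fun k => (measurable_pi_apply _).comp measurable_snd)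
  rw [noisy_eq ν (measM_BE p hc.meas)]
  conv_rhs => rw [← tri_flip hc hfst hflip 1]
  rw [Measure.map_map continuous_flipE.measurable m1, Measure.map_map m1 m3]
  rfl

end

end Crest.Agent.R166.B
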