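import Crest.Agent.R166.B.Defs

/-! # Gibbs inequalities -/

set_option autoImplicit false
set_option linter.unusedVariables false
set_option linter.unusedSectionVars false

open MeasureTheory ProbabilityTheory Filter Topology Matrix
open scoped ENNReal BoundedContinuousFunction Kronecker

namespace Crest.Agent.R166.B

/-- `log (f/ϱ) ≤ f/ϱ - 1`, integrated against `ν = ϱ · l`. -/
theorem gibbs {α : Type} [MeasurableSpace α] {l ν : Measure α} [IsProbabilityMeasure ν]
    {ϱ f : α → ℝ} (hϱ : Measurable ϱ) (h0 : ∀ a, 0 < ϱ a)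
    (hν : ν = l.withDensity fun a => ENNReal.ofReal (ϱ a)) (hf : Measurable f) (hf0 : ∀ a, 0 ≤ f a)
    (hfi : Integrable f l) (hpos : ∀ᵐ a ∂ν, 0 < f a)
    (h1 : Integrable (fun a => Real.log (ϱ a)) ν) (h2 : Integrable (fun a => Real.log (f a)) ν) :
    ∫ a, Real.log (f a) ∂ν - ∫ a, Real.log (ϱ a) ∂ν ≤ ∫ a, f a ∂l - 1 := by
  have hm : Measurable fun a => ENNReal.ofReal (ϱ a) := hϱ.ennreal_ofReal
  have ht : ∀ᵐ a ∂l, ENNReal.ofReal (ϱ a) < ∞ := Eventually.of_forall fun a => ENNReal.ofReal_lt_top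
  have i1 : Integrable (fun a => f a / ϱ a) ν := by
    rw [hν, integrable_withDensity_iff hm ht]
    refine hfi.congr (Eventually.of_forall fun a => ?_)
    simp only [ENNReal.toReal_ofReal (h0 a).le, div_mul_cancel₀ _ (h0 a).ne']
  have i2 : ∫ a, f a / ϱ a ∂ν = ∫ a, f a ∂l := by
    rw [hν, integral_withDensity_eq_integral_toReal_smul hm ht]
    refine integral_congr_ae (Eventually.of_forall fun a => ?_)
    simp only [ENNReal.toReal_ofReal (h0 a).le, smul_eq_mul, mul_div_cancel₀ _ (h0 a).ne']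
  have i3 : ∫ a, (f a / ϱ a - 1) ∂ν = ∫ a, f a ∂l - 1 := by
    rw [integral_sub i1 (integrable_const _), i2]
    simp
  rw [← integral_sub h2 h1, ← i3]
  refine integral_mono_ae (h2.sub h1) (i1.sub (integrable_const _)) ?_
  filter_upwards [hpos] with a ha
  rw [← Real.log_div ha.ne' (h0 a).ne']
  exact Real.log_le_sub_one_of_pos (div_pos ha (h0 a))

/-- integral of a function of the cell -/
theorem integral_cell {α T : Type} [MeasurableSpace α] [Fintype T] [MeasurableSpace T]
    [MeasurableSingletonClass T] (m : Measure α) [IsFiniteMeasure m] {τ : α → T}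
    (hτ : Measurable τ) (s : T → ℝ) :
    Integrable (fun a => s (τ a)) m ∧ ∫ a, s (τ a) ∂m = ∑ t, fr m τ t * s t := by
  have hs : Measurable s := measurable_of_finite s
  have hi : Integrable s (m.map τ) := Integrable.of_finite
  refine ⟨(integrable_map_measure hs.aestronglyMeasurable hτ.aemeasurable).1 hi, ?_⟩
  rw [← integral_map hτ.aemeasurable hs.aestronglyMeasurable, integral_fintype hi]
  refine Finset.sum_congr rfl fun t _ => ?_
  rw [map_measureReal_apply hτ (measurableSet_singleton t), smul_eq_mul, fr]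

theorem sum_fr {α T : Type} [MeasurableSpace α] [Fintype T] [MeasurableSpace T]
    [MeasurableSingletonClass T] (m : Measure α) [IsProbabilityMeasure m] {τ : α → T}
    (hτ : Measurable τ) : ∑ t, fr m τ t = 1 := by
  have := (integral_cell m hτ fun _ => 1).2
  simpa using this.symm

/-- data processing: `gibbs` with `f = (fr ν τ / fr l τ) ∘ τ`. -/
theorem klD_le {α T : Type} [MeasurableSpace α] [Fintype T] [MeasurableSpace T]
    [MeasurableSingletonClass T] {l ν : Measure α} [IsProbabilityMeasure l] [IsProbabilityMeasure ν]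
    {ϱ : α → ℝ} (hϱ : Measurable ϱ) (h0 : ∀ a, 0 < ϱ a)
    (hν : ν = l.withDensity fun a => ENNReal.ofReal (ϱ a))
    (h1 : Integrable (fun a => Real.log (ϱ a)) ν) {τ : α → T} (hτ : Measurable τ) :
    klD (fr ν τ) (fr l τ) ≤ ∫ a, Real.log (ϱ a) ∂ν := by
  have hac : ν ≪ l := hν ▸ withDensity_absolutelyContinuous _ _
  have n1 : ∀ t, 0 ≤ fr ν τ t := fun t => measureReal_nonneg
  have n2 : ∀ t, 0 ≤ fr l τ t := fun t => measureReal_nonneg
  have hz : ∀ t, fr l τ t = 0 → fr ν τ t = 0 := fun t ht =>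
    (measureReal_eq_zero_iff (measure_ne_top _ _)).2
      (hac ((measureReal_eq_zero_iff (measure_ne_top _ _)).1 ht))
  have hpos : ∀ᵐ a ∂ν, 0 < fr ν τ (τ a) / fr l τ (τ a) := by
    have : ∀ᵐ a ∂ν, ∀ t, fr ν τ t = 0 → τ a ≠ t := ae_all_iff.2 fun t => by
      by_cases ht : fr ν τ t = 0
      · have : ν (τ ⁻¹' {t}) = 0 := (measureReal_eq_zero_iff (measure_ne_top _ _)).1 ht
        filter_upwards [measure_eq_zero_iff_ae_notMem.1 this] with a ha _
        exact ha
      · exact Eventually.of_forall fun a h => absurd h ht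
    filter_upwards [this] with a ha
    have a1 : fr ν τ (τ a) ≠ 0 := fun h => ha _ h rfl
    exact div_pos ((n1 _).lt_of_ne a1.symm) ((n2 _).lt_of_ne fun h => a1 (hz _ h.symm))
  obtain ⟨i1, i2⟩ := integral_cell l hτ fun t => fr ν τ t / fr l τ t
  obtain ⟨j1, j2⟩ := integral_cell ν hτ fun t => Real.log (fr ν τ t / fr l τ t)
  have g := gibbs hϱ h0 hν (f := fun a => fr ν τ (τ a) / fr l τ (τ a))
    ((measurable_of_finite fun t => fr ν τ t / fr l τ t).comp hτ)
    (fun a => div_nonneg (n1 _) (n2 _)) i1 hpos h1 j1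
  have e : ∑ t, fr l τ t * (fr ν τ t / fr l τ t) = 1 := by
    rw [← sum_fr ν hτ]
    refine Finset.sum_congr rfl fun t _ => ?_
    by_cases ht : fr l τ t = 0
    · rw [hz t ht, ht, zero_mul]
    · exact mul_div_cancel₀ _ ht
  rw [i2, j2, e] at g
  unfold klD
  linarith

/-- finite Donsker–Varadhan bound (termwise: `m s - l eˢ + m ≤ m log (m / l)`) -/
theorem le_klD {T : Type} [Fintype T] {m l : T → ℝ} (hm : ∀ t, 0 ≤ m t) (hl : ∀ t, 0 ≤ l t)
    (h1 : ∑ t, m t = 1) (hac : ∀ t, l t = 0 → m t = 0) (s : T → ℝ) :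
    ∑ t, m t * s t - (∑ t, l t * Real.exp (s t) - 1) ≤ klD m l := by
  have k : ∀ t, m t * s t - l t * Real.exp (s t) + m t ≤ m t * Real.log (m t / l t) := by
    intro t
    rcases (hm t).eq_or_lt with h | h
    · have := mul_nonneg (hl t) (Real.exp_pos (s t)).le
      rw [← h]
      linarith
    · have h' : 0 < l t := (hl t).lt_of_ne fun e => h.ne' (hac t e.symm)
      have a1 := Real.log_le_sub_one_of_pos (div_pos (mul_pos h' (Real.exp_pos (s t))) h)
      rw [Real.log_div (mul_pos h' (Real.exp_pos _)).ne' h.ne', Real.log_mul h'.ne'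
        (Real.exp_pos _).ne', Real.log_exp] at a1
      have a2 := mul_le_mul_of_nonneg_left a1 h.le
      rw [mul_sub (m t) (_ / _), mul_div_cancel₀ _ h.ne'] at a2
      rw [Real.log_div h.ne' h'.ne']
      linarith
  have := Finset.sum_le_sum fun t (_ : t ∈ Finset.univ) => k t
  rw [Finset.sum_add_distrib, Finset.sum_sub_distrib, h1] at this
  unfold klD
  linarith

end Crest.Agent.R166.B
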