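import Crest.Agent.R166.B.PartEx
import Crest.Agent.R166.B.Gibbs

/-! # Relative entropy is approached by fine partitions -/

set_option autoImplicit false
set_option linter.unusedVariables false
set_option linter.unusedSectionVars false

open MeasureTheory ProbabilityTheory Filter Topology Matrix
open scoped ENNReal BoundedContinuousFunction Kronecker

namespace Crest.Agent.R166.B

private theorem clip_sub_le {M a b : ℝ} (hb : |b| ≤ M) : |clip M a - b| ≤ |b - a| := by
  rw [abs_le] at hb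
  unfold clip
  rcases le_total M a with h | h
  · rw [min_eq_left h, max_eq_right (by linarith), abs_of_nonneg (by linarith),
      abs_of_nonpos (by linarith)]
    linarith
  · rw [min_eq_right h]
    rcases le_total (-M) a with h' | h'
    · rw [max_eq_right h', abs_sub_comm]
    · rw [max_eq_left h', abs_of_nonpos (by linarith), abs_of_nonneg (by linarith)]
      linarith

private theorem exp_le_add {M a b : ℝ} (ha : a ≤ M) :
    Real.exp a ≤ Real.exp b + Real.exp M * |a - b| := by
  have h1 : Real.exp b = Real.exp a * Real.exp (b - a) := by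
    rw [← Real.exp_add]
    congr 1
    ring
  have h2 := Real.add_one_le_exp (b - a)
  have h3 := Real.exp_pos a
  have h4 : Real.exp a * |a - b| ≤ Real.exp M * |a - b| := by gcongr
  have h5 := le_abs_self (a - b)
  nlinarith

/-- approximation in `L¹(m)` by cell functions: `Integrable.exists_boundedContinuous_integral_sub_le`,
clamp to `[-M, M]`, tightness (`m {R < ‖y‖}` small), `exists_part`, and `σ t` = value at a point
of the cell inside the ball if there is one. -/
theorem exists_part_approx {D p : ℕ} {s : ℝ} {β : Measure J} (hβ : Adm s β) (m : Measure (SX D p))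
    [IsFiniteMeasure m] {g : SX D p → ℝ} (hg : Measurable g) {M : ℝ} (hM : ∀ q, |g q| ≤ M) {ε : ℝ}
    (hε : 0 < ε) : ∃ (Q : Part D p) (σ : Q.ST → ℝ), Q.Null β ∧ (∀ t, |σ t| ≤ M) ∧
      ∫ q, |σ (Q.τ q) - g q| ∂m ≤ ε := by
  classical
  have hM0 : 0 ≤ M := (abs_nonneg _).trans (hM ((J0, fun _ _ => J0), 0))
  have hgi : Integrable g m :=
    Integrable.of_bound hg.aestronglyMeasurable M (ae_of_all _ hM)
  have hε3 : 0 < ε / 3 := by positivity
  obtain ⟨f, hf, hfi⟩ := hgi.exists_boundedContinuous_integral_sub_le hε3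
  have hS : ∀ R : ℝ, MeasurableSet {q : SX D p | R < ‖q.2‖} := fun R =>
    measurableSet_lt measurable_const measurable_snd.norm
  have hI : ∀ R : ℝ, Integrable ({q : SX D p | R < ‖q.2‖}.indicator fun _ => 2 * M) m := fun R =>
    (integrable_const _).indicator (hS R)
  have hT : Tendsto (fun n : ℕ => ∫ q, {q : SX D p | (n : ℝ) < ‖q.2‖}.indicator (fun _ => 2 * M) q ∂m)
      atTop (𝓝 (∫ _q, (0 : ℝ) ∂m)) := by
    refine tendsto_integral_of_dominated_convergence (fun _ => 2 * M)
      (fun n => (hI n).aestronglyMeasurable) (integrable_const _)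
      (fun n => ae_of_all _ fun q => ?_) (ae_of_all _ fun q => ?_)
    · refine (norm_indicator_le_norm_self _ _).trans ?_
      rw [Real.norm_eq_abs, abs_of_nonneg (by positivity)]
    · refine tendsto_const_nhds.congr' ?_
      filter_upwards [tendsto_natCast_atTop_atTop.eventually_ge_atTop ‖q.2‖] with n hn
      exact (Set.indicator_of_notMem (by simpa using hn) _).symm
  rw [integral_zero] at hT
  obtain ⟨R, hR⟩ := (hT.eventually (gt_mem_nhds hε3)).exists
  have hm0 : 0 ≤ m.real Set.univ := measureReal_nonneg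
  obtain ⟨e, he, he'⟩ : ∃ e : ℝ, 0 < e ∧ m.real Set.univ * e ≤ ε / 3 := by
    refine ⟨ε / 3 / (m.real Set.univ + 1), by positivity, ?_⟩
    rw [← mul_div_assoc, div_le_iff₀ (by positivity)]
    nlinarith
  obtain ⟨Q, hQ, hQ'⟩ := exists_part hβ (g := fun q => clip M (f q))
    ((continuous_clip M).comp f.continuous) R he
  set σ : Q.ST → ℝ := fun t =>
    if h : ∃ q : SX D p, ‖q.2‖ ≤ R ∧ Q.τ q = t then clip M (f h.choose) else 0 with hσ
  have hσM : ∀ t, |σ t| ≤ M := fun t => by
    simp only [hσ]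
    split_ifs
    · exact (abs_clip_le hM0 _).1
    · simpa using hM0
  refine ⟨Q, σ, hQ, hσM, ?_⟩
  have hle : ∀ q, |σ (Q.τ q) - g q| ≤ e +
      ({q : SX D p | (R : ℝ) < ‖q.2‖}.indicator (fun _ => 2 * M) q + ‖g q - f q‖) := fun q => by
    by_cases hq : (R : ℝ) < ‖q.2‖
    · rw [Set.indicator_of_mem (show q ∈ {q : SX D p | (R : ℝ) < ‖q.2‖} from hq)]
      have := abs_sub (σ (Q.τ q)) (g q)
      linarith [hσM (Q.τ q), hM q, norm_nonneg (g q - f q)]
    · rw [Set.indicator_of_notMem (show q ∉ {q : SX D p | (R : ℝ) < ‖q.2‖} from hq), zero_add]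
      have h : ∃ q' : SX D p, ‖q'.2‖ ≤ R ∧ Q.τ q' = Q.τ q := ⟨q, not_lt.1 hq, rfl⟩
      have h1 := hQ' _ q h.choose_spec.1 (not_lt.1 hq) h.choose_spec.2
      have h2 := clip_sub_le (a := f q) (hM q)
      simp only [hσ, dif_pos h, Real.norm_eq_abs]
      exact (abs_sub_le _ _ _).trans (add_le_add h1 h2)
  have hi : Integrable (fun q => ‖g q - f q‖) m := (hgi.sub hfi).norm
  refine (integral_mono_of_nonneg (ae_of_all _ fun q => abs_nonneg _)
    ((integrable_const e).add ((hI R).add hi)) (ae_of_all _ hle)).trans ?_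
  rw [integral_add' (integrable_const e) ((hI R).add hi), integral_add' (hI R) hi, integral_const,
    smul_eq_mul]
  linarith

/-- `g = clip M (log ϱ)`, `∫ g dμ → ∫ log ϱ dμ`, `∫ e^g dλ ≤ 1 + e^{-M}`; `exists_part_approx` for
`m = λ + μ`; `le_klD`, `integral_cell`. -/
theorem exists_part_kl {D p : ℕ} {s : ℝ} {β : Measure J} (hβ : Adm s β) {μ : Measure (SX D p)}
    [IsProbabilityMeasure μ] {ϱ : SX D p → ℝ} (hϱ : Measurable ϱ) (h0 : ∀ q, 0 < ϱ q)
    (hμ : μ = (lamS D p β).withDensity fun q => ENNReal.ofReal (ϱ q))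
    (hi : Integrable (fun q => Real.log (ϱ q)) μ) {ε : ℝ} (hε : 0 < ε) :
    ∃ Q : Part D p, Q.Null β ∧
      ∫ q, Real.log (ϱ q) ∂μ - ε ≤ klD (fr μ Q.τ) (fr (lamS D p β) Q.τ) := by
  have := hβ.prob
  have hε4 : 0 < ε / 4 := by positivity
  have hmeas : ∀ M : ℝ, Measurable fun q => clip M (Real.log (ϱ q)) := fun M =>
    (continuous_clip M).measurable.comp hϱ.log
  have hT : Tendsto (fun n : ℕ => ∫ q, clip n (Real.log (ϱ q)) ∂μ) atTop
      (𝓝 (∫ q, Real.log (ϱ q) ∂μ)) := by
    refine tendsto_integral_of_dominated_convergence (fun q => ‖Real.log (ϱ q)‖)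
      (fun n => (hmeas n).aestronglyMeasurable) hi.norm
      (fun n => ae_of_all _ fun q => (abs_clip_le (Nat.cast_nonneg n) _).2)
      (ae_of_all _ fun q => ?_)
    refine tendsto_const_nhds.congr' ?_
    filter_upwards [tendsto_natCast_atTop_atTop.eventually_ge_atTop |Real.log (ϱ q)|] with n hn
    exact (clip_eq hn).symm
  have hT' : Tendsto (fun n : ℕ => Real.exp (-(n : ℝ))) atTop (𝓝 0) :=
    Real.tendsto_exp_neg_atTop_nhds_zero.comp tendsto_natCast_atTop_atTop
  obtain ⟨M, hM1, hM2⟩ := ((hT.eventually (lt_mem_nhds (sub_lt_self _ hε4))).and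
    (hT'.eventually (gt_mem_nhds hε4))).exists
  have hM0 : (0 : ℝ) ≤ M := Nat.cast_nonneg M
  have hgM : ∀ q, |clip M (Real.log (ϱ q))| ≤ M := fun q => (abs_clip_le hM0 _).1
  set g : SX D p → ℝ := fun q => clip M (Real.log (ϱ q)) with hg
  have hE : 1 ≤ Real.exp M := Real.one_le_exp hM0
  obtain ⟨Q, σ, hQ, hσ, hσ'⟩ := exists_part_approx hβ (lamS D p β + μ) (hmeas M) hgM
    (ε := ε / 4 / Real.exp M) (by positivity)
  have hd : ∀ (ν : Measure (SX D p)) [IsFiniteMeasure ν],
      Integrable g ν ∧ Integrable (fun q => |σ (Q.τ q) - g q|) ν := fun ν _ => by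
    have h1 : Integrable g ν := Integrable.of_bound (hmeas M).aestronglyMeasurable M (ae_of_all _ hgM)
    exact ⟨h1, ((integral_cell ν Q.measurable_τ σ).1.sub h1).abs⟩
  rw [integral_add_measure (hd _).2 (hd _).2] at hσ'
  have n1 : 0 ≤ ∫ q, |σ (Q.τ q) - g q| ∂(lamS D p β) := integral_nonneg fun q => abs_nonneg _
  have n2 : 0 ≤ ∫ q, |σ (Q.τ q) - g q| ∂μ := integral_nonneg fun q => abs_nonneg _
  have n3 : ε / 4 / Real.exp M ≤ ε / 4 := div_le_self hε4.le hE
  have n4 : Real.exp M * ∫ q, |σ (Q.τ q) - g q| ∂(lamS D p β) ≤ ε / 4 := by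
    rw [← le_div_iff₀' (Real.exp_pos _)]
    linarith
  have hl : ∫⁻ q, ENNReal.ofReal (ϱ q) ∂(lamS D p β) = 1 := by
    have h1 : μ Set.univ = 1 := measure_univ
    rwa [hμ, withDensity_apply _ MeasurableSet.univ, Measure.restrict_univ] at h1
  have hϱi : Integrable ϱ (lamS D p β) :=
    (lintegral_ofReal_ne_top_iff_integrable hϱ.aestronglyMeasurable
      (ae_of_all _ fun q => (h0 q).le)).1 (by rw [hl]; exact ENNReal.one_ne_top)
  have hϱ1 : ∫ q, ϱ q ∂(lamS D p β) = 1 := by
    rw [integral_eq_lintegral_of_nonneg_ae (ae_of_all _ fun q => (h0 q).le)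
      hϱ.aestronglyMeasurable, hl, ENNReal.toReal_one]
  have key := le_klD (m := fr μ Q.τ) (l := fr (lamS D p β) Q.τ) (fun t => measureReal_nonneg)
    (fun t => measureReal_nonneg) (sum_fr μ Q.measurable_τ) (fun t ht => by
      have hac : μ ≪ lamS D p β := hμ ▸ withDensity_absolutelyContinuous _ _
      rw [fr, measureReal_eq_zero_iff] at ht ⊢
      exact hac ht) σ
  rw [← (integral_cell μ Q.measurable_τ σ).2,
    ← (integral_cell (lamS D p β) Q.measurable_τ fun t => Real.exp (σ t)).2] at key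
  have a1 : ∫ q, g q ∂μ - ∫ q, |σ (Q.τ q) - g q| ∂μ ≤ ∫ q, σ (Q.τ q) ∂μ := by
    rw [← integral_sub (hd μ).1 (hd μ).2]
    refine integral_mono ((hd μ).1.sub (hd μ).2) (integral_cell μ Q.measurable_τ σ).1 fun q => ?_
    have := neg_abs_le (σ (Q.τ q) - g q)
    simp only
    linarith
  have i1 : Integrable (fun q => ϱ q + Real.exp (-(M : ℝ))) (lamS D p β) :=
    hϱi.add (integrable_const _)
  have i2 := (hd (lamS D p β)).2.const_mul (Real.exp M)
  have a2 : ∫ q, Real.exp (σ (Q.τ q)) ∂(lamS D p β) ≤ 1 + Real.exp (-(M : ℝ)) +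
      Real.exp M * ∫ q, |σ (Q.τ q) - g q| ∂(lamS D p β) := by
    refine (integral_mono (integral_cell (lamS D p β) Q.measurable_τ fun t => Real.exp (σ t)).1
      (i1.add i2) fun q => ?_).trans (le_of_eq ?_)
    · refine (exp_le_add (b := g q) ((le_abs_self _).trans (hσ _))).trans ?_
      simp only [Pi.add_apply]
      gcongr
      simp only [hg, clip]
      rcases le_total (-(M : ℝ)) (min M (Real.log (ϱ q))) with h | h
      · rw [max_eq_right h]
        have h1 := Real.exp_le_exp.2 (min_le_right (M : ℝ) (Real.log (ϱ q)))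
        rw [Real.exp_log (h0 q)] at h1
        linarith [Real.exp_pos (-(M : ℝ))]
      · rw [max_eq_left h]
        linarith [h0 q]
    · rw [integral_add' i1 i2, integral_add hϱi (integrable_const _), hϱ1, integral_const_mul]
      simp
  exact ⟨Q, hQ, by linarith⟩

end Crest.Agent.R166.B
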