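import Crest.Agent.R166.B.KLfr

/-! # From the counting functional to relative entropies -/

set_option autoImplicit false
set_option linter.unusedVariables false
set_option linter.unusedSectionVars false

open MeasureTheory ProbabilityTheory Filter Topology Matrix
open scoped ENNReal BoundedContinuousFunction Kronecker

namespace Crest.Agent.R166.B

theorem KLid_ne {α T : Type} [MeasurableSpace α] {m l : Measure α} [IsFiniteMeasure m]
    [IsFiniteMeasure l] (h : m ≪ l) (τ : α → T) (t : T) (ht : fr m τ t ≠ 0) : fr l τ t ≠ 0 := by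
  intro h0
  refine ht ?_
  unfold fr at h0 ⊢
  rw [measureReal_eq_zero_iff] at h0 ⊢
  exact h h0

theorem KLid_swap {D p : ℕ} (Q : Part D p) {ν : Measure (EX D p)} (hflip : ν.map flipE = ν)
    (h : Q.HT) : fr ν Q.τe h.swap = fr ν Q.τe h := by
  unfold fr
  conv_lhs => rw [← hflip]
  rw [map_measureReal_apply continuous_flipE.measurable
    (Q.measurable_τe (measurableSet_singleton _))]
  congr 1
  ext q
  exact Prod.swap_injective.eq_iff (a := Q.τe q) (b := h)

theorem KLid_marg {D p : ℕ} (Q : Part D p) (β : Measure J) [IsProbabilityMeasure β]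
    (μ : Measure (SX D p)) [IsProbabilityMeasure μ] (hfst : μ.map Prod.fst = starLaw D β)
    (a₀ : Fin Q.nA) : ∑ t, (if t.1 = a₀ then fr μ Q.τ t else 0) = fr β Q.a a₀ := by
  rw [← Finset.sum_filter]
  unfold fr
  rw [sum_measureReal_preimage_singleton _ fun t _ => Q.measurable_τ (measurableSet_singleton t)]
  have h1 : β = (μ.map Prod.fst).map Prod.fst := by
    rw [hfst, starLaw, Measure.map_fst_prod, measure_univ, one_smul]
  conv_rhs => rw [h1]
  rw [Measure.map_map measurable_fst measurable_fst,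
    map_measureReal_apply (measurable_fst.comp measurable_fst) (Q.ma (measurableSet_singleton _))]
  congr 1
  ext q
  simp [Part.τ]

/-- `m = fr μ τ`, `b = fr β a`, test laws `a_ε t = (1-ε) m t / b t.1 + ε / card ST`
(`Σ_{t.1 = a₀} m t = b a₀`).  With `G (θ, c) = log (fr envLaw t θ) + log (rk c)`:
`klD star = Σ m (log m - log b - log rk (c none)) - Σ_j Σ_t m t G (θ j, c (some j))`,
`klD edge = -H - Σ_h ν h (G h.1 + G h.2)`, and by flip invariance
`Σ_h ν h G h.1 = Σ_h ν h G h.2 = avg_j Σ_t m t G (θ j, c (some j))`.  Let `ε → 0`. -/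
theorem kl_of_Xi {D p : ℕ} (Q : Part D p) (β : Measure J) [IsProbabilityMeasure β]
    (μ : Measure (SX D p)) [IsProbabilityMeasure μ] (hfst : μ.map Prod.fst = starLaw D β)
    (hflip : (edgeLaw μ).map flipE = edgeLaw μ) (hac : μ ≪ lamS D p β)
    (hac' : edgeLaw μ ≪ lamE D p β) {T : ℝ} (h : ∀ a, Q.Test a → 0 ≤ T + Q.Xi a (fr μ Q.τ)) :
    klD (fr μ Q.τ) (fr (lamS D p β) Q.τ) -
      (D + 1 : ℝ) / 2 * klD (fr (edgeLaw μ) Q.τe) (fr (lamE D p β) Q.τe) ≤ T := by
  have F2 := KLid_ne hac Q.τ
  have F3 := KLid_ne hac' Q.τe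
  have F4 := KLid_swap Q hflip
  have F5 := KLid_marg Q β μ hfst
  have F6 := fr_edgeLaw Q μ
  have F7 := fr_lamS Q β
  have F8 := fr_lamE Q β
  have m0 : ∀ t, 0 ≤ fr μ Q.τ t := fun t => measureReal_nonneg
  have b0 : ∀ a, 0 ≤ fr β Q.a a := fun a => measureReal_nonneg
  have rk0 : ∀ c, Q.rk c ≠ 0 := fun c => (Q.pos c).ne'
  simp only [Part.Xi, ← F6] at h
  generalize fr μ Q.τ = m at *
  generalize fr β Q.a = b at *
  generalize fr (envLaw D β) Q.t = e at *
  generalize fr (edgeLaw μ) Q.τe = ν at *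
  generalize fr (lamS D p β) Q.τ = ls at *
  generalize fr (lamE D p β) Q.τe = le at *
  set G : Fin Q.nT × Fin Q.nK → ℝ := fun x => Real.log (e x.1) + Real.log (Q.rk x.2) with hG
  have hb : ∀ t, m t ≠ 0 → b t.1 ≠ 0 := fun t ht => by
    have := F2 t ht
    rw [F7] at this
    exact left_ne_zero_of_mul (left_ne_zero_of_mul this)
  have A : klD m ls = ∑ t, m t * (Real.log (m t) - Real.log (b t.1) - Real.log (Q.rk (t.2.2 none)))
      - ∑ j, ∑ t, m t * G (Q.he t j).2 := by
    rw [Finset.sum_comm, ← Finset.sum_sub_distrib]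
    refine Finset.sum_congr rfl fun t _ => ?_
    by_cases ht : m t = 0
    · simp [ht]
    have h1 := F2 t ht
    rw [Real.log_div ht h1]
    rw [F7] at h1 ⊢
    have h2 := right_ne_zero_of_mul (left_ne_zero_of_mul h1)
    rw [Real.log_mul (left_ne_zero_of_mul h1) (right_ne_zero_of_mul h1), Real.log_mul (hb t ht) h2,
      Real.log_prod fun j hj => Finset.prod_ne_zero_iff.1 h2 j hj, Real.log_prod fun v _ => rk0 _,
      Fintype.sum_option, ← Finset.mul_sum]
    simp only [hG, Part.he, Finset.sum_add_distrib]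
    ring
  have B : klD ν le = -∑ h, Real.negMulLog (ν h) - ∑ h, ν h * G h.1 - ∑ h, ν h * G h.2 := by
    rw [← Finset.sum_neg_distrib, ← Finset.sum_sub_distrib, ← Finset.sum_sub_distrib]
    refine Finset.sum_congr rfl fun x _ => ?_
    by_cases hx : ν x = 0
    · simp [hx]
    have h1 := F3 x hx
    rw [Real.log_div hx h1]
    rw [F8] at h1 ⊢
    have h2 := left_ne_zero_of_mul h1
    rw [Real.log_mul h2 (right_ne_zero_of_mul h1),
      Real.log_mul (left_ne_zero_of_mul h2) (right_ne_zero_of_mul h2), Real.log_mul (rk0 _) (rk0 _)]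
    simp only [hG, Real.negMulLog]
    ring
  have B1 : ∑ h, ν h * G h.1 = ∑ h, ν h * G h.2 :=
    Fintype.sum_equiv (Equiv.prodComm _ _) _ _ fun x => by rw [← F4 x]; rfl
  have B2 : (D + 1 : ℝ) * ∑ h, ν h * G h.2 = ∑ j, ∑ t, m t * G (Q.he t j).2 := by
    have hD : (D + 1 : ℝ) ≠ 0 := by positivity
    have e1 : ∀ x, (D + 1 : ℝ) * (ν x * G x.2) =
        ∑ j, ∑ t, if Q.he t j = x then m t * G x.2 else 0 := fun x => by
      rw [F6, avg, Fintype.card_fin, Nat.cast_add_one, ← mul_assoc, mul_div_cancel₀ _ hD,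
        Finset.sum_mul]
      simp only [Finset.sum_mul, ite_mul, zero_mul]
    rw [Finset.mul_sum]
    simp only [e1]
    rw [Finset.sum_comm]
    refine Finset.sum_congr rfl fun j _ => ?_
    rw [Finset.sum_comm]
    refine Finset.sum_congr rfl fun t _ => ?_
    rw [Finset.sum_ite_eq, if_pos (Finset.mem_univ _)]
  have key : ∀ c : ℝ, 0 < c → c < 1 →
      klD m ls - (D + 1 : ℝ) / 2 * klD ν le + Real.log c * ∑ t, m t ≤ T := by
    intro c c0 c1
    have p1 : ∀ t, 0 ≤ c * (m t / b t.1) := fun t => mul_nonneg c0.le (div_nonneg (m0 t) (b0 _))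
    have p2 : ∀ t : Q.ST, 0 < (1 - c) / Fintype.card Q.ST := fun t =>
      div_pos (by linarith) (Nat.cast_pos.2 (Fintype.card_pos_iff.2 ⟨t⟩))
    have h1 := h (fun t => c * (m t / b t.1) + (1 - c) / Fintype.card Q.ST)
      ⟨fun t => add_pos_of_nonneg_of_pos (p1 t) (p2 t), fun a₀ => by
        have e1 : ∀ t : Q.ST, (if t.1 = a₀ then c * (m t / b t.1) + (1 - c) / Fintype.card Q.ST
            else 0) ≤ c * ((if t.1 = a₀ then m t else 0) / b a₀) + (1 - c) / Fintype.card Q.ST := by
          intro t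
          split_ifs with ht
          · rw [ht]
          · simpa using (p2 t).le
        refine (Finset.sum_le_sum fun t _ => e1 t).trans ?_
        rw [Finset.sum_add_distrib, ← Finset.mul_sum, ← Finset.sum_div, F5, Finset.sum_const,
          Finset.card_univ, nsmul_eq_mul, ← mul_div_assoc (Fintype.card Q.ST : ℝ),
          mul_comm _ (1 - c), mul_div_assoc (1 - c)]
        have a1 := mul_le_mul_of_nonneg_left (div_self_le_one (b a₀)) c0.le
        have a2 := mul_le_mul_of_nonneg_left (div_self_le_one (Fintype.card Q.ST : ℝ))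
          (sub_pos.2 c1).le
        linarith⟩
    have h2 : ∑ t, m t * (Real.log (Q.rk (t.2.2 none)) -
        Real.log (c * (m t / b t.1) + (1 - c) / Fintype.card Q.ST)) ≤
        -∑ t, m t * (Real.log (m t) - Real.log (b t.1) - Real.log (Q.rk (t.2.2 none))) -
          Real.log c * ∑ t, m t := by
      rw [Finset.mul_sum, ← Finset.sum_neg_distrib, ← Finset.sum_sub_distrib]
      refine Finset.sum_le_sum fun t _ => ?_
      by_cases ht : m t = 0
      · simp [ht]
      have a1 : 0 < c * (m t / b t.1) :=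
        mul_pos c0 (div_pos ((m0 t).lt_of_ne' ht) ((b0 _).lt_of_ne' (hb t ht)))
      have a2 := Real.log_le_log a1 (le_add_of_nonneg_right (p2 t).le)
      rw [Real.log_mul c0.ne' (div_ne_zero ht (hb t ht)), Real.log_div ht (hb t ht)] at a2
      have a3 := mul_le_mul_of_nonneg_left a2 (m0 t)
      linarith
    rw [A, B, B1, ← B2]
    linarith
  have lim : Tendsto (fun c : ℝ => klD m ls - (D + 1 : ℝ) / 2 * klD ν le + Real.log c * ∑ t, m t)
      (𝓝[<] 1) (𝓝 (klD m ls - (D + 1 : ℝ) / 2 * klD ν le + Real.log 1 * ∑ t, m t)) :=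
    (((Real.continuousAt_log one_ne_zero).tendsto.mul_const _).const_add _).mono_left
      nhdsWithin_le_nhds
  rw [Real.log_one, zero_mul, add_zero] at lim
  refine le_of_tendsto lim ?_
  filter_upwards [Ioo_mem_nhdsLT zero_lt_one] with c hc using key c hc.1 hc.2

end Crest.Agent.R166.B
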