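import Crest.Agent.R166.B.CTa
import Crest.Agent.R166.B.KLL
import Crest.Agent.R166.B.KLid
import Crest.Agent.R166.B.Den
import Crest.Agent.R166.B.Flip

/-! # The entropy inequality for densities -/

set_option autoImplicit false
set_option linter.unusedVariables false
set_option linter.unusedSectionVars false

open MeasureTheory ProbabilityTheory Filter Topology Matrix
open scoped ENNReal BoundedContinuousFunction Kronecker

namespace Crest.Agent.R166.B

section
variable {D p : ℕ} {s : ℝ} {β : Measure J} [IsProbabilityMeasure β] {z : ℂ} {L : ℝ}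
  {μ : Measure (SX D p)} [IsProbabilityMeasure μ]
  {κ : Kernel (StarEnv D) (SV D × Fin p → ℝ)} [IsMarkovKernel κ]
  {κ' : Kernel (Env D × Env D) (Fin 2 × Fin p → ℝ)} [IsMarkovKernel κ']

/-- `noisy_density` twice (`bound_mats`), `exists_part_kl`, `count_part`, `kl_of_Xi`
(`noisy_edge`, `noisy_flip`, `noisy_fst`), `klD_le`. -/
theorem entropy_ineq (hD : 1 ≤ D) (hβ : Adm s β) (hz : 0 < z.im) (h : TypB β L μ)
    (hb : ∀ᵐ q ∂μ, ∀ k, |q.2 k| ≤ L) (hd : Dis β μ κ κ') :
    ∫ q, Real.log (rhoD κ (PS p s z (mT s z)) q) ∂(noisy μ (BS p s z (mT s z))) -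
      (D + 1 : ℝ) / 2 *
        ∫ q, Real.log (rhoD κ' (PE p (mT s z)) q) ∂(noisy (edgeLaw μ) (BE p (mT s z))) ≤
      thr s β z μ := by
  have hc : Cav D s β z (mT s z) := cav_mT s β hz
  obtain ⟨C, hC1, hC2, hC3, hC4, hC5, hC6⟩ := bound_mats (D := D) p s hz
  have hpos : ∀ e : Env D, 0 < (mT s z e).im := fun e => mT_im_pos hz e
  have h1 : ∀ σ : StarEnv D,
      BS p s z (mT s z) σ * (BS p s z (mT s z) σ)ᵀ * PS p s z (mT s z) σ = 1 := by
    intro σ
    rw [BS, PS, ten_transpose, ten_mul, ten_mul, Bs_Ps_one hz fun j => hpos _, ten_one]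
  have h2 : ∀ e : Env D × Env D,
      BE p (mT s z) e * (BE p (mT s z) e)ᵀ * PE p (mT s z) e = 1 := by
    intro e
    rw [BE, PE, ten_transpose, ten_mul, ten_mul, Be_Pe_one (hpos _) (hpos _), ten_one]
  have hb' : ∀ᵐ q ∂(edgeLaw μ), ∀ k, |q.2 k| ≤ L := by
    refine ae_edgeLaw_of ?_ fun j => hb.mono fun q hq k => hq _
    rw [Set.setOf_forall]
    exact MeasurableSet.iInter fun k => measurableSet_le
      (((measurable_pi_apply k).comp measurable_snd).abs) measurable_const
  have hBS := measM_BS p s z hc.meas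
  have hBE := measM_BE p hc.meas
  obtain ⟨m1, p1, d1, i1, -⟩ := noisy_density (starLaw D β) κ (measM_PS p s z hc.meas) hBS h1
    hC2 hC1 hC3 (L := L) (by rw [← hd.star]; exact hb)
  obtain ⟨m2, p2, d2, i2, -⟩ := noisy_density (env2 D β) κ' (measM_PE p hc.meas) hBE h2
    hC5 hC4 hC6 (L := L) (by rw [← hd.edge]; exact hb')
  rw [← hd.star] at d1 i1
  rw [← hd.edge] at d2 i2
  haveI := noisy_prob μ hBS
  haveI := noisy_prob (edgeLaw μ) hBE
  have hac : noisy μ (BS p s z (mT s z)) ≪ lamS D p β := by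
    rw [d1]
    exact withDensity_absolutelyContinuous _ _
  have he := noisy_edge hD hc hd.fst.1
  have hac' : edgeLaw (noisy μ (BS p s z (mT s z))) ≪ lamE D p β := by
    rw [he, d2]
    exact withDensity_absolutelyContinuous _ _
  refine le_of_forall_pos_le_add fun ε hε => ?_
  obtain ⟨Q, hQ, hk⟩ := exists_part_kl hβ m1 p1 d1 i1 hε
  have h3 := kl_of_Xi Q β (noisy μ (BS p s z (mT s z))) ((noisy_fst μ hBS).trans hd.fst.1)
    (by rw [he]; exact noisy_flip hc hd.fst.2 hd.flip) hac hac'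
    (fun a ha => count_part hz h hb hac Q hQ ha)
  rw [he] at h3
  have h4 := klD_le (l := lamE D p β) m2 p2 d2 i2 Q.measurable_τe
  have h5 : (0 : ℝ) ≤ (D + 1 : ℝ) / 2 := by positivity
  have h6 := mul_le_mul_of_nonneg_left h4 h5
  linarith

end

end Crest.Agent.R166.B
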