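import Crest.Agent.R166.B.AlgE

/-! # Bethe identities for determinants and traces -/

set_option autoImplicit false
set_option linter.unusedVariables false
set_option linter.unusedSectionVars false

open MeasureTheory ProbabilityTheory Filter Topology Matrix
open scoped ENNReal BoundedContinuousFunction Kronecker

namespace Crest.Agent.R166.B

section
variable {D p : ℕ} {s : ℝ} {β : Measure J} [IsProbabilityMeasure β] {z : ℂ} {L : ℝ}
  {μ : Measure (SX D p)} [IsProbabilityMeasure μ]
  {κ : Kernel (StarEnv D) (SV D × Fin p → ℝ)} [IsMarkovKernel κ]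
  {κ' : Kernel (Env D × Env D) (Fin 2 × Fin p → ℝ)} [IsMarkovKernel κ']

theorem CTd_gO (hz : 0 < z.im) : Continuous (fun σ : StarEnv D =>
      gO (((s * (σ.1 : ℝ) : ℝ) : ℂ)) z fun i => mT s z (σ.2 i)) ∧
    ∀ σ : StarEnv D, gO (((s * (σ.1 : ℝ) : ℝ) : ℂ)) z (fun i => mT s z (σ.2 i)) ≠ 0 := by
  obtain ⟨c3, n3⟩ := T6den_spec (D := D) s hz
  exact ⟨continuous_const.div c3 n3, fun σ => one_div_ne_zero (n3 σ)⟩

/-- log-determinants: `log_det_Ps`, `log_det_Pe`, definition of `bethe` -/
theorem logdet_diff (hz : 0 < z.im) :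
    (∫ σ, Real.log (PS p s z (mT s z) σ).det ∂(starLaw D β)) -
      (D + 1 : ℝ) / 2 * ∫ e, Real.log (PE p (mT s z) e).det ∂(env2 D β) =
      2 * (p * (bethe D s β z - Real.log z.im / 2)) := by
  have c1 := continuous_mT (D := D) (s := s) hz
  obtain ⟨c2, n2⟩ := CTd_gO (D := D) (s := s) hz
  obtain ⟨c4, n4⟩ := T6edg_spec (D := D) s hz
  have c5 : Continuous fun e : Env D => Real.log (mT s z e).im :=
    (Complex.continuous_im.comp c1).log fun e => (mT_im_pos hz e).ne'
  have c6 := c2.norm.log fun σ => norm_ne_zero_iff.2 (n2 σ)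
  have c7 : Continuous fun e : Env D × Env D => Real.log ‖1 - mT s z e.1 * mT s z e.2‖ :=
    c4.norm.log fun e => norm_ne_zero_iff.2 (n4 e)
  have e1 : ∀ σ : StarEnv D, Real.log (PS p s z (mT s z) σ).det = p * -(Real.log z.im +
      2 * Real.log ‖gO (((s * (σ.1 : ℝ) : ℝ) : ℂ)) z fun i => mT s z (σ.2 i)‖ +
        ∑ j, Real.log (mT s z (σ.2 j)).im) := fun σ => by
    rw [PS, ten_det, Real.log_pow, log_det_Ps hz fun j => mT_im_pos hz _]
  have e2 : ∀ e : Env D × Env D, Real.log (PE p (mT s z) e).det = p *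
      (2 * Real.log ‖1 - mT s z e.1 * mT s z e.2‖ - Real.log (mT s z e.1).im -
        Real.log (mT s z e.2).im) := fun e => by
    rw [PE, ten_det, Real.log_pow, log_det_Pe (mT_im_pos hz _) (mT_im_pos hz _)]
  have h1 : ∀ j : Fin (D + 1), ∫ σ, Real.log (mT s z (σ.2 j)).im ∂(starLaw D β) =
      ∫ e, Real.log (mT s z e).im ∂(envLaw D β) := fun j => by
    rw [← map_star_snd β j, integral_map (Measurable.aemeasurable (by fun_prop))
      c5.aestronglyMeasurable]
  have h2 : ∫ e, Real.log (mT s z e.1).im ∂(env2 D β) =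
      ∫ e, Real.log (mT s z e).im ∂(envLaw D β) := by
    rw [integral_fun_fst (fun e => Real.log (mT s z e).im)]
    simp
  have h3 : ∫ e, Real.log (mT s z e.2).im ∂(env2 D β) =
      ∫ e, Real.log (mT s z e).im ∂(envLaw D β) := by
    rw [integral_fun_snd (fun e => Real.log (mT s z e).im)]
    simp
  have i1 : ∀ j : Fin (D + 1), Integrable (fun σ : StarEnv D => Real.log (mT s z (σ.2 j)).im)
      (starLaw D β) := fun j => T6_int _ (c5.comp (by fun_prop))
  have i2 := (T6_int (starLaw D β) c6).const_mul 2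
  have i3 := (T6_int (env2 D β) c7).const_mul 2
  have i4 : Integrable (fun e : Env D × Env D => Real.log (mT s z e.1).im) (env2 D β) :=
    T6_int _ (c5.comp continuous_fst)
  have i5 : Integrable (fun e : Env D × Env D => Real.log (mT s z e.2).im) (env2 D β) :=
    T6_int _ (c5.comp continuous_snd)
  have i6 : Integrable (fun σ : StarEnv D => Real.log z.im +
      2 * Real.log ‖gO (((s * (σ.1 : ℝ) : ℝ) : ℂ)) z fun i => mT s z (σ.2 i)‖) (starLaw D β) :=
    (integrable_const _).add i2
  have i7 : Integrable (fun e : Env D × Env D =>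
      2 * Real.log ‖1 - mT s z e.1 * mT s z e.2‖ - Real.log (mT s z e.1).im) (env2 D β) :=
    i3.sub i4
  simp only [e1, e2]
  rw [integral_const_mul, integral_const_mul, integral_neg,
    integral_add i6 (integrable_finsetSum _ fun j _ => i1 j),
    integral_add (integrable_const _) i2, integral_finsetSum _ fun j _ => i1 j,
    integral_sub i7 i5, integral_sub i3 i4, integral_const_mul, integral_const_mul, h2, h3]
  simp only [h1, Finset.sum_const, Finset.card_univ, Fintype.card_fin, nsmul_eq_mul,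
    integral_const, probReal_univ, smul_eq_mul, one_mul, bethe]
  push_cast
  ring

/-- traces: `tr Σ_star = Im g + Σ_j Im gC j j`, `tr Σ_edge (eEnv j σ) = Im g + Im gC j j`, symmetry -/
theorem trace_diff (hD : 1 ≤ D) (hz : 0 < z.im) :
    (∫ σ, (BS p s z (mT s z) σ * (BS p s z (mT s z) σ)ᵀ).trace ∂(starLaw D β)) -
      (D + 1 : ℝ) / 2 * ∫ e, (BE p (mT s z) e * (BE p (mT s z) e)ᵀ).trace ∂(env2 D β) =
      p * ∫ σ, (gO (((s * (σ.1 : ℝ) : ℝ) : ℂ)) z fun i => mT s z (σ.2 i)).im ∂(starLaw D β) := by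
  have c1 := continuous_mT (D := D) (s := s) hz
  obtain ⟨c2, n2⟩ := CTd_gO (D := D) (s := s) hz
  obtain ⟨c4, n4⟩ := T6edg_spec (D := D) s hz
  let φ : Env D × Env D → ℝ := fun e => (gE (mT s z e.1) (mT s z e.2) 1 1).im
  have c5 : Continuous φ :=
    Complex.continuous_im.comp ((c1.comp continuous_snd).div c4 n4)
  have e1 : ∀ σ : StarEnv D, (BS p s z (mT s z) σ * (BS p s z (mT s z) σ)ᵀ).trace =
      p * ((gO (((s * (σ.1 : ℝ) : ℝ) : ℂ)) z fun i => mT s z (σ.2 i)).im +
        ∑ j, φ (eEnv j σ)) := fun σ => by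
    rw [BS, ten_transpose, ten_mul, ten_trace, Bs_gram hz.le fun j => mT_im_pos hz _,
      Matrix.trace, Fintype.sum_option]
    congr 2
    refine Finset.sum_congr rfl fun j _ => ?_
    have := gC_edge (t := ((s * (σ.1 : ℝ) : ℝ) : ℂ)) (m := fun i => mT s z (σ.2 i))
      (Complex.ofReal_im _) hz.le (fun i => mT_im_pos hz _) hD j 1 1
    rw [← mT_comb hz] at this
    exact (congrArg Complex.im this).symm
  have e2 : ∀ e : Env D × Env D, (BE p (mT s z) e * (BE p (mT s z) e)ᵀ).trace =
      p * (φ e.swap + φ e) := fun e => by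
    rw [BE, ten_transpose, ten_mul, ten_trace, Be_gram (mT_im_pos hz _) (mT_im_pos hz _),
      Matrix.trace_fin_two]
    congr 2
    change (mT s z e.1 / (1 - mT s z e.1 * mT s z e.2)).im =
      (mT s z e.1 / (1 - mT s z e.2 * mT s z e.1)).im
    rw [mul_comm]
  have h1 : ∀ j : Fin (D + 1), ∫ σ, φ (eEnv j σ) ∂(starLaw D β) = ∫ e, φ e ∂(env2 D β) :=
    fun j => by
      rw [← map_eEnv β j, integral_map (continuous_eEnv j).measurable.aemeasurable
        c5.aestronglyMeasurable]
  have h2 : ∫ e, φ e.swap ∂(env2 D β) = ∫ e, φ e ∂(env2 D β) := integral_prod_swap φ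
  have i1 : ∀ j : Fin (D + 1), Integrable (fun σ : StarEnv D => φ (eEnv j σ)) (starLaw D β) :=
    fun j => T6_int _ (c5.comp (continuous_eEnv j))
  have i2 : Integrable (fun σ : StarEnv D =>
      (gO (((s * (σ.1 : ℝ) : ℝ) : ℂ)) z fun i => mT s z (σ.2 i)).im) (starLaw D β) :=
    T6_int _ (Complex.continuous_im.comp c2)
  have i3 : Integrable (fun e : Env D × Env D => φ e.swap) (env2 D β) :=
    T6_int _ (c5.comp continuous_swap)
  simp only [e1, e2]
  rw [integral_const_mul, integral_const_mul,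
    integral_add i2 (integrable_finsetSum _ fun j _ => i1 j),
    integral_finsetSum _ fun j _ => i1 j, integral_add i3 (T6_int _ c5), h2]
  simp only [h1, Finset.sum_const, Finset.card_univ, Fintype.card_fin, nsmul_eq_mul]
  push_cast
  ring

end

end Crest.Agent.R166.B
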