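import Crest.Agent.R166.B.AlgE

/-! # Star minus edge for quadratic forms -/

set_option autoImplicit false
set_option linter.unusedVariables false
set_option linter.unusedSectionVars false

open MeasureTheory ProbabilityTheory Filter Topology Matrix
open scoped ENNReal BoundedContinuousFunction Kronecker

namespace Crest.Agent.R166.B

section
variable {D p : ℕ} {s : ℝ} {β : Measure J} [IsProbabilityMeasure β] {z : ℂ} {L : ℝ}
  {μ : Measure (SX D p)} [IsProbabilityMeasure μ]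
  {κ : Kernel (StarEnv D) (SV D × Fin p → ℝ)} [IsMarkovKernel κ]
  {κ' : Kernel (Env D × Env D) (Fin 2 × Fin p → ℝ)} [IsMarkovKernel κ']

theorem CTe_int (hb : ∀ᵐ q ∂μ, ∀ k, |q.2 k| ≤ L) {f : SX D p → ℝ} (hf : Continuous f) :
    Integrable f μ := by
  have hK : IsCompact ((Set.univ : Set (StarEnv D)) ×ˢ
      (Set.univ.pi fun _ : SV D × Fin p => Set.Icc (-L) L)) :=
    isCompact_univ.prod (isCompact_univ_pi fun _ => isCompact_Icc)
  have h := hf.continuousOn.integrableOn_compact (μ := μ) hK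
  rwa [IntegrableOn, Measure.restrict_eq_self_of_ae_mem] at h
  filter_upwards [hb] with q hq
  exact ⟨trivial, fun k _ => abs_le.1 (hq k)⟩

theorem CTe_gen (hb : ∀ᵐ q ∂μ, ∀ k, |q.2 k| ≤ L) (hflip : (edgeLaw μ).map flipE = edgeLaw μ)
    {F c : SX D p → ℝ} {G g : EX D p → ℝ} (hc : Continuous c) (hg : Continuous g)
    (hF : ∀ q, F q = c q + ∑ j, g (edgeJ j q)) (hG : ∀ e, G e = g e + g (flipE e)) :
    (∫ q, F q ∂μ) - (D + 1 : ℝ) / 2 * ∫ q, G q ∂(edgeLaw μ) = ∫ q, c q ∂μ := by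
  have hi : ∀ j, Integrable (fun q => g (edgeJ j q)) μ := fun j =>
    CTe_int hb (hg.comp (continuous_edgeJ j))
  have hg' : Continuous fun e => g (flipE e) := hg.comp continuous_flipE
  have i1 : Integrable g (edgeLaw μ) := (integrable_edgeLaw hg.stronglyMeasurable).2 hi
  have i2 : Integrable (fun e => g (flipE e)) (edgeLaw μ) :=
    (integrable_edgeLaw hg'.stronglyMeasurable).2 fun j =>
      CTe_int hb (hg'.comp (continuous_edgeJ j))
  have e2 : ∫ e, g (flipE e) ∂(edgeLaw μ) = ∫ e, g e ∂(edgeLaw μ) := by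
    rw [← integral_map continuous_flipE.measurable.aemeasurable hg.aestronglyMeasurable, hflip]
  simp only [hF, hG]
  rw [integral_add (CTe_int hb hc) (integrable_finsetSum _ fun j _ => hi j),
    integral_finsetSum _ fun j _ => hi j, integral_add i1 i2, e2,
    integral_edgeLaw hg.stronglyMeasurable hi, avg, Fintype.card_fin]
  push_cast
  field_simp
  ring

/-- flip invariance -/
theorem sq_diff (hb : ∀ᵐ q ∂μ, ∀ k, |q.2 k| ≤ L) (hflip : (edgeLaw μ).map flipE = edgeLaw μ) :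
    (∫ q, q.2 ⬝ᵥ q.2 ∂μ) - (D + 1 : ℝ) / 2 * ∫ q, q.2 ⬝ᵥ q.2 ∂(edgeLaw μ) =
      ∫ q, ∑ a, q.2 (none, a) ^ 2 ∂μ := by
  refine CTe_gen hb hflip (g := fun e => ∑ a, e.2 (1, a) ^ 2) (by fun_prop) (by fun_prop)
    (fun q => ?_) (fun e => ?_)
  · simp only [dotProduct, Fintype.sum_prod_type, Fintype.sum_option, edgeJ, eI, eV,
      Function.comp_apply, sq]
    simp
  · simp only [dotProduct, Fintype.sum_prod_type, Fin.sum_univ_two, flipE, swI,
      Function.comp_apply, sq]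
    rw [add_comm]
    rfl

/-- `Ps_form`, `Pe_form`, flip invariance -/
theorem form_diff (hz : 0 < z.im) (hb : ∀ᵐ q ∂μ, ∀ k, |q.2 k| ≤ L)
    (hflip : (edgeLaw μ).map flipE = edgeLaw μ) :
    (∫ q, q.2 ⬝ᵥ PS p s z (mT s z) q.1 *ᵥ q.2 ∂μ) -
      (D + 1 : ℝ) / 2 * ∫ q, q.2 ⬝ᵥ PE p (mT s z) q.1 *ᵥ q.2 ∂(edgeLaw μ) = ∫ q, cen s z q ∂μ := by
  have hm := continuous_mT (D := D) (s := s) hz
  refine CTe_gen hb hflip
    (g := fun e => ∑ a, qB (mT s z e.1.2) (e.2 (0, a)) (e.2 (1, a)) (e.2 (0, a)) (e.2 (1, a)))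
    ?_ ?_ (fun q => ?_) (fun e => ?_)
  · unfold cen
    fun_prop
  · simp only [qB_self]
    refine continuous_finsetSum _ fun a _ => Continuous.div (by fun_prop) (by fun_prop)
      fun e => (mT_im_pos hz _).ne'
  · rw [PS, ten_form, Finset.sum_comm, cen, ← Finset.sum_add_distrib]
    refine Finset.sum_congr rfl fun a _ => ?_
    rw [Ps_form hz.le fun j => mT_im_pos hz _, Complex.mul_conj, Complex.ofReal_re,
      Complex.normSq_eq_norm_sq]
    rfl
  · rw [PE, ten_form, ← Finset.sum_add_distrib]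
    refine Finset.sum_congr rfl fun a _ => ?_
    rw [Pe_form]
    rfl

end

end Crest.Agent.R166.B
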