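import Crest.Agent.R166.B.CT2
import Crest.Agent.R166.B.CTd
import Crest.Agent.R166.B.CTe

/-! # The entropy inequality -/

set_option autoImplicit false
set_option linter.unusedVariables false
set_option linter.unusedSectionVars false

open MeasureTheory ProbabilityTheory Filter Topology Matrix
open scoped ENNReal BoundedContinuousFunction Kronecker

namespace Crest.Agent.R166.B

section
variable {D p : ℕ} {s : ℝ} {β : Measure J} [IsProbabilityMeasure β] {z : ℂ} {L : ℝ}
  {μ : Measure (SX D p)} [IsProbabilityMeasure μ]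
  {κ : Kernel (StarEnv D) (SV D × Fin p → ℝ)} [IsMarkovKernel κ]
  {κ' : Kernel (Env D × Env D) (Fin 2 × Fin p → ℝ)} [IsMarkovKernel κ']

theorem psi_ineq (hD : 1 ≤ D) (hβ : Adm s β) (hz : 0 < z.im) (h : TypB β L μ)
    (hb : ∀ᵐ q ∂μ, ∀ k, |q.2 k| ≤ L) (hd : Dis β μ κ κ') :
    Psi (starLaw D β) κ (PS p s z (mT s z)) (BS p s z (mT s z)) 1 -
      (D + 1 : ℝ) / 2 * Psi (env2 D β) κ' (PE p (mT s z)) (BE p (mT s z)) 1 ≤
      (∫ q, cen s z q ∂μ) / 2 := by
  obtain ⟨C, h1, h2, h3, h4, h5, h6⟩ := bound_mats (D := D) p s hz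
  have hm : Measurable (mT (D := D) s z) := (continuous_mT hz).measurable
  have hbe : ∀ᵐ q ∂(edgeLaw μ), ∀ k, |q.2 k| ≤ L := by
    refine ae_edgeLaw_of ?_ fun j => hb.mono fun q hq k => hq _
    rw [Set.ofPred_forall]
    exact MeasurableSet.iInter fun k => measurableSet_le
      (continuous_abs.measurable.comp ((measurable_pi_apply k).comp measurable_snd))
      measurable_const
  have hS := (noisy_density (starLaw D β) κ (measM_PS p s z hm) (measM_BS p s z hm)
    (fun σ => by
      rw [BS, PS, ten_transpose, ten_mul, ten_mul, Bs_Ps_one hz fun j => mT_im_pos hz _, ten_one])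
    h2 h1 h3 (hd.star ▸ hb)).2.2.2.2
  have hE := (noisy_density (env2 D β) κ' (measM_PE p hm) (measM_BE p hm)
    (fun e => by
      rw [BE, PE, ten_transpose, ten_mul, ten_mul, Be_Pe_one (mT_im_pos hz _) (mT_im_pos hz _),
        ten_one])
    h5 h4 h6 (hd.edge ▸ hbe)).2.2.2.2
  rw [← hd.star] at hS
  rw [← hd.edge] at hE
  have e0 := entropy_ineq hD hβ hz h hb hd
  have e1 := logdet_diff (D := D) (p := p) (s := s) (β := β) hz
  have e2 := trace_diff (p := p) (s := s) (β := β) hD hz
  have e3 := sq_diff hb hd.flip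
  have e4 := form_diff (s := s) hz hb hd.flip
  rw [hS, hE, thr] at e0
  simp only [Fintype.card_prod, Fintype.card_option, Fintype.card_fin] at e0
  push_cast at e0 e2
  linarith

end

end Crest.Agent.R166.B
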