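import Crest.Agent.R166.B.Defs
import Crest.Agent.R166.Gauss1

/-! # Gaussian integrals -/

set_option autoImplicit false
set_option linter.unusedVariables false
set_option linter.unusedSectionVars false

open MeasureTheory ProbabilityTheory Filter Topology Matrix
open scoped ENNReal BoundedContinuousFunction Kronecker

namespace Crest.Agent.R166.B

section
variable {K N : Type} [Fintype K] [Fintype N]

private theorem gint_abs_dot (b ξ : N → ℝ) : |b ⬝ᵥ ξ| ≤ (∑ i, |b i|) * ‖ξ‖ := by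
  rw [dotProduct, Finset.sum_mul]
  refine (Finset.abs_sum_le_sum_abs _ _).trans (Finset.sum_le_sum fun i _ => ?_)
  rw [abs_mul]
  exact mul_le_mul_of_nonneg_left (norm_le_pi_norm ξ i) (abs_nonneg _)

private theorem gint_cont (b : N → ℝ) : Continuous fun ξ : N → ℝ => b ⬝ᵥ ξ :=
  continuous_const.dotProduct continuous_id

private theorem gint_ibp {F F' : ℝ → ℝ} (hF : ∀ s, HasDerivAt F (F' s) s) (hF' : Continuous F')
    (h1 : ∀ s, |F s| ≤ 1 + |s|) (h2 : ∀ s, |F' s| ≤ 1) (a : ℝ) (b b' : N → ℝ) :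
    Integrable (fun ξ => (b' ⬝ᵥ ξ) * F (a + b ⬝ᵥ ξ)) (gpi N) ∧
      ∫ ξ, (b' ⬝ᵥ ξ) * F (a + b ⬝ᵥ ξ) ∂(gpi N) = (b' ⬝ᵥ b) * ∫ ξ, F' (a + b ⬝ᵥ ξ) ∂(gpi N) := by
  classical
  have hc : Continuous F := continuous_iff_continuousAt.2 fun s => (hF s).continuousAt
  have hl : Continuous fun ξ : N → ℝ => a + b ⬝ᵥ ξ := continuous_const.add (gint_cont b)
  have hβ : 0 ≤ ∑ i, |b i| := Finset.sum_nonneg fun i _ => abs_nonneg _
  have k0 : ∀ ξ : N → ℝ, 1 + |a| + (∑ i, |b i|) + (∑ i, |b i|) * ‖ξ‖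
      ≤ Real.exp ((|a| + ∑ i, |b i|) * (1 + ‖ξ‖)) := fun ξ => by
    have := Real.add_one_le_exp ((|a| + ∑ i, |b i|) * (1 + ‖ξ‖))
    nlinarith [mul_nonneg (abs_nonneg a) (norm_nonneg ξ)]
  have k1 : ∀ ξ : N → ℝ, |F (a + b ⬝ᵥ ξ)| ≤ Real.exp ((|a| + ∑ i, |b i|) * (1 + ‖ξ‖)) := fun ξ => by
    linarith [h1 (a + b ⬝ᵥ ξ), abs_add_le a (b ⬝ᵥ ξ), gint_abs_dot b ξ, k0 ξ]
  have i1 : ∀ i, Integrable (fun ξ : N → ℝ => ξ i * F (a + b ⬝ᵥ ξ)) (gpi N) := fun i =>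
    gauss1_int_gpi ((continuous_apply i).mul (hc.comp hl)).measurable fun ξ =>
      gauss1_mul_le (norm_le_pi_norm ξ i) (k1 ξ)
  have i2 : ∀ i, ∫ ξ, ξ i * F (a + b ⬝ᵥ ξ) ∂(gpi N) = b i * ∫ ξ, F' (a + b ⬝ᵥ ξ) ∂(gpi N) := by
    intro i
    rw [← integral_const_mul]
    refine gpi_ibp i (hc.comp hl).measurable (continuous_const.mul (hF'.comp hl)).measurable
      (fun g => ?_) (C := |a| + ∑ i, |b i|) fun g => ⟨k1 g, ?_⟩
    · have e : ∀ t, a + b ⬝ᵥ Function.update g i (g i + t) = a + b ⬝ᵥ g + b i * t := fun t => by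
        have : Function.update g i (g i + t) = g + Pi.single i t := by
          funext j
          by_cases h : j = i
          · subst h; simp
          · simp [h]
        rw [this, dotProduct_add, dotProduct_single, add_assoc]
      simp only [e]
      have d1 : HasDerivAt (fun t : ℝ => a + b ⬝ᵥ g + b i * t) (b i) 0 := by
        simpa using ((hasDerivAt_id (0 : ℝ)).const_mul (b i)).const_add (a + b ⬝ᵥ g)
      have d2 := (hF (a + b ⬝ᵥ g + b i * 0)).comp (0 : ℝ) d1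
      rw [mul_zero, add_zero, mul_comm] at d2
      exact d2
    · have a1 : |b i| ≤ ∑ i, |b i| :=
        Finset.single_le_sum (f := fun i => |b i|) (fun i _ => abs_nonneg _) (Finset.mem_univ i)
      have a2 := mul_le_mul_of_nonneg_left (h2 (a + b ⬝ᵥ g)) (abs_nonneg (b i))
      rw [abs_mul]
      linarith [k0 g, abs_nonneg a, mul_nonneg hβ (norm_nonneg g)]
  have e : ∀ ξ : N → ℝ, (b' ⬝ᵥ ξ) * F (a + b ⬝ᵥ ξ) = ∑ i, b' i * (ξ i * F (a + b ⬝ᵥ ξ)) :=
    fun ξ => by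
      rw [dotProduct, Finset.sum_mul]
      exact Finset.sum_congr rfl fun i _ => mul_assoc _ _ _
  simp only [e]
  refine ⟨integrable_finsetSum _ fun i _ => (i1 i).const_mul _, ?_⟩
  rw [integral_finsetSum _ fun i _ => (i1 i).const_mul _, dotProduct, Finset.sum_mul]
  exact Finset.sum_congr rfl fun i _ => by rw [integral_const_mul, i2, mul_assoc]

private theorem gint_lip {x y : ℝ} (hx : 0 ≤ x) (hy : 0 ≤ y) :
    |Real.exp (-x) - Real.exp (-y)| ≤ |x - y| := by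
  have k : ∀ {x y : ℝ}, 0 ≤ x → Real.exp (-x) - Real.exp (-y) ≤ |x - y| := fun {x y} hx => by
    have h1 : Real.exp (-y) = Real.exp (-x) * Real.exp (x - y) := by
      rw [← Real.exp_add]; congr 1; ring
    have h2 := Real.add_one_le_exp (x - y)
    have h3 : Real.exp (-x) ≤ 1 := Real.exp_le_one_iff.2 (by linarith)
    have h4 := Real.exp_pos (-x)
    have h5 := neg_abs_le (x - y)
    have h6 := abs_nonneg (x - y)
    nlinarith
  refine abs_le.2 ⟨?_, k hx⟩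
  have := k (y := x) hy
  rw [abs_sub_comm] at this
  linarith

private theorem gint_cos_int (a : ℝ) (b : N → ℝ) :
    Integrable (fun ξ => Real.cos (a + b ⬝ᵥ ξ)) (gpi N) :=
  (integrable_const (1 : ℝ)).mono'
    (Real.continuous_cos.comp (continuous_const.add (gint_cont b))).aestronglyMeasurable
    (Eventually.of_forall fun ξ => Real.abs_cos_le_one _)

theorem integral_dot (b : N → ℝ) :
    Integrable (fun ξ => b ⬝ᵥ ξ) (gpi N) ∧ ∫ ξ, b ⬝ᵥ ξ ∂(gpi N) = 0 := by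
  simpa using gint_ibp (F := fun _ => 1) (F' := fun _ => 0) (fun s => hasDerivAt_const s 1)
    continuous_const (fun s => by simp) (fun s => by simp) 0 0 b

theorem integral_dot_mul (b b' : N → ℝ) :
    Integrable (fun ξ => (b ⬝ᵥ ξ) * (b' ⬝ᵥ ξ)) (gpi N) ∧
      ∫ ξ, (b ⬝ᵥ ξ) * (b' ⬝ᵥ ξ) ∂(gpi N) = b ⬝ᵥ b' := by
  simpa using gint_ibp (F := fun s => s) (F' := fun _ => 1) (fun s => hasDerivAt_id s)
    continuous_const (fun s => by simp) (fun s => by simp) 0 b' b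

theorem integral_quad (Q : Matrix K K ℝ) (B : Matrix K N ℝ) (x : K → ℝ) :
    Integrable (fun ξ => (x + B *ᵥ ξ) ⬝ᵥ Q *ᵥ (x + B *ᵥ ξ)) (gpi N) ∧
      ∫ ξ, (x + B *ᵥ ξ) ⬝ᵥ Q *ᵥ (x + B *ᵥ ξ) ∂(gpi N) =
        x ⬝ᵥ Q *ᵥ x + (Q * (B * Bᵀ)).trace := by
  have e : ∀ ξ : N → ℝ, (x + B *ᵥ ξ) ⬝ᵥ Q *ᵥ (x + B *ᵥ ξ) = ∑ k, ∑ l, Q k l *
      (x k * x l + x k * (B l ⬝ᵥ ξ) + x l * (B k ⬝ᵥ ξ) + (B k ⬝ᵥ ξ) * (B l ⬝ᵥ ξ)) := fun ξ => by
    rw [dotProduct]
    refine Finset.sum_congr rfl fun k _ => ?_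
    rw [mulVec, dotProduct, Finset.mul_sum]
    refine Finset.sum_congr rfl fun l _ => ?_
    change (x k + B k ⬝ᵥ ξ) * (Q k l * (x l + B l ⬝ᵥ ξ)) = _
    ring
  have j1 : ∀ k l, Integrable (fun ξ : N → ℝ => x k * x l + x k * (B l ⬝ᵥ ξ)) (gpi N) :=
    fun k l => (integrable_const _).add ((integral_dot (B l)).1.const_mul _)
  have j2 : ∀ k l, Integrable (fun ξ : N → ℝ =>
      x k * x l + x k * (B l ⬝ᵥ ξ) + x l * (B k ⬝ᵥ ξ)) (gpi N) :=
    fun k l => (j1 k l).add ((integral_dot (B k)).1.const_mul _)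
  have i1 : ∀ k l, Integrable (fun ξ : N → ℝ => Q k l *
      (x k * x l + x k * (B l ⬝ᵥ ξ) + x l * (B k ⬝ᵥ ξ) + (B k ⬝ᵥ ξ) * (B l ⬝ᵥ ξ))) (gpi N) :=
    fun k l => ((j2 k l).add (integral_dot_mul (B k) (B l)).1).const_mul _
  simp only [e]
  refine ⟨integrable_finsetSum _ fun k _ => integrable_finsetSum _ fun l _ => i1 k l, ?_⟩
  rw [integral_finsetSum _ fun k _ => integrable_finsetSum _ fun l _ => i1 k l, dotProduct,
    Matrix.trace, ← Finset.sum_add_distrib]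
  refine Finset.sum_congr rfl fun k _ => ?_
  rw [integral_finsetSum _ fun l _ => i1 k l, mulVec, dotProduct, Finset.mul_sum, diag_apply,
    Matrix.mul_apply, ← Finset.sum_add_distrib]
  refine Finset.sum_congr rfl fun l _ => ?_
  rw [integral_const_mul, integral_add (j2 k l) (integral_dot_mul (B k) (B l)).1,
    integral_add (j1 k l) ((integral_dot (B k)).1.const_mul _),
    integral_add (integrable_const _) ((integral_dot (B l)).1.const_mul _), integral_const_mul,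
    integral_const_mul, integral_const_mul, (integral_dot _).2, (integral_dot _).2,
    (integral_dot_mul _ _).2, dotProduct_comm (B k)]
  simp only [integral_const, probReal_univ, one_smul]
  change _ = x k * (Q k l * x l) + Q k l * (B l ⬝ᵥ B k)
  ring

theorem integral_exp_dot (b : N → ℝ) :
    Integrable (fun ξ => Real.exp (b ⬝ᵥ ξ)) (gpi N) ∧
      ∫ ξ, Real.exp (b ⬝ᵥ ξ) ∂(gpi N) = Real.exp (b ⬝ᵥ b / 2) := by
  refine ⟨gauss1_int_gpi (Real.continuous_exp.comp (gint_cont b)).measurable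
    (C := ∑ i, |b i|) fun ξ => ?_, ?_⟩
  · rw [abs_of_pos (Real.exp_pos _), Real.exp_le_exp]
    have hβ : 0 ≤ ∑ i, |b i| := Finset.sum_nonneg fun i _ => abs_nonneg _
    linarith [le_abs_self (b ⬝ᵥ ξ), gint_abs_dot b ξ]
  · simp only [dotProduct, Real.exp_sum, Finset.sum_div]
    rw [gpi, integral_fintype_prod_eq_prod fun i t => Real.exp (b i * t)]
    refine Finset.prod_congr rfl fun i _ => ?_
    have := congrFun (mgf_fun_id_gaussianReal (μ := 0) (v := 1)) (b i)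
    rw [mgf] at this
    rw [this]
    simp [sq]

/-- real part of the characteristic function (`integral_fintype_prod_eq_prod`, `charFun_gaussianReal`) -/
theorem integral_cos (a : ℝ) (b : N → ℝ) :
    ∫ ξ, Real.cos (a + b ⬝ᵥ ξ) ∂(gpi N) = Real.cos a * Real.exp (-(b ⬝ᵥ b) / 2) := by
  have h := gauss1_char b
  have hi : Integrable (fun g : N → ℝ => Complex.exp (a * Complex.I) *
      Complex.exp (((∑ i, b i * g i : ℝ) : ℂ) * Complex.I)) (gpi N) :=
    ((integrable_const (1 : ℝ)).mono' (Continuous.aestronglyMeasurable (by fun_prop))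
      (Eventually.of_forall fun g => (Complex.norm_exp_ofReal_mul_I _).le)).const_mul _
  have h2 := integral_re hi
  rw [integral_const_mul, h] at h2
  have e1 : ∀ g : N → ℝ, RCLike.re (Complex.exp (a * Complex.I) *
      Complex.exp (((∑ i, b i * g i : ℝ) : ℂ) * Complex.I)) = Real.cos (a + b ⬝ᵥ g) := fun g => by
    rw [← Complex.exp_add, ← add_mul, ← Complex.ofReal_add]
    exact Complex.exp_ofReal_mul_I_re _
  simp only [e1] at h2
  have e2 : -(((∑ i, b i ^ 2 : ℝ) : ℂ) / 2) = ((-(b ⬝ᵥ b) / 2 : ℝ) : ℂ) := by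
    simp only [dotProduct, sq]
    push_cast
    ring
  rw [h2, e2, ← Complex.ofReal_exp, RCLike.re_to_complex, Complex.re_mul_ofReal,
    Complex.exp_ofReal_mul_I_re]

/-- `gpi_ibp` coordinatewise, or differentiate `integral_cos` in the direction `b'` -/
theorem integral_dot_cos (a : ℝ) (b b' : N → ℝ) :
    Integrable (fun ξ => (b' ⬝ᵥ ξ) * Real.cos (a + b ⬝ᵥ ξ)) (gpi N) ∧
      ∫ ξ, (b' ⬝ᵥ ξ) * Real.cos (a + b ⬝ᵥ ξ) ∂(gpi N) =
        -(b' ⬝ᵥ b) * Real.sin a * Real.exp (-(b ⬝ᵥ b) / 2) := by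
  obtain ⟨h1, h2⟩ := gint_ibp (F := Real.cos) (F' := fun s => -Real.sin s) Real.hasDerivAt_cos
    Real.continuous_sin.neg (fun s => by linarith [Real.abs_cos_le_one s, abs_nonneg s])
    (fun s => by rw [abs_neg]; exact Real.abs_sin_le_one s) a b b'
  refine ⟨h1, ?_⟩
  have e : ∀ ξ : N → ℝ, -Real.sin (a + b ⬝ᵥ ξ) = Real.cos (a + Real.pi / 2 + b ⬝ᵥ ξ) := fun ξ => by
    rw [add_right_comm, Real.cos_add_pi_div_two]
  simp only [e] at h2
  rw [h2, integral_cos, Real.cos_add_pi_div_two]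
  ring

/-- `cos A cos A' = (cos (A+A') + cos (A-A'))/2`, and `exp (-·)` is 1-Lipschitz on `[0, ∞)`;
`(|b|² + |b'|²)/2 ± b·b' ≥ 0`. -/
theorem cov_cos (a a' : ℝ) (b b' : N → ℝ) :
    |∫ ξ, Real.cos (a + b ⬝ᵥ ξ) * Real.cos (a' + b' ⬝ᵥ ξ) ∂(gpi N) -
      (∫ ξ, Real.cos (a + b ⬝ᵥ ξ) ∂(gpi N)) * ∫ ξ, Real.cos (a' + b' ⬝ᵥ ξ) ∂(gpi N)| ≤
      |b ⬝ᵥ b'| := by
  have e : ∀ ξ : N → ℝ, Real.cos (a + b ⬝ᵥ ξ) * Real.cos (a' + b' ⬝ᵥ ξ)
      = 1 / 2 * (Real.cos (a + a' + (b + b') ⬝ᵥ ξ) + Real.cos (a - a' + (b - b') ⬝ᵥ ξ)) := fun ξ => by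
    rw [add_dotProduct, sub_dotProduct, add_add_add_comm, sub_add_sub_comm,
      Real.cos_add (a + b ⬝ᵥ ξ), Real.cos_sub]
    ring
  simp only [e]
  rw [integral_const_mul, integral_add (gint_cos_int _ _) (gint_cos_int _ _), integral_cos,
    integral_cos, integral_cos, integral_cos]
  have n0 : ∀ v : N → ℝ, 0 ≤ v ⬝ᵥ v := fun v => Finset.sum_nonneg fun i _ => mul_self_nonneg _
  have l1 := gint_lip (div_nonneg (n0 (b + b')) zero_le_two)
    (div_nonneg (add_nonneg (n0 b) (n0 b')) zero_le_two)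
  have l2 := gint_lip (div_nonneg (n0 (b - b')) zero_le_two)
    (div_nonneg (add_nonneg (n0 b) (n0 b')) zero_le_two)
  have e1 : (b + b') ⬝ᵥ (b + b') / 2 - (b ⬝ᵥ b + b' ⬝ᵥ b') / 2 = b ⬝ᵥ b' := by
    rw [add_dotProduct, dotProduct_add, dotProduct_add, dotProduct_comm b' b]; ring
  have e2 : (b - b') ⬝ᵥ (b - b') / 2 - (b ⬝ᵥ b + b' ⬝ᵥ b') / 2 = -(b ⬝ᵥ b') := by
    rw [sub_dotProduct, dotProduct_sub, dotProduct_sub, dotProduct_comm b' b]; ring
  have e3 : Real.exp (-((b ⬝ᵥ b + b' ⬝ᵥ b') / 2))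
      = Real.exp (-(b ⬝ᵥ b) / 2) * Real.exp (-(b' ⬝ᵥ b') / 2) := by
    rw [← Real.exp_add]; congr 1; ring
  rw [e1, e3, ← neg_div] at l1
  rw [e2, e3, ← neg_div, abs_neg] at l2
  have e4 : ∀ x y u v : ℝ, 1 / 2 * (Real.cos (a + a') * x + Real.cos (a - a') * y)
      - Real.cos a * u * (Real.cos a' * v)
      = 1 / 2 * (Real.cos (a + a') * (x - u * v) + Real.cos (a - a') * (y - u * v)) := by
    intro x y u v
    rw [Real.cos_add, Real.cos_sub]; ring
  rw [e4, abs_mul, abs_of_pos (by norm_num : (0 : ℝ) < 1 / 2)]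
  refine (mul_le_mul_of_nonneg_left (abs_add_le _ _) (by norm_num)).trans ?_
  rw [abs_mul, abs_mul]
  have m1 := mul_le_mul (Real.abs_cos_le_one (a + a')) l1 (abs_nonneg _) zero_le_one
  have m2 := mul_le_mul (Real.abs_cos_le_one (a - a')) l2 (abs_nonneg _) zero_le_one
  linarith

end

end Crest.Agent.R166.B
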