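import Crest.Agent.R166.B.Match
import Crest.Agent.R166.B.Gibbs
import Crest.Agent.R166.B.GInt
import Crest.Agent.R166.B.GInt2
import Crest.Agent.R166.B.Basic

/-! # The first-moment (Gibbs) bound -/

set_option autoImplicit false
set_option linter.unusedVariables false
set_option linter.unusedSectionVars false

open MeasureTheory ProbabilityTheory Filter Topology Matrix
open scoped ENNReal BoundedContinuousFunction Kronecker

namespace Crest.Agent.R166.B

section Aux
variable {n D p : ℕ}

theorem avg_comp_eq {A T : Type} [Fintype A] [Fintype T] (τ : A → T) (F : T → ℝ) :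
    (avg fun v => F (τ v)) = ∑ t, (frac fun v => τ v = t) * F t := by
  classical
  simp only [frac, ← avg_mul_const, ← avg_finset_sum]
  refine avg_congr fun v => ?_
  simp

private def lab (Q : Part D p) (T : Fin n → Q.ST) (h : HE n D) : Q.HT := Q.he (T h.1) h.2

private noncomputable def wgt (Q : Part D p) (a : Q.ST → ℝ) (T : Fin n → Q.ST) : ℝ :=
  (∏ v, a (T v) / Q.rk ((T v).2.2 none)) / nComp (lab Q T)

private def TT (Q : Part D p) (ω : Fin n → J) (π : Pairing n D) (y : Fin n × Fin p → ℝ) :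
    Fin n → Q.ST := fun v => Q.τ (starS π.1 ω y v)

private theorem measurable_TT (Q : Part D p) (ω : Fin n → J) (π : Pairing n D) :
    Measurable (TT Q ω π) :=
  measurable_pi_lambda _ fun v => Q.measurable_τ.comp
    ((continuous_starS π.1 v).comp (Continuous.prodMk_right ω)).measurable

private theorem compat (Q : Part D p) (ω : Fin n → J) (π : Pairing n D) (y : Fin n × Fin p → ℝ)
    (h : HE n D) : lab Q (TT Q ω π y) (π.1 h) = (lab Q (TT Q ω π y) h).swap := by
  rw [lab, lab, TT, TT, ← Q.τe_edgeJ, ← Q.τe_edgeJ, ← flipE_edgeJ_starS]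
  rfl

private theorem mem_all (π : Pairing n D) : π.1 ∈ allPairings n D :=
  Finset.mem_filter.2 ⟨Finset.mem_univ _, π.2.1, fun h h' => π.2.2.1 h (congrArg Prod.fst h')⟩

private theorem wgt_nonneg (Q : Part D p) {a : Q.ST → ℝ} (ha : Q.Test a) (T : Fin n → Q.ST) :
    0 ≤ wgt Q a T :=
  div_nonneg (Finset.prod_nonneg fun v _ => div_nonneg (ha.1 _).le (Q.pos _).le) (Nat.cast_nonneg _)

private theorem nComp_ne (Q : Part D p) (ω : Fin n → J) (π : Pairing n D) (y : Fin n × Fin p → ℝ) :
    nComp (lab Q (TT Q ω π y)) ≠ 0 := by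
  refine Finset.card_ne_zero.2 ⟨π.1, ?_⟩
  simp only [Finset.mem_filter]
  exact ⟨mem_all π, compat Q ω π y⟩

private theorem total_le (Q : Part D p) {a : Q.ST → ℝ} (ha : Q.Test a) (ω : Fin n → J) :
    ∑ π : Pairing n D, ∫ y, wgt Q a (TT Q ω π y) ∂(gpi (Fin n × Fin p)) ≤ 1 := by
  classical
  simp only [fun π => (integral_cell (gpi (Fin n × Fin p)) (measurable_TT Q ω π) (wgt Q a)).2]
  rw [Finset.sum_comm]
  have h1 : ∀ T : Fin n → Q.ST, ∑ π : Pairing n D, fr (gpi (Fin n × Fin p)) (TT Q ω π) T * wgt Q a T ≤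
      ∏ v, if (T v).1 = Q.a (ω v) then a (T v) else 0 := fun T => by
    have h0 : 0 ≤ ∏ v, if (T v).1 = Q.a (ω v) then a (T v) else 0 :=
      Finset.prod_nonneg fun v _ => by split_ifs; exacts [(ha.1 _).le, le_rfl]
    have h2 : ∀ π : Pairing n D, fr (gpi (Fin n × Fin p)) (TT Q ω π) T ≤
        (if ∀ h, lab Q T (π.1 h) = (lab Q T h).swap then 1 else 0) *
          ∏ v, if (T v).1 = Q.a (ω v) then Q.rk ((T v).2.2 none) else 0 := fun π => by
      rcases (TT Q ω π ⁻¹' {T}).eq_empty_or_nonempty with h | ⟨y, rfl⟩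
      · rw [fr, h, measureReal_empty]
        refine mul_nonneg (by split_ifs <;> norm_num) (Finset.prod_nonneg fun v _ => ?_)
        split_ifs
        exacts [(Q.pos _).le, le_rfl]
      · rw [if_pos (compat Q ω π y), one_mul, 
          Finset.prod_congr rfl fun v _ => if_pos (show (TT Q ω π y v).1 = Q.a (ω v) from rfl)]
        refine le_trans (measureReal_mono fun y' hy' => ?_)
          (gpi_cells Q.mk' fun v => (TT Q ω π y v).2.2 none).le
        exact fun v => congrArg (fun T : Fin n → Q.ST => (T v).2.2 none) hy'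
    have h3 : ∑ π : Pairing n D, (if ∀ h, lab Q T (π.1 h) = (lab Q T h).swap then (1 : ℝ) else 0) ≤
        nComp (lab Q T) := by
      rw [Finset.sum_boole, nComp, Nat.cast_le]
      refine Finset.card_le_card_of_injOn (fun π => π.1) (fun π hπ => ?_)
        fun π _ π' _ h => Subtype.ext h
      simp only [Finset.coe_filter, Finset.mem_univ, true_and, Set.mem_ofPred_eq] at hπ ⊢
      exact ⟨mem_all π, hπ⟩
    have h4 : (∏ v, if (T v).1 = Q.a (ω v) then Q.rk ((T v).2.2 none) else 0) *
        ∏ v, a (T v) / Q.rk ((T v).2.2 none) = ∏ v, if (T v).1 = Q.a (ω v) then a (T v) else 0 := by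
      rw [← Finset.prod_mul_distrib]
      refine Finset.prod_congr rfl fun v _ => ?_
      split_ifs
      · exact mul_div_cancel₀ _ (Q.pos _).ne'
      · exact zero_mul _
    refine (Finset.sum_le_sum fun π _ =>
      mul_le_mul_of_nonneg_right (h2 π) (wgt_nonneg Q ha T)).trans ?_
    simp only [mul_assoc]
    rw [← Finset.sum_mul, wgt, ← mul_div_assoc, h4]
    refine (mul_le_mul_of_nonneg_right h3 (div_nonneg h0 (Nat.cast_nonneg _))).trans ?_
    rw [← mul_div_assoc, mul_comm, mul_div_assoc]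
    exact mul_le_of_le_one_right h0 (div_self_le_one _)
  refine (Finset.sum_le_sum fun T _ => h1 T).trans ?_
  rw [← Fintype.piFinset_univ,
    ← Finset.prod_univ_sum (fun _ => Finset.univ) fun v t => if t.1 = Q.a (ω v) then a t else 0]
  refine Finset.prod_le_one (fun v _ => Finset.sum_nonneg fun t _ => ?_) fun v _ => ha.2 _
  split_ifs
  exacts [(ha.1 _).le, le_rfl]

private theorem log_wgt (hn : 0 < n) (Q : Part D p) {a : Q.ST → ℝ} (ha : Q.Test a)
    {T : Fin n → Q.ST} (h0 : nComp (lab Q T) ≠ 0) :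
    0 < wgt Q a T ∧ -(Real.log (allPairings n D).card +
      Fintype.card Q.HT * (1 + Real.log (n * (D + 1) + 1))) -
      n * Q.Xi a (fun t => frac fun v => T v = t) ≤ Real.log (wgt Q a T) := by
  have h1 : ∀ v, 0 < a (T v) / Q.rk ((T v).2.2 none) := fun v => div_pos (ha.1 _) (Q.pos _)
  have h2 : (0 : ℝ) < nComp (lab Q T) := Nat.cast_pos.2 (Nat.pos_of_ne_zero h0)
  have h3 := Finset.prod_pos (s := Finset.univ) fun v _ => h1 v
  refine ⟨div_pos h3 h2, ?_⟩
  have h4 := log_nComp_le (lab Q T) h0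
  have h5 : ∀ b, (frac fun h => lab Q T h = b) =
      avg fun j => ∑ t, if Q.he t j = b then frac fun v => T v = t else 0 := fun b => by
    rw [frac, avg_prod, avg_comm]
    refine avg_congr fun j => ?_
    classical
    have := avg_comp_eq T fun t => if Q.he t j = b then 1 else 0
    simp only [mul_ite, mul_one, mul_zero] at this
    rw [← this]
    exact avg_congr fun v => by rw [lab]; congr
  have h6 := avg_comp_eq T fun t => Real.log (Q.rk (t.2.2 none)) - Real.log (a t)
  rw [avg, Fintype.card_fin, div_eq_iff (Nat.cast_pos.2 hn).ne'] at h6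
  rw [wgt, Real.log_div h3.ne' h2.ne', Real.log_prod fun v _ => (h1 v).ne', Part.Xi, mul_sub,
    mul_comm (n : ℝ) (∑ _, _), ← h6, Finset.sum_congr rfl fun v _ =>
      Real.log_div (ha.1 (T v)).ne' (show Q.rk ((T v).2.2 none) ≠ 0 from (Q.pos _).ne')]
  simp only [h5, Finset.sum_sub_distrib] at h4 ⊢
  linarith

end Aux

/-- `T π y v = Q.τ (starS π ω y v)`, `ℓ π y h = Q.he (T π y h.1) h.2`;  `π` is compatible with
`ℓ π y` (`Part.τe_edgeJ`, `flipE_edgeJ_starS`).  Put
`q π y = Π_v (a (T v) / Q.rk ((T v).2.2 none)) / nComp ℓ`.  Then `Σ_π ∫ q π y dγ ≤ 1`: expand over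
the values `T₀ : Fin n → Q.ST`; `T π y = T₀` forces compatibility of `π` with `Q.he ∘ T₀`,
`(T₀ v).1 = Q.a (ω v)` and `Q.k (y v) = (T₀ v).2.2 none` (`gpi_cells`), then
`Finset.prod_univ_sum` and `Q.Test`.  `gibbs` with `f = |𝓑| q π` for each `π ∈ 𝓑`, average over
`𝓑`, and `log_nComp_le` (`frac (ℓ = b) = avg_j Σ_{t : he t j = b} frac (T = t)`). -/
theorem count_bound {n D p : ℕ} (hn : 0 < n) (Q : Part D p) {a : Q.ST → ℝ} (ha : Q.Test a)
    (ω : Fin n → J) (𝓑 : Finset (Pairing n D)) (hne : 𝓑.Nonempty)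
    (ν : Pairing n D → Measure (Fin n × Fin p → ℝ)) [∀ π, IsProbabilityMeasure (ν π)]
    (ρ : Pairing n D → (Fin n × Fin p → ℝ) → ℝ) (hρm : ∀ π, Measurable (ρ π))
    (hρ0 : ∀ π y, 0 < ρ π y)
    (hν : ∀ π, ν π = (gpi (Fin n × Fin p)).withDensity fun y => ENNReal.ofReal (ρ π y))
    (hi : ∀ π, Integrable (fun y => Real.log (ρ π y)) (ν π)) :
    ∃ π ∈ 𝓑, Real.log 𝓑.card ≤ Real.log (allPairings n D).card +
      Fintype.card Q.HT * (1 + Real.log (n * (D + 1) + 1)) + ∫ y, Real.log (ρ π y) ∂(ν π) +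
      n * ∫ y, Q.Xi a (fun t => frac fun v => Q.τ (starS π.1 ω y v) = t) ∂(ν π) := by
  have hc : (0 : ℝ) < 𝓑.card := Nat.cast_pos.2 hne.card_pos
  set K := Real.log (allPairings n D).card + Fintype.card Q.HT * (1 + Real.log (n * (D + 1) + 1))
  have h1 : ∀ π, Real.log 𝓑.card - (K + ∫ y, Real.log (ρ π y) ∂(ν π) +
      n * ∫ y, Q.Xi a (fun t => frac fun v => Q.τ (starS π.1 ω y v) = t) ∂(ν π)) ≤
      𝓑.card * ∫ y, wgt Q a (TT Q ω π y) ∂(gpi (Fin n × Fin p)) - 1 := fun π => by
    have hm := measurable_TT Q ω π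
    have k0 := fun y => log_wgt hn Q ha (nComp_ne Q ω π y)
    have k1 := (integral_cell (ν π) hm fun T => Real.log (𝓑.card * wgt Q a T)).1
    have k2 := (integral_cell (ν π) hm fun T => Q.Xi a fun t => frac fun v => T v = t).1
    have k3 := gibbs (hρm π) (hρ0 π) (hν π) (f := fun y => 𝓑.card * wgt Q a (TT Q ω π y))
      (((measurable_of_finite (wgt Q a)).comp hm).const_mul _)
      (fun y => mul_nonneg hc.le (k0 y).1.le) ((integral_cell _ hm (wgt Q a)).1.const_mul _)
      (ae_of_all _ fun y => mul_pos hc (k0 y).1) (hi π) k1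
    have k4 := integral_mono ((integrable_const (Real.log 𝓑.card - K)).sub (k2.const_mul n)) k1
      fun y => by
        have := (k0 y).2
        simp only [Pi.sub_apply]
        rw [Real.log_mul hc.ne' (k0 y).1.ne']
        linarith
    simp only [Pi.sub_apply] at k4
    rw [integral_sub (integrable_const _) (k2.const_mul n), integral_const_mul] at k4
    rw [integral_const_mul] at k3
    simp only [integral_const, probReal_univ, smul_eq_mul, one_mul, TT] at k3 k4 ⊢
    linarith
  obtain ⟨π, h2, h3⟩ := Finset.exists_le_of_sum_le hne (g := fun _ => (0 : ℝ))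
    ((Finset.sum_le_sum fun π _ => h1 π).trans (by
      rw [Finset.sum_sub_distrib, ← Finset.mul_sum, Finset.sum_const, Finset.sum_const_zero,
        nsmul_eq_mul, mul_one, sub_nonpos]
      refine mul_le_of_le_one_right hc.le (le_trans ?_ (total_le Q ha ω))
      exact Finset.sum_le_sum_of_subset_of_nonneg (Finset.subset_univ _) fun π _ _ =>
        integral_nonneg fun y => wgt_nonneg Q ha _))
  exact ⟨π, h2, sub_nonpos.1 h3⟩

theorem Part.continuous_Xi {D p : ℕ} (Q : Part D p) (a : Q.ST → ℝ) : Continuous (Q.Xi a) := by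
  refine (continuous_finsetSum _ fun t _ => (continuous_apply t).mul continuous_const).sub
    (continuous_const.mul (continuous_finsetSum _ fun h _ => Real.continuous_negMulLog.comp
      (Continuous.div_const (continuous_finsetSum _ fun j _ => continuous_finsetSum _ fun t _ => ?_) _)))
  split_ifs
  exacts [continuous_apply t, continuous_const]

end Crest.Agent.R166.B
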