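import Crest.Agent.R166.B.LogDet0
import Crest.Agent.R166.G7
import Crest.Agent.R166.G8

/-! # The logarithmic determinant -/

set_option autoImplicit false
set_option linter.unusedVariables false
set_option linter.unusedSectionVars false

open MeasureTheory ProbabilityTheory Filter Topology Matrix
open scoped ENNReal BoundedContinuousFunction Kronecker

namespace Crest.Agent.R166.B

theorem LogDet_tr (D : ℕ) (s : ℝ) (β : Measure J) [IsProbabilityMeasure β] {w : ℂ}
    (hw : 0 < w.im) {δ ε : ℝ} (hδ : 0 < δ) (hε : 0 < ε) : ∀ᶠ n in atTop,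
      POm n D β {o | (avg fun l => (1 / ((evs (ham s o.1.1 o.2) l : ℂ) - w)).im) <
        ∫ σ, (gO (((s * (σ.1 : ℝ) : ℝ) : ℂ)) w (fun i => mT s w (σ.2 i))).im ∂(starLaw D β) - δ} ≤
          ENNReal.ofReal ε := by
  obtain ⟨k, hk⟩ := locality D s hw (show 0 < δ / 3 by positivity)
  obtain ⟨hc, h0⟩ := T6den_spec (D := D) s hw
  let F : C(StarEnv D, ℝ) := ⟨fun σ => (1 / T6den s w σ).im,
    Complex.continuous_im.comp (continuous_const.div hc h0)⟩
  have hF : ∀ σ, F σ ≤ 1 / w.im := fun σ =>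
    ((le_abs_self _).trans (Complex.abs_im_le_norm _)).trans
      (T0a_norm hw _ fun c => T0a_mT hw (σ.2 c))
  set θ := min (min (δ / 3) (δ / 3 * w.im)) (ε / 2) with hθ
  have hθ0 : 0 < θ := by positivity
  have hθ1 : θ ≤ δ / 3 := (min_le_left _ _).trans (min_le_left _ _)
  have hθ2 : θ ≤ δ / 3 * w.im := (min_le_left _ _).trans (min_le_right _ _)
  have hθ3 : θ ≤ ε / 2 := min_le_right _ _
  filter_upwards [treeLike_whp D k β hθ0, env_lln D β F hθ0] with n h1 h2
  refine le_trans (measure_mono (t := _ ∪ _) fun o ho => ?_) ((measure_union_le _ _).trans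
    ((add_le_add h1 h2).trans ?_))
  · by_contra hn
    rw [Set.mem_union, not_or, Set.mem_ofPred_eq, Set.mem_ofPred_eq, not_lt, not_lt] at hn
    obtain ⟨a1, a2⟩ := hn
    have hs := ham_isSymm o.1.2.1 s o.2
    have e1 : (avg fun l => (1 / ((evs (ham s o.1.1 o.2) l : ℂ) - w)).im) =
        avg fun x => (res (ham s o.1.1 o.2) w x x).im := by
      have := congrArg Complex.im (trace_res_evs hs hw.ne')
      rw [Matrix.trace, Complex.im_sum, Complex.im_sum] at this
      unfold avg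
      rw [← this]
      rfl
    have e2 : (avg fun x => F (starH o.1.1 o.2 x)) ≤ avg fun x =>
        (res (ham s o.1.1 o.2) w x x).im + δ / 3 +
          1 / w.im * @ite ℝ (¬ TreeLike o.1.1 x k) (Classical.propDecidable _) 1 0 := by
      refine avg_mono fun x => ?_
      by_cases hx : TreeLike o.1.1 x k
      · have a3 := ((neg_le_abs _).trans (Complex.abs_im_le_norm _)).trans (hk n o.1 o.2 x hx none none)
        rw [Complex.sub_im] at a3
        rw [if_neg (not_not.2 hx), mul_zero, add_zero]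
        have e : F (starH o.1.1 o.2 x) = (gC (((s * (o.2 x : ℝ) : ℝ) : ℂ)) w
          (fun i => mT s w (envH o.1.1 o.2 (o.1.1 (x, i)))) none none).im := rfl
        have e' : (res (ham s o.1.1 o.2) w x x).im =
          (res (ham s o.1.1 o.2) w (starV o.1.1 x none) (starV o.1.1 x none)).im := rfl
        linarith
      · have a3 : 0 ≤ (res (ham s o.1.1 o.2) w x x).im := by
          rw [ward_diag hs hw.ne']
          positivity
        rw [if_pos hx, mul_one]
        linarith [hF (starH o.1.1 o.2 x)]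
    rw [avg_add, avg_add, avg_const_mul] at e2
    have e3 : (avg fun _ : Fin n => δ / 3) ≤ δ / 3 := avg_le_of_le (by positivity) fun _ => le_rfl
    have e4 : 1 / w.im * frac (fun x => ¬ TreeLike o.1.1 x k) ≤ δ / 3 := by
      calc _ ≤ 1 / w.im * (δ / 3 * w.im) := by gcongr; exact a1.trans hθ2
        _ = _ := by field_simp
    have e5 := (abs_le.1 a2).1
    have e6 : (avg fun l => (1 / ((evs (ham s o.1.1 o.2) l : ℂ) - w)).im) <
      ∫ σ, F σ ∂(starLaw D β) - δ := ho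
    change _ ≤ _ + 1 / w.im * frac (fun x => ¬ TreeLike o.1.1 x k) at e2
    linarith
  · rw [← ENNReal.ofReal_add hθ0.le hθ0.le]
    exact ENNReal.ofReal_le_ofReal (by linarith)

theorem LogDet_log (lam E y : ℝ) :
    Real.log ‖(lam : ℂ) - (E + y * Complex.I)‖ = Real.log ((lam - E) ^ 2 + y ^ 2) / 2 := by
  have : (lam - E) ^ 2 + y ^ 2 = ‖(lam : ℂ) - (E + y * Complex.I)‖ ^ 2 := by
    rw [← Complex.normSq_eq_norm_sq, Complex.normSq_apply]
    simp
    ring
  rw [this, Real.log_pow]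
  push_cast
  ring

theorem LogDet_im (lam E y : ℝ) :
    (1 / ((lam : ℂ) - (E + y * Complex.I))).im = y / ((lam - E) ^ 2 + y ^ 2) := by
  rw [one_div, Complex.inv_im, Complex.normSq_apply]
  simp
  ring

theorem LogDet_step (lam E : ℝ) {η a ξ Δ : ℝ} (hη : 0 < η) (ha : η ≤ a) (h1 : a ≤ ξ)
    (h2 : ξ ≤ a + Δ) :
    Δ * (1 / ((lam : ℂ) - (E + ξ * Complex.I))).im - 3 * Δ ^ 2 / η ^ 2 ≤
      Real.log ‖(lam : ℂ) - (E + (a + Δ : ℝ) * Complex.I)‖ -
        Real.log ‖(lam : ℂ) - (E + a * Complex.I)‖ := by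
  rw [LogDet_log, LogDet_log, LogDet_im]
  have ht := sq_nonneg (lam - E)
  generalize (lam - E) ^ 2 = t at *
  have hΔ : 0 ≤ Δ := by linarith
  have ha0 : 0 < a := by linarith
  have hξ : 0 < ξ := by linarith
  set b := a + Δ with hb
  have hb0 : 0 < b := by linarith
  have hA : 0 < t + a ^ 2 := by positivity
  have hP : 0 < t + ξ ^ 2 := by positivity
  have hQ : 0 < t + b ^ 2 := by positivity
  have h3 := Real.log_le_sub_one_of_pos (div_pos hA hQ)
  rw [Real.log_div hA.ne' hQ.ne'] at h3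
  have h4 : (t + a ^ 2) / (t + b ^ 2) - 1 ≤ -(2 * (Δ * (a / (t + b ^ 2)))) := by
    have : (t + a ^ 2) / (t + b ^ 2) - 1 + 2 * (Δ * (a / (t + b ^ 2))) = -(Δ ^ 2 / (t + b ^ 2)) := by
      field_simp
      rw [hb]
      ring
    have : 0 ≤ Δ ^ 2 / (t + b ^ 2) := by positivity
    linarith
  have h5 : ξ / (t + ξ ^ 2) - a / (t + b ^ 2) ≤ 3 * Δ / η ^ 2 := by
    have e : ξ / (t + ξ ^ 2) - a / (t + b ^ 2) =
        (ξ - a) / (t + ξ ^ 2) + (b - ξ) / (t + ξ ^ 2) * (a * (b + ξ) / (t + b ^ 2)) := by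
      field_simp
      ring
    have p1 : η ^ 2 ≤ t + ξ ^ 2 := by nlinarith
    have p2 : (ξ - a) / (t + ξ ^ 2) ≤ Δ / η ^ 2 := by gcongr; linarith
    have p3 : (b - ξ) / (t + ξ ^ 2) ≤ Δ / η ^ 2 := by gcongr; linarith
    have p4 : a * (b + ξ) / (t + b ^ 2) ≤ 2 := by
      rw [div_le_iff₀ hQ]
      nlinarith
    have p5 : (b - ξ) / (t + ξ ^ 2) * (a * (b + ξ) / (t + b ^ 2)) ≤ Δ / η ^ 2 * 2 :=
      mul_le_mul p3 p4 (by positivity) (by positivity)
    have p6 : 3 * Δ / η ^ 2 = Δ / η ^ 2 + Δ / η ^ 2 * 2 := by ring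
    linarith
  have h6 := mul_le_mul_of_nonneg_left h5 hΔ
  have h7 : Δ * (3 * Δ / η ^ 2) = 3 * Δ ^ 2 / η ^ 2 := by ring
  linarith

theorem LogDet_top {lam E Y A : ℝ} (hY : 0 < Y) (h : |lam - E| ≤ A) :
    Real.log ‖(lam : ℂ) - (E + Y * Complex.I)‖ ≤ Real.log Y + A / Y := by
  have hA : 0 ≤ A := (abs_nonneg _).trans h
  have h1 : Real.log ((lam - E) ^ 2 + Y ^ 2) ≤ Real.log ((Y + A) ^ 2) := by
    refine Real.log_le_log (by positivity) ?_
    have := pow_le_pow_left₀ (abs_nonneg _) h 2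
    rw [sq_abs] at this
    nlinarith
  have h2 := Real.log_le_sub_one_of_pos (show 0 < (Y + A) / Y by positivity)
  rw [Real.log_div (by positivity) hY.ne', add_div, div_self hY.ne'] at h2
  rw [Real.log_pow] at h1
  rw [LogDet_log]
  push_cast at h1
  linarith

/-- `z = E + iη`, `b y = bethe (E + i y)`, `f_λ y = log |λ - E - i y|`, `f_λ' y = Im 1/(λ - E - i y)`,
which is `η⁻²`-Lipschitz on `[η, ∞)`.  Choose `Y` with `log Y ≤ b Y + ε` (`bethe_atTop`) and
`f_λ Y ≤ log Y + ε` for `|λ| ≤ D + 1 + |s|` (`abs_evs_ham_le`).  On a grid `η = y₀ < … < y_N = Y`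
of mesh `Δ` the mean value theorem for `b` (`bethe_hasDerivAt`) gives `ξ_k` with
`b y_{k+1} - b y_k = Δ E Im gO (E + i ξ_k)`, and `f_λ y_{k+1} - f_λ y_k ≥ Δ f_λ' ξ_k - Δ² / η²`.
`avg_l f_{λ_l}' ξ = avg_x Im G_xx (E + i ξ)` (`trace_res_evs`), which is within `ε` of `E Im gO` with
high probability (`locality`, `treeLike_mean` + Markov, `env_lln`, `continuous_mT`). -/
theorem logdet_whp (D : ℕ) (s : ℝ) (β : Measure J) [IsProbabilityMeasure β] {z : ℂ}
    (hz : 0 < z.im) {ε : ℝ} (hε : 0 < ε) : ∀ᶠ n in atTop,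
      POm n D β {o | bethe D s β z + ε <
        avg fun l => Real.log ‖(evs (ham s o.1.1 o.2) l : ℂ) - z‖} ≤ ENNReal.ofReal ε := by
  obtain ⟨E, η, rfl⟩ : ∃ E η : ℝ, z = E + η * Complex.I := ⟨z.re, z.im, (Complex.re_add_im z).symm⟩
  have him : ∀ y : ℝ, ((E : ℂ) + y * Complex.I).im = y := fun y => by simp
  rw [him] at hz
  set A : ℝ := D + 1 + |s| + |E| with hA
  set b : ℝ → ℝ := fun y => bethe D s β (E + y * Complex.I) with hb
  set g : ℝ → ℝ := fun y => ∫ σ, (gO (((s * (σ.1 : ℝ) : ℝ) : ℂ)) (E + y * Complex.I)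
    (fun i => mT s (E + y * Complex.I) (σ.2 i))).im ∂(starLaw D β) with hg
  have hd : ∀ y, 0 < y → HasDerivAt b (g y) y := fun y hy => bethe_hasDerivAt D s β E hy
  obtain ⟨Y, hY1, hY2, hY3⟩ := (((bethe_atTop D s β E).eventually
    (lt_mem_nhds (show -(ε / 4) < 0 by linarith))).and ((eventually_gt_atTop η).and
      (eventually_ge_atTop (A / (ε / 4))))).exists
  have hY0 : 0 < Y := hz.trans hY2
  have hL : 0 < Y - η := sub_pos.2 hY2
  have hY4 : A / Y ≤ ε / 4 := by
    rw [div_le_iff₀ (by positivity)] at hY3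
    rw [div_le_iff₀' hY0]
    exact hY3
  obtain ⟨N, hN⟩ := exists_nat_gt (3 * (Y - η) ^ 2 / η ^ 2 / (ε / 4))
  have hN0 : (0 : ℝ) < N := lt_trans (by positivity) hN
  set Δ := (Y - η) / N with hΔ
  have hΔ0 : 0 < Δ := by positivity
  have hmv : ∀ k : ℕ, ∃ ξ, η + k * Δ ≤ ξ ∧ ξ ≤ η + k * Δ + Δ ∧
      b (η + k * Δ + Δ) - b (η + k * Δ) = Δ * g ξ := fun k => by
    have h0 : 0 < η + k * Δ := by positivity
    obtain ⟨ξ, h1, h2⟩ := exists_hasDerivAt_eq_slope b g (lt_add_of_pos_right _ hΔ0)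
      (fun y hy => (hd y (h0.trans_le hy.1)).continuousAt.continuousWithinAt)
      fun y hy => hd y (h0.trans hy.1)
    refine ⟨ξ, h1.1.le, h1.2.le, ?_⟩
    rw [h2, add_sub_cancel_left]
    field_simp
  choose ξ hξ1 hξ2 hξ3 using hmv
  have hξ0 : ∀ k, 0 < ((E : ℂ) + ξ k * Complex.I).im := fun k => by
    rw [him]
    exact lt_of_lt_of_le (by positivity) (hξ1 k)
  have hev := (eventually_all_finset (Finset.range N)).2 fun k _ =>
    LogDet_tr D s β (hξ0 k) (show 0 < ε / 4 / (Y - η) by positivity) (show 0 < ε / N by positivity)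
  filter_upwards [hev, eventually_gt_atTop 0] with n hn hn0
  have : Nonempty (Fin n) := ⟨⟨0, hn0⟩⟩
  refine le_trans (measure_mono fun o ho => ?_) ((measure_biUnion_finset_le _ _).trans
    ((Finset.sum_le_sum hn).trans (le_of_eq ?_)))
  · by_contra hno
    simp only [Set.mem_iUnion, Set.mem_ofPred_eq, not_exists, not_lt] at hno
    set φ : ℝ → ℝ := fun y =>
      avg fun l => Real.log ‖(evs (ham s o.1.1 o.2) l : ℂ) - (E + y * Complex.I)‖ with hφ
    have h1 : b η + ε < φ η := ho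
    have h2 : φ Y ≤ Real.log Y + ε / 4 := by
      refine (avg_mono fun l => (LogDet_top (A := A) hY0 ?_).trans (add_le_add le_rfl hY4)).trans
        (avg_const _).le
      exact (abs_sub _ _).trans (add_le_add (abs_evs_ham_le o.1.2.1 s o.2 l) le_rfl)
    have h3 : ∀ k ∈ Finset.range N, -(Δ * (ε / 4 / (Y - η)) + 3 * Δ ^ 2 / η ^ 2) ≤
        (φ (η + (k + 1 : ℕ) * Δ) - b (η + (k + 1 : ℕ) * Δ)) - (φ (η + k * Δ) - b (η + k * Δ)) := by
      intro k hk
      have e : η + (k + 1 : ℕ) * Δ = η + k * Δ + Δ := by push_cast; ring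
      have a1 := avg_mono fun l => LogDet_step (evs (ham s o.1.1 o.2) l) E hz
        (le_add_of_nonneg_right (by positivity)) (hξ1 k) (hξ2 k)
      rw [avg_sub, avg_sub, avg_const, avg_const_mul] at a1
      have a2 : g (ξ k) - ε / 4 / (Y - η) ≤ _ := hno k hk
      have a3 := mul_le_mul_of_nonneg_left a2 hΔ0.le
      have a4 := hξ3 k
      change _ ≤ φ (η + k * Δ + Δ) - φ (η + k * Δ) at a1
      rw [e]
      linarith
    have h4 := Finset.sum_le_sum h3
    rw [Finset.sum_range_sub (fun k : ℕ => φ (η + k * Δ) - b (η + k * Δ)), Finset.sum_const,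
      Finset.card_range, nsmul_eq_mul, Nat.cast_zero, zero_mul, add_zero,
      show η + N * Δ = Y by rw [hΔ]; field_simp; ring] at h4
    have h5 : N * (Δ * (ε / 4 / (Y - η))) = ε / 4 := by rw [hΔ]; field_simp
    have h6 : N * (3 * Δ ^ 2 / η ^ 2) ≤ ε / 4 := by
      rw [div_lt_iff₀ (by positivity)] at hN
      have : N * (3 * Δ ^ 2 / η ^ 2) = 3 * (Y - η) ^ 2 / η ^ 2 / N := by rw [hΔ]; field_simp
      rw [this, div_le_iff₀' hN0]
      exact hN.le
    have h7 : -(ε / 4) < b Y - Real.log Y := hY1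
    linarith
  · rw [Finset.sum_const, Finset.card_range, nsmul_eq_mul, ← ENNReal.ofReal_natCast,
      ← ENNReal.ofReal_mul hN0.le, mul_div_cancel₀ _ hN0.ne']

end Crest.Agent.R166.B
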