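import Crest.Agent.R166.B.Typ
import Crest.Agent.R166.B.LogDet

/-! # The filter of good configurations -/

set_option autoImplicit false
set_option linter.unusedVariables false
set_option linter.unusedSectionVars false

open MeasureTheory ProbabilityTheory Filter Topology Matrix
open scoped ENNReal BoundedContinuousFunction Kronecker

namespace Crest.Agent.R166.B

private theorem Filt_tree_anti {n D : ℕ} {π : Equiv.Perm (HE n D)} {x : Fin n} {k m : ℕ}
    (hkm : k ≤ m) (h : TreeLike π x m) : TreeLike π x k :=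
  ⟨fun i l hl => h.1 i l (hl.trans hkm),
    fun i i' l l' hl hl' => h.2 i i' l l' (hl.trans hkm) (hl'.trans hkm)⟩

private theorem Filt_meas {n D p : ℕ} (μ : Measure (SX D p)) (Φ : Finset (SX D p →ᵇ ℝ)) (ε L : ℝ) :
    MeasurableSet {o : Om n D | ∃ x : Fin n × Fin p → ℝ,
      (∀ k, |x k| ≤ L) ∧ Near μ Φ ε o.1.1 o.2 x} := by
  have key : ∀ π : Pairing n D, MeasurableSet {ω : Fin n → J | ∃ x : Fin n × Fin p → ℝ,
      (∀ k, |x k| ≤ L) ∧ Near μ Φ ε π.1 ω x} := by
    intro π
    have hK : IsCompact {w : (Fin n → J) × (Fin n × Fin p → ℝ) |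
        (∀ k, |w.2 k| ≤ L) ∧ Near μ Φ ε π.1 w.1 w.2} := by
      have h0 : IsCompact ((Set.univ : Set (Fin n → J)) ×ˢ
          (Set.univ.pi fun _ : Fin n × Fin p => Set.Icc (-L) L)) :=
        isCompact_univ.prod (isCompact_univ_pi fun _ => isCompact_Icc)
      refine h0.of_isClosed_subset ?_ ?_
      · refine IsClosed.inter ?_ ?_
        · show IsClosed {w : (Fin n → J) × (Fin n × Fin p → ℝ) | ∀ k, |w.2 k| ≤ L}
          rw [Set.setOf_forall]
          exact isClosed_iInter fun k => isClosed_le (by fun_prop) continuous_const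
        · show IsClosed {w : (Fin n → J) × (Fin n × Fin p → ℝ) | ∀ f ∈ Φ,
            |(avg fun v => f (starS π.1 w.1 w.2 v)) - ∫ q, f q ∂μ| ≤ ε}
          simp only [Set.setOf_forall]
          refine isClosed_iInter fun f => isClosed_iInter fun _ => isClosed_le ?_ continuous_const
          refine Continuous.abs (Continuous.sub ?_ continuous_const)
          unfold avg
          exact (continuous_finsetSum _ fun v _ =>
            f.continuous.comp (continuous_starS π.1 v)).div_const _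
      · intro w hw
        exact ⟨trivial, fun k _ => abs_le.1 (hw.1 k)⟩
    have h1 := (hK.image continuous_fst).isClosed.measurableSet
    convert h1 using 1
    ext ω
    constructor
    · rintro ⟨x, hx⟩
      exact ⟨(ω, x), hx, rfl⟩
    · rintro ⟨w, hw, rfl⟩
      exact ⟨w.2, hw⟩
  have e : {o : Om n D | ∃ x : Fin n × Fin p → ℝ, (∀ k, |x k| ≤ L) ∧ Near μ Φ ε o.1.1 o.2 x} =
      ⋃ π : Pairing n D, ({π} : Set (Pairing n D)) ×ˢ {ω : Fin n → J | ∃ x : Fin n × Fin p → ℝ,
        (∀ k, |x k| ≤ L) ∧ Near μ Φ ε π.1 ω x} := by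
    ext o
    simp only [Set.mem_iUnion, Set.mem_prod, Set.mem_singleton_iff, Set.mem_setOf_eq]
    constructor
    · intro h
      exact ⟨o.1, rfl, h⟩
    · rintro ⟨π, rfl, h⟩
      exact h
  rw [e]
  exact MeasurableSet.iUnion fun π => (measurableSet_singleton π).prod (key π)

/-- the basic sets -/
private def Filt_T {D p : ℕ} (s : ℝ) (β : Measure J) (z : ℂ) (L : ℝ) (μ : Measure (SX D p))
    (i : Finset (SX D p →ᵇ ℝ) × ℕ) : Set (Cfg D p) :=
  {c | i.2 ≤ c.n ∧ (∀ k, |c.x k| ≤ L) ∧ Near μ i.1 (1 / ((i.2 : ℝ) + 1)) c.π.1 c.ω c.x ∧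
    (frac fun v => ¬ TreeLike c.π.1 v i.2) ≤ 1 / ((i.2 : ℝ) + 1) ∧
    (avg fun l => Real.log ‖(evs (ham s c.π.1 c.ω) l : ℂ) - z‖) ≤
      bethe D s β z + 1 / ((i.2 : ℝ) + 1)}

private theorem Filt_T_anti {D p : ℕ} (s : ℝ) (β : Measure J) (z : ℂ) (L : ℝ)
    (μ : Measure (SX D p)) : Antitone (Filt_T s β z L μ) := by
  intro i j hij c hc
  obtain ⟨h1, h2, h3, h4, h5⟩ := hc
  have hm : i.2 ≤ j.2 := hij.2
  have hε : 1 / ((j.2 : ℝ) + 1) ≤ 1 / ((i.2 : ℝ) + 1) := Nat.one_div_le_one_div hm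
  refine ⟨hm.trans h1, h2, fun f hf => (h3 f (hij.1 hf)).trans hε, ?_, by linarith⟩
  exact (frac_mono fun v hv h => hv (Filt_tree_anti hm h)).trans (h4.trans hε)

/-- `F = ⨅ (Φ, ε, k, n₀), 𝓟 {c | n₀ ≤ c.n, bounded, Near μ Φ ε, frac ¬TreeLike k ≤ ε, logdet ≤ bethe + ε}`
(a directed family: `TreeLike` is antitone in the depth; `Filter.hasBasis_iInf_principal`).
For a basic set: with `c` from `TypB` and `ε' = min ε (c/4)`, remove the events of `treeLike_whp`,
`logdet_whp`; the remaining set `S = {o | tree ∧ logdet ∧ ∃ x, bounded ∧ Near}` has mass `≥ c/2` and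
is measurable (for each pairing, `{ω | ∃ x, ..}` is the projection of a compact set,
`continuous_starS`; `measurable_evs_ham`); `POm_le_of_frac` gives `ω` with `frac > c/4`. -/
theorem exists_filter {D p : ℕ} (s : ℝ) {β : Measure J} [IsProbabilityMeasure β] {z : ℂ}
    (hz : 0 < z.im) {L : ℝ} {μ : Measure (SX D p)} [IsProbabilityMeasure μ] (h : TypB β L μ) :
    ∃ F : Filter (Cfg D p), Conv s β z L μ F ∧ ∀ S ∈ F, ∃ c : ℝ, 0 < c ∧ ∃ᶠ n in atTop,
      ∃ ω : Fin n → J, c ≤ frac fun π : Pairing n D => ∃ x, (⟨n, π, ω, x⟩ : Cfg D p) ∈ S := by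
  classical
  have hdir : Directed (· ≥ ·) (Filt_T s β z L μ) := (Filt_T_anti s β z L μ).directed_ge
  have hb := Filter.hasBasis_iInf_principal hdir
  have hmem : ∀ i, ∀ᶠ c in ⨅ i, 𝓟 (Filt_T s β z L μ i), c ∈ Filt_T s β z L μ i :=
    fun i => hb.mem_of_mem (i := i) trivial
  refine ⟨⨅ i, 𝓟 (Filt_T s β z L μ i), ⟨?_, ?_, ?_, ?_, ?_⟩, ?_⟩
  · exact tendsto_atTop.2 fun b => (hmem (∅, b)).mono fun c hc => hc.1
  · intro f
    refine Metric.tendsto_nhds.2 fun ε hε => ?_
    obtain ⟨m, hm⟩ := exists_nat_one_div_lt hε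
    refine (hmem ({f}, m)).mono fun c hc => ?_
    rw [Real.dist_eq]
    exact lt_of_le_of_lt (hc.2.2.1 f (Finset.mem_singleton_self f)) hm
  · intro k
    refine Metric.tendsto_nhds.2 fun ε hε => ?_
    obtain ⟨m, hm⟩ := exists_nat_one_div_lt hε
    refine (hmem (∅, max k m)).mono fun c hc => ?_
    rw [Real.dist_eq, sub_zero, abs_of_nonneg (frac_nonneg _)]
    have h1 : (frac fun v => ¬ TreeLike c.π.1 v k) ≤ frac fun v => ¬ TreeLike c.π.1 v (max k m) :=
      frac_mono fun v hv h => hv (Filt_tree_anti (le_max_left _ _) h)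
    have h2 : 1 / (((max k m : ℕ) : ℝ) + 1) ≤ 1 / ((m : ℝ) + 1) :=
      Nat.one_div_le_one_div (le_max_right _ _)
    exact lt_of_le_of_lt (h1.trans (hc.2.2.2.1.trans h2)) hm
  · exact (hmem (∅, 0)).mono fun c hc => hc.2.1
  · intro ε hε
    obtain ⟨m, hm⟩ := exists_nat_one_div_lt hε
    refine (hmem (∅, m)).mono fun c hc => ?_
    have := hc.2.2.2.2
    simp only at this
    linarith
  · intro S hS
    obtain ⟨⟨Φ, m⟩, -, hT⟩ := hb.mem_iff.1 hS
    have hε : (0 : ℝ) < 1 / ((m : ℝ) + 1) := Nat.one_div_pos_of_nat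
    obtain ⟨c, hc, hfr⟩ := h Φ _ hε
    have hε' : 0 < min (1 / ((m : ℝ) + 1)) (c / 4) := lt_min hε (by linarith)
    refine ⟨c / 4, by linarith, ?_⟩
    refine (hfr.and_eventually ((treeLike_whp D m β hε').and ((logdet_whp D s β hz hε').and
      (eventually_ge_atTop m)))).mono ?_
    rintro n ⟨hA, hB1, hB2, hn⟩
    set ε' := min (1 / ((m : ℝ) + 1)) (c / 4) with hε'def
    have hle1 : ε' ≤ 1 / ((m : ℝ) + 1) := min_le_left _ _
    have hle2 : ε' ≤ c / 4 := min_le_right _ _
    set A : Set (Om n D) := {o | ∃ x : Fin n × Fin p → ℝ,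
      (∀ k, |x k| ≤ L) ∧ Near μ Φ (1 / ((m : ℝ) + 1)) o.1.1 o.2 x} with hAdef
    set B1 : Set (Om n D) := {o | ε' < frac fun v => ¬ TreeLike o.1.1 v m} with hB1def
    set B2 : Set (Om n D) := {o | bethe D s β z + ε' <
      avg fun l => Real.log ‖(evs (ham s o.1.1 o.2) l : ℂ) - z‖} with hB2def
    have mA : MeasurableSet A := Filt_meas μ Φ _ L
    have mB1 : MeasurableSet B1 :=
      measurable_fst (MeasurableSet.of_discrete
        (s := {π : Pairing n D | ε' < frac fun v => ¬ TreeLike π.1 v m}))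
    have mB2 : MeasurableSet B2 := by
      refine measurableSet_lt measurable_const (measurable_avg fun l => ?_)
      have h1 : Measurable fun o : Om n D => evs (ham s o.1.1 o.2) l :=
        (measurable_pi_apply l).comp (measurable_evs_ham s)
      exact ((Complex.measurable_ofReal.comp h1).sub measurable_const).norm.log
    by_contra hcon
    have hG : POm n D β (A \ (B1 ∪ B2)) ≤ ENNReal.ofReal (c / 4) := by
      refine POm_le_of_frac β _ (mA.diff (mB1.union mB2)) fun ω => ?_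
      by_contra hlt
      refine hcon ⟨ω, (le_of_lt (not_le.1 hlt)).trans (frac_mono ?_)⟩
      rintro π ⟨⟨x, hx1, hx2⟩, hx3⟩
      refine ⟨x, hT ⟨hn, hx1, hx2, ?_, ?_⟩⟩
      · have : ¬ ε' < frac fun v => ¬ TreeLike π.1 v m := fun h => hx3 (Or.inl h)
        exact (not_lt.1 this).trans hle1
      · have : ¬ bethe D s β z + ε' < avg fun l => Real.log ‖(evs (ham s π.1 ω) l : ℂ) - z‖ :=
          fun h => hx3 (Or.inr h)
        have := not_lt.1 this
        simp only
        linarith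
    have h1 : POm n D β A ≤ POm n D β (A \ (B1 ∪ B2)) + (POm n D β B1 + POm n D β B2) := by
      calc POm n D β A ≤ POm n D β ((A \ (B1 ∪ B2)) ∪ (B1 ∪ B2)) :=
            measure_mono (Set.subset_diff_union A (B1 ∪ B2))
        _ ≤ _ := (measure_union_le _ _).trans (add_le_add le_rfl (measure_union_le _ _))
    have h2 : ENNReal.ofReal c ≤ ENNReal.ofReal (c / 4 + (ε' + ε')) := by
      rw [ENNReal.ofReal_add (by linarith) (by linarith), ENNReal.ofReal_add hε'.le hε'.le]
      exact hA.trans (h1.trans (add_le_add hG (add_le_add hB1 hB2)))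
    rw [ENNReal.ofReal_le_ofReal_iff (by linarith)] at h2
    linarith

end Crest.Agent.R166.B
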