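import Crest.Agent.R166.B.Defs
import Crest.Agent.R166.G6
import Crest.Agent.R166.Spec3

/-! # Tree-likeness; determinant of `Im G` -/

set_option autoImplicit false
set_option linter.unusedVariables false
set_option linter.unusedSectionVars false

open MeasureTheory ProbabilityTheory Filter Topology Matrix
open scoped ENNReal BoundedContinuousFunction Kronecker

namespace Crest.Agent.R166.B

theorem treeLike_whp (D k : ℕ) (β : Measure J) [IsProbabilityMeasure β] {ε : ℝ} (hε : 0 < ε) :
    ∀ᶠ n in atTop, POm n D β {o | ε < frac fun v => ¬ TreeLike o.1.1 v k} ≤ ENNReal.ofReal ε := by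
  obtain ⟨C, hC⟩ := treeLike_mean D k
  have h1 : ∀ᶠ n : ℕ in atTop, C / n < ε * ε :=
    (tendsto_const_div_atTop_nhds_zero_nat C).eventually_lt_const (by positivity)
  filter_upwards [h1] with n hn
  have e : {o : Om n D | ε < frac fun v => ¬ TreeLike o.1.1 v k} =
      {π : Pairing n D | ε < frac fun v => ¬ TreeLike π.1 v k} ×ˢ Set.univ := by
    ext o
    simp
  rw [e, POm, Measure.prod_prod, measure_univ, mul_one,
    ← ofReal_measureReal (measure_ne_top _ _), uniformOn_univ_real]
  refine ENNReal.ofReal_le_ofReal ((frac_mono fun π h => le_of_lt h).trans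
    ((frac_le_avg_div (fun π => frac_nonneg _) hε).trans ?_))
  rw [div_le_iff₀ hε]
  exact (hC n).trans hn.le

/-- determinant of the imaginary part of the resolvent (`exists_eigenbasis`, `res_eq_sum`) -/
theorem log_det_imM {n : ℕ} {H : Matrix (Fin n) (Fin n) ℝ} (hH : H.IsSymm) {z : ℂ} (hz : 0 < z.im) :
    Real.log (imM (res H z)).det =
      n * Real.log z.im - 2 * ∑ l, Real.log ‖(evs H l : ℂ) - z‖ := by
  obtain ⟨U, hU, hU', h⟩ := exists_eigenbasis hH
  have hn : ∀ i, 0 < ‖(evs H i : ℂ) - z‖ := fun i => norm_pos_iff.2 (real_sub_ne hz.ne' _)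
  have e : imM (res H z) = Uᵀ * diagonal (fun i => z.im / ‖(evs H i : ℂ) - z‖ ^ 2) * U := by
    ext x y
    rw [imM, Matrix.of_apply, res_eq_sum hU' hU h hz.ne', Complex.im_sum, Matrix.mul_apply]
    refine Finset.sum_congr rfl fun i _ => ?_
    rw [Matrix.mul_diagonal, Matrix.transpose_apply, div_eq_mul_inv, Complex.im_ofReal_mul,
      im_inv_sub, norm_inv, inv_pow]
    ring
  have hd : U.det * U.det = 1 := by
    have := congrArg Matrix.det hU
    rwa [Matrix.det_mul, Matrix.det_transpose, Matrix.det_one] at this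
  rw [e, Matrix.det_mul, Matrix.det_mul, Matrix.det_transpose, Matrix.det_diagonal,
    mul_right_comm, hd, one_mul, Real.log_prod fun i _ => (div_pos hz (pow_pos (hn i) 2)).ne']
  simp only [fun i => Real.log_div hz.ne' (pow_pos (hn i) 2).ne', Real.log_pow,
    Finset.sum_sub_distrib, Finset.sum_const, Finset.card_univ, Fintype.card_fin, nsmul_eq_mul,
    Finset.mul_sum, Nat.cast_ofNat]

end Crest.Agent.R166.B
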