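import Crest.Agent.R166.B.Basic
import Crest.Agent.R166.B.LogDet0
import Crest.Agent.R166.G7
import Crest.Agent.R166.T0a

/-! # The entropy of the noisy field -/

set_option autoImplicit false
set_option linter.unusedVariables false
set_option linter.unusedSectionVars false

open MeasureTheory ProbabilityTheory Filter Topology Matrix
open scoped ENNReal BoundedContinuousFunction Kronecker

namespace Crest.Agent.R166.B

section
variable {D p : ℕ} {s : ℝ} {β : Measure J} [IsProbabilityMeasure β] {z : ℂ} {L : ℝ}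
  {μ : Measure (SX D p)} [IsProbabilityMeasure μ]

theorem Thr_avg {n : ℕ} (f : Fin n → ℝ) : ∑ v, f v = n * avg f := by
  rcases Nat.eq_zero_or_pos n with rfl | hn
  · simp
  · rw [avg, Fintype.card_fin, mul_div_cancel₀ _ (Nat.cast_pos.2 hn).ne']

theorem Thr_sq {F : Filter (Cfg D p)} (hF : Conv s β z L μ F) (hb : ∀ᵐ q ∂μ, ∀ k, |q.2 k| ≤ L)
    {δ : ℝ} (hδ : 0 < δ) : ∀ᶠ c in F, (avg fun v => ∑ a, c.x (v, a) ^ 2) ≤
      (∫ q, ∑ a, q.2 (none, a) ^ 2 ∂μ) + δ := by
  have hc := continuous_clip |L|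
  let f : SX D p →ᵇ ℝ := BoundedContinuousFunction.ofNormedAddCommGroup
    (fun q => ∑ a, clip |L| (q.2 (none, a)) ^ 2) (by fun_prop) (∑ _a : Fin p, |L| ^ 2) fun q =>
      (norm_sum_le _ _).trans (Finset.sum_le_sum fun a _ => by
        rw [norm_pow]
        exact pow_le_pow_left₀ (norm_nonneg _) (abs_clip_le (abs_nonneg L) _).1 2)
  have e : ∫ q, f q ∂μ = ∫ q, ∑ a, q.2 (none, a) ^ 2 ∂μ := by
    refine integral_congr_ae (hb.mono fun q hq => ?_)
    change ∑ a, clip |L| (q.2 (none, a)) ^ 2 = ∑ a, q.2 (none, a) ^ 2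
    simp only [clip_eq ((hq _).trans (le_abs_self L))]
  filter_upwards [(hF.emp f).eventually (eventually_le_nhds (lt_add_of_pos_right _ hδ)), hF.bdd]
    with c h1 h2
  rw [← e]
  refine le_trans (le_of_eq (congrArg avg (funext fun v => Finset.sum_congr rfl fun a _ => ?_))) h1
  exact congrArg (· ^ 2) (clip_eq ((h2 (v, a)).trans (le_abs_self L))).symm

theorem Thr_tr (hz : 0 < z.im) {F : Filter (Cfg D p)} (hF : Conv s β z L μ F)
    (hfst : μ.map Prod.fst = starLaw D β) {δ : ℝ} (hδ : 0 < δ) :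
    ∀ᶠ c in F, (avg fun v => (c.G s z v v).im) ≤ (∫ σ, (gO (((s * (σ.1 : ℝ) : ℝ) : ℂ)) z
      fun i => mT s z (σ.2 i)).im ∂(starLaw D β)) + δ := by
  obtain ⟨c1, c2⟩ := T6den_spec (D := D) s hz
  have hg : Continuous fun σ : StarEnv D =>
      (gO (((s * (σ.1 : ℝ) : ℝ) : ℂ)) z fun i => mT s z (σ.2 i)).im :=
    Complex.continuous_im.comp (continuous_const.div c1 c2)
  have hgb : ∀ σ : StarEnv D,
      |(gO (((s * (σ.1 : ℝ) : ℝ) : ℂ)) z fun i => mT s z (σ.2 i)).im| ≤ 1 / z.im := fun σ =>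
    (Complex.abs_im_le_norm _).trans (T0a_norm hz _ fun c => T0a_mT hz _)
  let f : SX D p →ᵇ ℝ := BoundedContinuousFunction.ofNormedAddCommGroup _
    (hg.comp continuous_fst) (1 / z.im) fun q => hgb q.1
  have e : ∫ q, f q ∂μ = ∫ σ, (gO (((s * (σ.1 : ℝ) : ℝ) : ℂ)) z
      fun i => mT s z (σ.2 i)).im ∂(starLaw D β) := by
    rw [← hfst, integral_map measurable_fst.aemeasurable hg.aestronglyMeasurable]
    rfl
  have hδ3 : 0 < δ / 3 := by positivity
  obtain ⟨k, hk⟩ := locality D s hz hδ3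
  have ht := (hF.tree k).const_mul (2 / z.im)
  rw [mul_zero] at ht
  filter_upwards [(hF.emp f).eventually (eventually_le_nhds (lt_add_of_pos_right _ hδ3)),
    ht.eventually (eventually_le_nhds hδ3)] with c h1 h2
  classical
  have h3 : ∀ v, (c.G s z v v).im ≤ f (starS c.π.1 c.ω c.x v) + δ / 3 +
      2 / z.im * (if ¬ TreeLike c.π.1 v k then 1 else 0) := fun v => by
    by_cases hv : TreeLike c.π.1 v k
    · have h4 := (le_abs_self _).trans
        ((Complex.abs_im_le_norm _).trans (hk c.n c.π c.ω v hv none none))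
      rw [Complex.sub_im, sub_le_iff_le_add'] at h4
      rw [if_neg (not_not.2 hv), mul_zero, add_zero]
      exact h4
    · have h4 : (c.G s z v v).im ≤ 1 / z.im := by
        have := norm_res_le (spec1_herm (ham_isSymm c.π.2.1 s c.ω)) hz.ne' v v
        rw [abs_of_pos hz, ← one_div] at this
        exact (le_abs_self _).trans ((Complex.abs_im_le_norm _).trans this)
      have h5 : -(1 / z.im) ≤ f (starS c.π.1 c.ω c.x v) := (abs_le.1 (hgb _)).1
      rw [if_pos hv]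
      have : 2 / z.im = 1 / z.im + 1 / z.im := by ring
      linarith
  have h6 := G6_avg_mono h3
  rw [G6_avg_add, G6_avg_add, G6_avg_const_mul] at h6
  have h7 : (avg fun _ : Fin c.n => δ / 3) ≤ δ / 3 := G6_avg_le hδ3.le fun _ => le_rfl
  have h8 : (avg fun v => if ¬ TreeLike c.π.1 v k then (1 : ℝ) else 0) =
      frac fun v => ¬ TreeLike c.π.1 v k := by
    unfold frac
    congr
    funext v
    congr
  rw [h8] at h6
  linarith

/-- `log_det_imM`, `ten_det`, `Conv.ldet`; `x ⬝ x = n avg_v Σ_a x(v,a)²` (`Conv.emp` with clipped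
squares); `tr Im G = n avg_v Im G_vv` (`locality`, `Conv.tree`, `Conv.emp`). -/
theorem thr_bound (hz : 0 < z.im) {F : Filter (Cfg D p)} (hF : Conv s β z L μ F)
    (hfst : μ.map Prod.fst = starLaw D β) (hb : ∀ᵐ q ∂μ, ∀ k, |q.2 k| ≤ L) {ε : ℝ} (hε : 0 < ε) :
    ∀ᶠ c in F, Real.log (ten p (imM (c.G s z))⁻¹).det / 2 - Fintype.card (Fin c.n × Fin p) / 2 +
      (c.x ⬝ᵥ c.x + (ten p (imM (c.G s z))).trace) / 2 ≤ c.n * (thr s β z μ + ε) := by
  have hp : (0 : ℝ) ≤ p := Nat.cast_nonneg p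
  obtain ⟨δ, hδ, rfl⟩ : ∃ δ : ℝ, 0 < δ ∧ ε = (2 * p + 1) * δ :=
    ⟨ε / (2 * p + 1), by positivity, by field_simp⟩
  filter_upwards [hF.ldet δ hδ, Thr_sq hF hb hδ, Thr_tr hz hF hfst hδ] with c h1 h2 h3
  have e1 : c.x ⬝ᵥ c.x = c.n * avg fun v => ∑ a, c.x (v, a) ^ 2 := by
    rw [← Thr_avg]
    simp only [dotProduct, Fintype.sum_prod_type, sq]
  have e2 : (imM (c.G s z)).trace = c.n * avg fun v => (c.G s z v v).im := Thr_avg _
  have e3 := log_det_imM (ham_isSymm c.π.2.1 s c.ω) hz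
  rw [Thr_avg] at e3
  rw [ten_det, Matrix.det_nonsing_inv, Ring.inverse_eq_inv', Real.log_pow, Real.log_inv, ten_trace,
    e1, e2, Cfg.G, e3, Fintype.card_prod, Fintype.card_fin, Fintype.card_fin, thr]
  have hn : (0 : ℝ) ≤ c.n := Nat.cast_nonneg _
  have h4 := mul_le_mul_of_nonneg_left h1 (mul_nonneg hn hp)
  have h5 := mul_le_mul_of_nonneg_left h2 hn
  have h6 := mul_le_mul_of_nonneg_left h3 (mul_nonneg hn hp)
  have h7 := mul_nonneg hn hδ.le
  have h8 := mul_nonneg (mul_nonneg hn hp) hδ.le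
  rw [Cfg.G] at h6
  push_cast at h6 ⊢
  linarith

end

end Crest.Agent.R166.B
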