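import Crest.Agent.R166.B.Noise
import Crest.Agent.R166.B.Count
import Crest.Agent.R166.B.Filt
import Crest.Agent.R166.B.GDen
import Crest.Agent.R166.B.Thr

/-! # The counting inequality on a partition -/

set_option autoImplicit false
set_option linter.unusedVariables false
set_option linter.unusedSectionVars false

open MeasureTheory ProbabilityTheory Filter Topology Matrix
open scoped ENNReal BoundedContinuousFunction Kronecker

namespace Crest.Agent.R166.B

theorem CTa_log_le {a b : ℕ} (h : a ≤ b) : Real.log a ≤ Real.log b := by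
  rcases Nat.eq_zero_or_pos a with rfl | ha
  · simpa using Real.log_natCast_nonneg b
  · exact Real.log_le_log (by exact_mod_cast ha) (by exact_mod_cast h)

theorem CTa_asymp (C H D : ℕ) (K : ℝ) {ε : ℝ} (hε : 0 < ε) : ∀ᶠ n : ℕ in atTop,
    C * Real.log n + H * (1 + Real.log (n * (D + 1) + 1)) + K ≤ ε * n := by
  have h1 := (Real.isLittleO_log_id_atTop.comp_tendsto (tendsto_natCast_atTop_atTop (R := ℝ))).bound
    (c := ε / 2 / (C + H + 1)) (by positivity)
  have h2 := (tendsto_natCast_atTop_atTop (R := ℝ)).eventually_ge_atTop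
    ((H * (1 + Real.log (D + 2)) + K) / (ε / 2))
  filter_upwards [h1, h2, eventually_ge_atTop 1] with n h1 h2 h3
  have hn : (1 : ℝ) ≤ n := by exact_mod_cast h3
  have hl : 0 ≤ Real.log n := Real.log_nonneg hn
  simp only [Function.comp, id, Real.norm_eq_abs, abs_of_nonneg hl, Nat.abs_cast] at h1
  rw [div_le_iff₀ (by positivity)] at h2
  rw [div_mul_eq_mul_div, le_div_iff₀ (by positivity)] at h1
  have h4 : Real.log (n * (D + 1) + 1) ≤ Real.log n + Real.log (D + 2) := by
    rw [← Real.log_mul (by positivity) (by positivity)]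
    exact Real.log_le_log (by positivity) (by nlinarith)
  have h5 := mul_le_mul_of_nonneg_left h4 (Nat.cast_nonneg (α := ℝ) H)
  nlinarith

section
variable {D p : ℕ} {s : ℝ} {β : Measure J} [IsProbabilityMeasure β] {z : ℂ} {L : ℝ}
  {μ : Measure (SX D p)} [IsProbabilityMeasure μ]

/-- `exists_filter`; choose `B c` by `exists_sq_root` (`imM_res_posDef`); the set `S` of `c` with
`thr_bound` and `noise_types` within `ε`; `𝓑 = {π | ∃ x, ⟨n, π, ω, x⟩ ∈ S}`, `count_bound` with
`ν π = law (x_π + B ξ)`, `ρ π = gden ..` (`gauss_density`, `integral_log_gden`; take any `x` off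
`𝓑`); `|𝓑| ≥ c |Pairing| ≥ c n^{-C} |allPairings|` (`count_simple`); divide by `n`. -/
theorem count_part (hz : 0 < z.im) (h : TypB β L μ) (hb : ∀ᵐ q ∂μ, ∀ k, |q.2 k| ≤ L)
    (hac : noisy μ (BS p s z (mT s z)) ≪ lamS D p β) (Q : Part D p) (hQ : Q.Null β)
    {a : Q.ST → ℝ} (ha : Q.Test a) :
    0 ≤ thr s β z μ + Q.Xi a (fr (noisy μ (BS p s z (mT s z))) Q.τ) := by
  classical
  obtain ⟨F, hF, hS⟩ := exists_filter s hz h
  have hpd : ∀ c : Cfg D p, (imM (c.G s z)).PosDef := fun c =>
    imM_res_posDef (ham_isSymm c.π.2.1 s c.ω) hz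
  choose B hB using fun c : Cfg D p => exists_sq_root (ten_posDef (p := p) (hpd c)).posSemidef
  have hP : ∀ c : Cfg D p, B c * (B c)ᵀ * ten p (imM (c.G s z))⁻¹ = 1 := fun c => by
    rw [hB, ten_mul, mul_nonsing_inv _ (hpd c).det_pos.ne'.isUnit, ten_one]
  obtain ⟨C, hC⟩ := count_simple D
  refine le_of_forall_pos_le_add fun ε' hε' => ?_
  set ε := ε' / 3 with hε3
  have hε : 0 < ε := by positivity
  have h1 := thr_bound hz hF h.typ.fst hb hε
  have h2 := (noise_types hz hF hB Q hQ hac (Q.continuous_Xi a)).eventually_le_const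
    (lt_add_of_pos_right _ hε)
  obtain ⟨c₀, hc₀, hfr⟩ := hS _ (h1.and h2)
  obtain ⟨n, ⟨ω, hω⟩, hn1, hn2, hn3⟩ := (hfr.and_eventually (hC.and
    ((CTa_asymp C (Fintype.card Q.HT) D (-Real.log c₀) hε).and (eventually_gt_atTop 0)))).exists
  rw [frac_eq_card] at hω
  set 𝓑 := Finset.univ.filter fun π : Pairing n D => ∃ x, (⟨n, π, ω, x⟩ : Cfg D p) ∈ {c : Cfg D p |
    Real.log (ten p (imM (c.G s z))⁻¹).det / 2 - Fintype.card (Fin c.n × Fin p) / 2 +
      (c.x ⬝ᵥ c.x + (ten p (imM (c.G s z))).trace) / 2 ≤ c.n * (thr s β z μ + ε) ∧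
    ∫ ξ, Q.Xi a (fun t => frac fun v =>
        Q.τ (starS c.π.1 c.ω (c.x + B c *ᵥ ξ) v) = t) ∂(gpi (Fin c.n × Fin p)) ≤
      Q.Xi a (fr (noisy μ (BS p s z (mT s z))) Q.τ) + ε} with h𝓑
  have hN : (0 : ℝ) < Fintype.card (Pairing n D) := by
    rcases (Nat.cast_nonneg (α := ℝ) (Fintype.card (Pairing n D))).eq_or_lt with e | e
    · rw [← e, div_zero] at hω
      exact absurd hω (not_le.2 hc₀)
    · exact e
  rw [le_div_iff₀ hN] at hω
  have hne : 𝓑.Nonempty := by
    rw [← Finset.card_pos]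
    exact_mod_cast (mul_pos hc₀ hN).trans_le hω
  choose! x hx using fun π (hπ : π ∈ 𝓑) => (Finset.mem_filter.1 hπ).2
  let cf : Pairing n D → Cfg D p := fun π => ⟨n, π, ω, x π⟩
  have hm : ∀ π, Measurable fun ξ : Fin n × Fin p → ℝ => x π + B (cf π) *ᵥ ξ := fun π =>
    (continuous_const.add (continuous_const.matrix_mulVec continuous_id)).measurable
  have hρm : ∀ π, Measurable (gden (ten p (imM ((cf π).G s z))⁻¹) (x π)) := fun π =>
    measurable_gden (P := fun _ => ten p (imM ((cf π).G s z))⁻¹) (x := fun _ => x π) (y := id)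
      (fun _ _ => measurable_const) measurable_const measurable_id
  have hprob : ∀ π, IsProbabilityMeasure
      ((gpi (Fin n × Fin p)).map fun ξ : Fin n × Fin p → ℝ => x π + B (cf π) *ᵥ ξ) := fun π =>
    Measure.isProbabilityMeasure_map (hm π).aemeasurable
  obtain ⟨π, hπ, hcb⟩ := count_bound hn3 Q ha ω 𝓑 hne
    (fun π => (gpi (Fin n × Fin p)).map fun ξ => x π + B (cf π) *ᵥ ξ)
    (fun π => gden (ten p (imM ((cf π).G s z))⁻¹) (x π)) hρm
    (fun π y => gden_pos (posDef_of_inv (hP (cf π))).1 _ _)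
    (fun π => gauss_density (hP (cf π)) (x π))
    (fun π => (integrable_map_measure (hρm π).log.aestronglyMeasurable (hm π).aemeasurable).2
      (integral_log_gden (hP (cf π)) (x π)).1)
  have hmX : Measurable fun y : Fin n × Fin p → ℝ =>
      Q.Xi a (fun t => frac fun v => Q.τ (starS π.1 ω y v) = t) := by
    refine (Q.continuous_Xi a).measurable.comp (measurable_pi_lambda _ fun t =>
      measurable_frac fun v => ?_)
    have : Measurable fun y : Fin n × Fin p → ℝ => starS π.1 ω y v :=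
      measurable_const.prodMk (measurable_pi_lambda _ fun k => measurable_pi_apply _)
    exact (Q.measurable_τ.comp this) (measurableSet_singleton t)
  rw [integral_map (hm π).aemeasurable (hρm π).log.aestronglyMeasurable,
    integral_map (hm π).aemeasurable hmX.aestronglyMeasurable] at hcb
  obtain ⟨k1, k2⟩ := hx π hπ
  have k3 := (integral_log_gden (hP (cf π)) (x π)).2
  rw [hB] at k3
  have k4 : ∫ ξ, Real.log (gden (ten p (imM ((cf π).G s z))⁻¹) (x π) (x π + B (cf π) *ᵥ ξ))
      ∂(gpi (Fin n × Fin p)) ≤ n * (thr s β z μ + ε) := k3.trans_le k1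
  have hn0 : (0 : ℝ) < n := by exact_mod_cast hn3
  have k5 : n * ∫ ξ, Q.Xi a (fun t => frac fun v =>
      Q.τ (starS π.1 ω (x π + B (cf π) *ᵥ ξ) v) = t) ∂(gpi (Fin n × Fin p)) ≤
      n * (Q.Xi a (fr (noisy μ (BS p s z (mT s z))) Q.τ) + ε) :=
    mul_le_mul_of_nonneg_left k2 hn0.le
  have k6 : Real.log c₀ + Real.log (Fintype.card (Pairing n D)) ≤ Real.log 𝓑.card := by
    rw [← Real.log_mul hc₀.ne' hN.ne']
    exact Real.log_le_log (mul_pos hc₀ hN) hω
  have k7 := CTa_log_le hn1
  rw [Nat.cast_mul, Nat.cast_pow, Real.log_mul (by positivity) hN.ne', Real.log_pow] at k7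
  have k8 : 0 ≤ n * (thr s β z μ + Q.Xi a (fr (noisy μ (BS p s z (mT s z))) Q.τ) + 3 * ε) := by
    linarith
  have k9 := nonneg_of_mul_nonneg_right k8 hn0
  linarith

end

end Crest.Agent.R166.B
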