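import Crest.Agent.R166.B.Small

/-! # One step of the white channel -/

set_option autoImplicit false
set_option linter.unusedVariables false
set_option linter.unusedSectionVars false

open MeasureTheory ProbabilityTheory Filter Topology Matrix
open scoped ENNReal BoundedContinuousFunction Kronecker

namespace Crest.Agent.R166.B

section aux
variable {N : Type} [Fintype N] [DecidableEq N]

theorem chain_ch (m : Measure (N → ℝ)) : Ch (1 : Matrix N N ℝ) (1 : Matrix N N ℝ) m :=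
  ⟨Matrix.PosSemidef.one, Eventually.of_forall fun x => by simp⟩

theorem chain_dot_nonneg (x : N → ℝ) : 0 ≤ x ⬝ᵥ x :=
  Finset.sum_nonneg fun i _ => mul_self_nonneg _

theorem chain_dot_le (x y : N → ℝ) : |x ⬝ᵥ y| ≤ (x ⬝ᵥ x + y ⬝ᵥ y) / 2 := by
  have h1 := chain_dot_nonneg (x - y)
  have h2 := chain_dot_nonneg (x + y)
  simp only [sub_dotProduct, dotProduct_sub, add_dotProduct, dotProduct_add,
    dotProduct_comm y x] at h1 h2
  rw [abs_le]; constructor <;> linarith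

theorem chain_add_le (x y : N → ℝ) : (x + y) ⬝ᵥ (x + y) ≤ 2 * (x ⬝ᵥ x) + 2 * (y ⬝ᵥ y) := by
  have h1 := chain_dot_nonneg (x - y)
  simp only [sub_dotProduct, dotProduct_sub, add_dotProduct, dotProduct_add,
    dotProduct_comm y x] at h1 ⊢
  linarith

theorem chain_ob (u : ℝ) (x ξ : N → ℝ) : ob (1 : Matrix N N ℝ) u x ξ = u • x + √u • ξ := by
  simp [ob]

theorem chain_ob_le {u : ℝ} (hu : 0 ≤ u) (x ξ : N → ℝ) :
    ob (1 : Matrix N N ℝ) u x ξ ⬝ᵥ ob (1 : Matrix N N ℝ) u x ξ ≤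
      2 * (u ^ 2 * (x ⬝ᵥ x)) + 2 * (u * (ξ ⬝ᵥ ξ)) := by
  rw [chain_ob]
  refine (chain_add_le _ _).trans (le_of_eq ?_)
  simp only [smul_dotProduct, dotProduct_smul, smul_eq_mul]
  rw [← mul_assoc (√u), Real.mul_self_sqrt hu]; ring

theorem chain_ob_meas (u : ℝ) :
    Measurable fun p : (N → ℝ) × (N → ℝ) => ob (1 : Matrix N N ℝ) u p.1 p.2 := by
  simp only [chain_ob]; fun_prop

theorem chain_coord {m : Measure (N → ℝ)} {Λ : ℝ} (hb : ∀ᵐ w ∂m, w ⬝ᵥ w ≤ Λ) :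
    ∀ᵐ w ∂m, ∀ k, |w k| ≤ √Λ := by
  filter_upwards [hb] with w hw k
  apply Real.abs_le_sqrt
  have : w k * w k ≤ w ⬝ᵥ w :=
    Finset.single_le_sum (f := fun i => w i * w i) (fun i _ => mul_self_nonneg _)
      (Finset.mem_univ k)
  nlinarith

theorem chain_wt_int {m : Measure (N → ℝ)} [IsProbabilityMeasure m] {Λ u : ℝ}
    (hb : ∀ᵐ w ∂m, w ⬝ᵥ w ≤ Λ) (hu : 0 ≤ u) (y : N → ℝ) :
    Integrable (wt (1 : Matrix N N ℝ) u y) m :=
  integrable_wt Matrix.PosSemidef.one hu (Or.inr (Or.inr ⟨_, chain_coord hb⟩))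

theorem chain_log_le {m : Measure (N → ℝ)} [IsProbabilityMeasure m] {Λ u : ℝ}
    (hb : ∀ᵐ w ∂m, w ⬝ᵥ w ≤ Λ) (hu : 0 ≤ u) (y : N → ℝ) :
    |Real.log (Zf (1 : Matrix N N ℝ) m u y)| ≤ (Λ + y ⬝ᵥ y) / 2 + u * Λ / 2 := by
  obtain ⟨c, hc⟩ : ∃ c, c = (Λ + y ⬝ᵥ y) / 2 + u * Λ / 2 := ⟨_, rfl⟩
  rw [← hc]
  have hi := chain_wt_int hb hu y
  have hpos := Zf_pos hi
  have key : ∀ᵐ x ∂m, Real.exp (-c) ≤ wt (1 : Matrix N N ℝ) u y x ∧
      wt (1 : Matrix N N ℝ) u y x ≤ Real.exp c := by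
    filter_upwards [hb] with x hx
    have h1 := abs_le.1 (chain_dot_le x y)
    have h2 := chain_dot_nonneg x
    have h3 : u * (x ⬝ᵥ x) ≤ u * Λ := mul_le_mul_of_nonneg_left hx hu
    have h4 : 0 ≤ u * (x ⬝ᵥ x) := mul_nonneg hu h2
    simp only [wt, Matrix.one_mulVec, Real.exp_le_exp]
    constructor <;> nlinarith [h1.1, h1.2]
  have l1 : Real.exp (-c) ≤ Zf (1 : Matrix N N ℝ) m u y := by
    have := integral_mono_ae (integrable_const (Real.exp (-c))) hi (key.mono fun x hx => hx.1)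
    simpa [Zf] using this
  have l2 : Zf (1 : Matrix N N ℝ) m u y ≤ Real.exp c := by
    have := integral_mono_ae hi (integrable_const (Real.exp c)) (key.mono fun x hx => hx.2)
    simpa [Zf] using this
  rw [abs_le]
  exact ⟨(Real.le_log_iff_exp_le hpos).2 l1, (Real.log_le_iff_le_exp hpos).2 l2⟩

theorem chain_sq_int : Integrable (fun ξ : N → ℝ => ξ ⬝ᵥ ξ) (gpi N) := by
  simpa using (integral_quad (1 : Matrix N N ℝ) (1 : Matrix N N ℝ) 0).1

theorem chain_split {u δ : ℝ} (hu : 0 ≤ u) (h0 : 0 ≤ δ) :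
    (gpi N).map (fun g => √(u + δ) • g) =
      ((gpi N).prod (gpi N)).map fun p => √u • p.1 + √δ • p.2 := by
  have h := gpi_map_cov (√(u + δ) • (1 : Matrix N N ℝ))
    (Matrix.fromCols (√u • (1 : Matrix N N ℝ)) (√δ • (1 : Matrix N N ℝ))) (by
      rw [Matrix.transpose_fromCols, Matrix.fromCols_mul_fromRows]
      simp only [Matrix.transpose_smul, Matrix.transpose_one, Matrix.smul_mul, Matrix.mul_smul,
        Matrix.one_mul, smul_smul]
      rw [Real.mul_self_sqrt hu, Real.mul_self_sqrt h0, Real.mul_self_sqrt (add_nonneg hu h0),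
        add_smul])
  rw [← gpi_map_sum, Measure.map_map (by fun_prop) (by fun_prop)]
  convert h using 2
  · funext g; simp [Matrix.smul_mulVec]
  · funext g
    rw [Matrix.fromCols_mulVec]
    simp only [Matrix.smul_mulVec, Matrix.one_mulVec]
    rfl

theorem chain_bayes {m : Measure (N → ℝ)} [IsProbabilityMeasure m] {u : ℝ} (hu : 0 ≤ u)
    {F : (N → ℝ) × (N → ℝ) → ℝ} (hF : Measurable F)
    (hi : Integrable (fun w => F (w.1, ob (1 : Matrix N N ℝ) u w.1 w.2)) (m.prod (gpi N))) :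
    Integrable (fun ξ => ∫ x, wt (1 : Matrix N N ℝ) u (√u • ξ) x * F (x, √u • ξ) ∂m) (gpi N) ∧
    ∫ x, ∫ ξ, F (x, ob (1 : Matrix N N ℝ) u x ξ) ∂(gpi N) ∂m =
      ∫ ξ, ∫ x, wt (1 : Matrix N N ℝ) u (√u • ξ) x * F (x, √u • ξ) ∂m ∂(gpi N) := by
  obtain ⟨h1, h2⟩ := bayes_integral (chain_ch m) hu hF hi
  simp only [Matrix.one_mulVec] at h1 h2
  refine ⟨h1.integral_prod_right, ?_⟩
  rw [← h2, integral_prod _ hi]

/-- the posterior law -/
noncomputable def chainPost (m : Measure (N → ℝ)) (u : ℝ) (y : N → ℝ) : Measure (N → ℝ) :=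
  m.withDensity fun x => ENNReal.ofReal (wt (1 : Matrix N N ℝ) u y x / Zf (1 : Matrix N N ℝ) m u y)

theorem chain_wt_meas (u : ℝ) (y : N → ℝ) : Measurable (wt (1 : Matrix N N ℝ) u y) :=
  ((continuous_wt (1 : Matrix N N ℝ) u).comp (Continuous.prodMk_right y)).measurable

theorem chainPost_integral {m : Measure (N → ℝ)} [IsProbabilityMeasure m] {Λ u : ℝ}
    (hb : ∀ᵐ w ∂m, w ⬝ᵥ w ≤ Λ) (hu : 0 ≤ u) (y : N → ℝ) (g : (N → ℝ) → ℝ) :
    Zf (1 : Matrix N N ℝ) m u y * ∫ x, g x ∂(chainPost m u y) =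
      ∫ x, wt (1 : Matrix N N ℝ) u y x * g x ∂m := by
  have hpos := Zf_pos (chain_wt_int hb hu y)
  unfold chainPost
  rw [integral_withDensity_eq_integral_toReal_smul
    ((chain_wt_meas u y).div_const _).ennreal_ofReal
    (Eventually.of_forall fun x => ENNReal.ofReal_lt_top), ← integral_const_mul]
  refine integral_congr_ae (Eventually.of_forall fun x => ?_)
  beta_reduce
  rw [ENNReal.toReal_ofReal (div_pos (wt_pos _ _ _ _) hpos).le, smul_eq_mul]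
  field_simp

theorem chainPost_prob {m : Measure (N → ℝ)} [IsProbabilityMeasure m] {Λ u : ℝ}
    (hb : ∀ᵐ w ∂m, w ⬝ᵥ w ≤ Λ) (hu : 0 ≤ u) (y : N → ℝ) :
    IsProbabilityMeasure (chainPost m u y) := by
  have hi := chain_wt_int hb hu y
  have hpos := Zf_pos hi
  constructor
  unfold chainPost
  rw [withDensity_apply _ MeasurableSet.univ, Measure.restrict_univ,
    ← ofReal_integral_eq_lintegral_ofReal (hi.div_const _)
      (Eventually.of_forall fun x => (div_pos (wt_pos _ _ _ _) hpos).le), integral_div]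
  change ENNReal.ofReal (Zf 1 m u y / Zf 1 m u y) = 1
  rw [div_self hpos.ne', ENNReal.ofReal_one]

theorem chainPost_ae {m : Measure (N → ℝ)} {Λ : ℝ} (hb : ∀ᵐ w ∂m, w ⬝ᵥ w ≤ Λ) (u : ℝ)
    (y : N → ℝ) : ∀ᵐ w ∂(chainPost m u y), w ⬝ᵥ w ≤ Λ :=
  (withDensity_absolutelyContinuous m _).ae_le hb

theorem chainPost_mean {m : Measure (N → ℝ)} [IsProbabilityMeasure m] {Λ u : ℝ}
    (hb : ∀ᵐ w ∂m, w ⬝ᵥ w ≤ Λ) (hu : 0 ≤ u) (y : N → ℝ) :
    (fun k => ∫ w, w k ∂(chainPost m u y)) = Mf (1 : Matrix N N ℝ) m u y := by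
  have hpos := Zf_pos (chain_wt_int hb hu y)
  funext k
  unfold Mf
  rw [← chainPost_integral hb hu y fun w => w k]
  field_simp

theorem chainPost_Zf {m : Measure (N → ℝ)} [IsProbabilityMeasure m] {Λ u : ℝ}
    (hb : ∀ᵐ w ∂m, w ⬝ᵥ w ≤ Λ) (hu : 0 ≤ u) (δ : ℝ) (y y' : N → ℝ) :
    Zf (1 : Matrix N N ℝ) m u y * Zf (1 : Matrix N N ℝ) (chainPost m u y) δ y' =
      Zf (1 : Matrix N N ℝ) m (u + δ) (y + y') := by
  have h := chainPost_integral hb hu y (wt (1 : Matrix N N ℝ) δ y')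
  refine h.trans (integral_congr_ae (Eventually.of_forall fun x => ?_))
  simp only [wt, Matrix.one_mulVec, ← Real.exp_add, dotProduct_add]
  congr 1; ring

theorem chain_inner_int {m : Measure (N → ℝ)} [IsProbabilityMeasure m] {Λ v δ : ℝ}
    (hb : ∀ᵐ w ∂m, w ⬝ᵥ w ≤ Λ) (hv : 0 ≤ v) (h0 : 0 ≤ δ) (x y : N → ℝ) :
    Integrable (fun ξ => Real.log (Zf (1 : Matrix N N ℝ) m v (y + ob (1 : Matrix N N ℝ) δ x ξ)))
      (gpi N) := by
  have hm : Measurable fun ξ : N → ℝ =>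
      Real.log (Zf (1 : Matrix N N ℝ) m v (y + ob (1 : Matrix N N ℝ) δ x ξ)) := by
    refine (measurable_Zf'.comp ?_).log
    simp only [chain_ob]; fun_prop
  refine Integrable.mono' ((integrable_const
    (Λ / 2 + y ⬝ᵥ y + 2 * (δ ^ 2 * (x ⬝ᵥ x)) + v * Λ / 2)).add
    (chain_sq_int.const_mul (2 * δ))) hm.aestronglyMeasurable (Eventually.of_forall fun ξ => ?_)
  rw [Real.norm_eq_abs]
  refine (chain_log_le hb hv _).trans ?_
  have a1 := chain_add_le y (ob (1 : Matrix N N ℝ) δ x ξ)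
  have a2 := chain_ob_le h0 x ξ
  simp only [Pi.add_apply]
  linarith

/-- the one-step increment given the signal and the first observation -/
noncomputable def chainF (m : Measure (N → ℝ)) (u δ : ℝ) (p : (N → ℝ) × (N → ℝ)) : ℝ :=
  ∫ ξ, Real.log (Zf (1 : Matrix N N ℝ) m (u + δ) (p.2 + ob (1 : Matrix N N ℝ) δ p.1 ξ)) ∂(gpi N) -
    Real.log (Zf (1 : Matrix N N ℝ) m u p.2)

theorem chainF_meas (m : Measure (N → ℝ)) [IsProbabilityMeasure m] (u δ : ℝ) :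
    Measurable (chainF m u δ) := by
  refine Measurable.sub ?_ (measurable_Zf'.comp measurable_snd).log
  have hm : Measurable fun q : ((N → ℝ) × (N → ℝ)) × (N → ℝ) =>
      Real.log (Zf (1 : Matrix N N ℝ) m (u + δ) (q.1.2 + ob (1 : Matrix N N ℝ) δ q.1.1 q.2)) := by
    refine (measurable_Zf'.comp ?_).log
    simp only [chain_ob]; fun_prop
  exact (hm.stronglyMeasurable.integral_prod_right' (ν := gpi N)).measurable

theorem chainF_post {m : Measure (N → ℝ)} [IsProbabilityMeasure m] {Λ u δ : ℝ}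
    (hb : ∀ᵐ w ∂m, w ⬝ᵥ w ≤ Λ) (hu : 0 ≤ u) (h0 : 0 ≤ δ) (y : N → ℝ) :
    ∫ x, wt (1 : Matrix N N ℝ) u y x * chainF m u δ (x, y) ∂m =
      Zf (1 : Matrix N N ℝ) m u y * psi 1 (1 : Matrix N N ℝ) (chainPost m u y) δ := by
  rw [← chainPost_integral hb hu y]
  congr 1
  unfold psi
  refine integral_congr_ae (Eventually.of_forall fun x => ?_)
  have hpos := Zf_pos (chain_wt_int hb hu y)
  have := chainPost_prob hb hu y
  have e : ∀ ξ, Real.log (Zf (1 : Matrix N N ℝ) (chainPost m u y) δ (ob (1 : Matrix N N ℝ) δ x ξ)) =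
      Real.log (Zf (1 : Matrix N N ℝ) m (u + δ) (y + ob (1 : Matrix N N ℝ) δ x ξ)) -
        Real.log (Zf (1 : Matrix N N ℝ) m u y) := by
    intro ξ
    rw [← chainPost_Zf hb hu, Real.log_mul hpos.ne'
      (Zf_pos (chain_wt_int (chainPost_ae hb u y) h0 _)).ne']
    ring
  simp only [chainF, e]
  rw [integral_sub (chain_inner_int hb (add_nonneg hu h0) h0 x y) (integrable_const _)]
  simp

theorem chain_lam_nonneg {m : Measure (N → ℝ)} [IsProbabilityMeasure m] {Λ : ℝ}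
    (hb : ∀ᵐ w ∂m, w ⬝ᵥ w ≤ Λ) : 0 ≤ Λ := by
  obtain ⟨w, hw⟩ := hb.exists
  exact (chain_dot_nonneg w).trans hw

theorem chain_int1 {m : Measure (N → ℝ)} [IsProbabilityMeasure m] {Λ u : ℝ}
    (hb : ∀ᵐ w ∂m, w ⬝ᵥ w ≤ Λ) (hu : 0 ≤ u) :
    Integrable (fun w : (N → ℝ) × (N → ℝ) =>
      Real.log (Zf (1 : Matrix N N ℝ) m u (ob (1 : Matrix N N ℝ) u w.1 w.2))) (m.prod (gpi N)) := by
  have hm : Measurable fun w : (N → ℝ) × (N → ℝ) =>
      Real.log (Zf (1 : Matrix N N ℝ) m u (ob (1 : Matrix N N ℝ) u w.1 w.2)) :=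
    (measurable_Zf'.comp (chain_ob_meas u)).log
  have hq : Integrable (fun w : (N → ℝ) × (N → ℝ) => w.2 ⬝ᵥ w.2) (m.prod (gpi N)) :=
    chain_sq_int.comp_snd m
  refine Integrable.mono' ((integrable_const (Λ / 2 + u ^ 2 * Λ + u * Λ / 2)).add
    (hq.const_mul u)) hm.aestronglyMeasurable ?_
  filter_upwards [Measure.quasiMeasurePreserving_fst.ae hb] with w hw
  rw [Real.norm_eq_abs]
  refine (chain_log_le hb hu _).trans ?_
  have a2 := chain_ob_le hu w.1 w.2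
  have a3 : u ^ 2 * (w.1 ⬝ᵥ w.1) ≤ u ^ 2 * Λ := mul_le_mul_of_nonneg_left hw (sq_nonneg u)
  simp only [Pi.add_apply]
  linarith

theorem chain_int2 {m : Measure (N → ℝ)} [IsProbabilityMeasure m] {Λ u δ : ℝ}
    (hb : ∀ᵐ w ∂m, w ⬝ᵥ w ≤ Λ) (hu : 0 ≤ u) (h0 : 0 ≤ δ) :
    Integrable (fun q : ((N → ℝ) × (N → ℝ)) × (N → ℝ) =>
      Real.log (Zf (1 : Matrix N N ℝ) m (u + δ)
        (ob (1 : Matrix N N ℝ) u q.1.1 q.1.2 + ob (1 : Matrix N N ℝ) δ q.1.1 q.2)))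
      ((m.prod (gpi N)).prod (gpi N)) := by
  have hm : Measurable fun q : ((N → ℝ) × (N → ℝ)) × (N → ℝ) =>
      Real.log (Zf (1 : Matrix N N ℝ) m (u + δ)
        (ob (1 : Matrix N N ℝ) u q.1.1 q.1.2 + ob (1 : Matrix N N ℝ) δ q.1.1 q.2)) := by
    refine (measurable_Zf'.comp ?_).log
    simp only [chain_ob]; fun_prop
  have hq1 : Integrable (fun q : ((N → ℝ) × (N → ℝ)) × (N → ℝ) => q.1.2 ⬝ᵥ q.1.2)
      ((m.prod (gpi N)).prod (gpi N)) := (chain_sq_int.comp_snd m).comp_fst (gpi N)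
  have hq2 : Integrable (fun q : ((N → ℝ) × (N → ℝ)) × (N → ℝ) => q.2 ⬝ᵥ q.2)
      ((m.prod (gpi N)).prod (gpi N)) := chain_sq_int.comp_snd _
  refine Integrable.mono' ((integrable_const
    (Λ / 2 + 2 * (u ^ 2 * Λ) + 2 * (δ ^ 2 * Λ) + (u + δ) * Λ / 2)).add
    ((hq1.const_mul (2 * u)).add (hq2.const_mul (2 * δ)))) hm.aestronglyMeasurable ?_
  filter_upwards [Measure.quasiMeasurePreserving_fst.ae
    (Measure.quasiMeasurePreserving_fst.ae hb)] with q hw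
  rw [Real.norm_eq_abs]
  refine (chain_log_le hb (add_nonneg hu h0) _).trans ?_
  have a1 := chain_add_le (ob (1 : Matrix N N ℝ) u q.1.1 q.1.2) (ob (1 : Matrix N N ℝ) δ q.1.1 q.2)
  have a2 := chain_ob_le hu q.1.1 q.1.2
  have a2' := chain_ob_le h0 q.1.1 q.2
  have a3 : u ^ 2 * (q.1.1 ⬝ᵥ q.1.1) ≤ u ^ 2 * Λ := mul_le_mul_of_nonneg_left hw (sq_nonneg u)
  have a3' : δ ^ 2 * (q.1.1 ⬝ᵥ q.1.1) ≤ δ ^ 2 * Λ := mul_le_mul_of_nonneg_left hw (sq_nonneg δ)
  simp only [Pi.add_apply]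
  linarith

theorem chain_psi_add {m : Measure (N → ℝ)} [IsProbabilityMeasure m] {Λ u δ : ℝ}
    (hb : ∀ᵐ w ∂m, w ⬝ᵥ w ≤ Λ) (hu : 0 ≤ u) (h0 : 0 ≤ δ) :
    psi 1 (1 : Matrix N N ℝ) m (u + δ) =
      ∫ x, ∫ ξ, ∫ ξ', Real.log (Zf (1 : Matrix N N ℝ) m (u + δ)
        (ob (1 : Matrix N N ℝ) u x ξ + ob (1 : Matrix N N ℝ) δ x ξ')) ∂(gpi N) ∂(gpi N) ∂m := by
  unfold psi
  refine integral_congr_ae (Eventually.of_forall fun x => ?_)
  beta_reduce
  obtain ⟨G, hG⟩ : ∃ G : (N → ℝ) → ℝ,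
    G = fun η => Real.log (Zf (1 : Matrix N N ℝ) m (u + δ) ((u + δ) • x + η)) := ⟨_, rfl⟩
  have hm : Measurable G := by
    rw [hG]; exact (measurable_Zf'.comp (by fun_prop)).log
  have hi : Integrable G ((gpi N).map fun g => √(u + δ) • g) := by
    rw [integrable_map_measure hm.aestronglyMeasurable (by fun_prop)]
    have := chain_inner_int hb (add_nonneg hu h0) (add_nonneg hu h0) x 0
    simp only [zero_add, chain_ob] at this
    rw [hG]; exact this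
  have e1 : ∫ ξ, Real.log (Zf (1 : Matrix N N ℝ) m (u + δ) (ob (1 : Matrix N N ℝ) (u + δ) x ξ))
      ∂(gpi N) = ∫ η, G η ∂((gpi N).map fun g => √(u + δ) • g) := by
    rw [integral_map (by fun_prop) hm.aestronglyMeasurable]
    simp only [hG, chain_ob]
  rw [e1]
  rw [chain_split hu h0] at hi ⊢
  rw [integrable_map_measure hm.aestronglyMeasurable (by fun_prop)] at hi
  rw [integral_map (by fun_prop) hm.aestronglyMeasurable]
  refine (integral_prod _ hi).trans ?_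
  refine integral_congr_ae (Eventually.of_forall fun ξ => ?_)
  refine integral_congr_ae (Eventually.of_forall fun ξ' => ?_)
  simp only [hG, chain_ob, Function.comp_apply]
  congr 2
  rw [add_smul]; abel

theorem chainF_int {m : Measure (N → ℝ)} [IsProbabilityMeasure m] {Λ u δ : ℝ}
    (hb : ∀ᵐ w ∂m, w ⬝ᵥ w ≤ Λ) (hu : 0 ≤ u) (h0 : 0 ≤ δ) :
    Integrable (fun w => chainF m u δ (w.1, ob (1 : Matrix N N ℝ) u w.1 w.2)) (m.prod (gpi N)) ∧
    psi 1 (1 : Matrix N N ℝ) m (u + δ) - psi 1 (1 : Matrix N N ℝ) m u =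
      ∫ x, ∫ ξ, chainF m u δ (x, ob (1 : Matrix N N ℝ) u x ξ) ∂(gpi N) ∂m := by
  have i1 := chain_int1 hb hu
  have i2 := (chain_int2 hb hu h0).integral_prod_left
  have i3 : Integrable (fun w => chainF m u δ (w.1, ob (1 : Matrix N N ℝ) u w.1 w.2))
      (m.prod (gpi N)) := i2.sub i1
  refine ⟨i3, ?_⟩
  rw [chain_psi_add hb hu h0]
  unfold psi
  rw [← integral_prod _ i1, ← integral_prod _ i2, ← integral_prod _ i3, ← integral_sub i2 i1]
  rfl

end aux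


/-- `√(u+δ) ξ'' ~ √u ξ + √δ ξ'` (`gpi_map_cov`, `gpi_map_sum`), so with `Y = u w + √u ξ`,
`psi (u+δ) = E log Z (u+δ, Y + (δ w + √δ ξ'))`.  With the posterior
`post y = m.withDensity (wt 1 u y · / Zf 1 m u y)` (a probability measure, same bound `Λ`, mean
`Mf 1 m u y`): `Zf 1 m (u+δ) (y+y') = Zf 1 m u y * Zf 1 (post y) δ y'`.  By `bayes_integral`
(`F (w, y) = ∫ ξ', log (Z (u+δ, y + δ w + √δ ξ') / Z (u, y))`),
`psi (u+δ) - psi u = ∫ ξ, Z (u, √u ξ) * psi 1 1 (post (√u ξ)) δ`, `mm u = ∫ ξ, Z * |Mf|²`,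
`∫ ξ, Z = 1`.  Apply `psi_small`. -/
theorem psi_step_white {N : Type} [Fintype N] [DecidableEq N] (m : Measure (N → ℝ))
    [IsProbabilityMeasure m] {Λ u δ : ℝ} (hb : ∀ᵐ w ∂m, w ⬝ᵥ w ≤ Λ) (hu : 0 ≤ u) (h0 : 0 ≤ δ)
    (h1 : δ ≤ 1) :
    δ / 2 * mm 1 (1 : Matrix N N ℝ) m u ≤ psi 1 (1 : Matrix N N ℝ) m (u + δ) - psi 1 (1 : Matrix N N ℝ) m u ∧
    psi 1 (1 : Matrix N N ℝ) m (u + δ) - psi 1 (1 : Matrix N N ℝ) m u ≤
      δ / 2 * mm 1 (1 : Matrix N N ℝ) m u + cS Λ * δ ^ 2 := by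
  have hL := chain_coord hb
  obtain ⟨i3, e3⟩ := chainF_int hb hu h0
  obtain ⟨j3, f3⟩ := chain_bayes hu (chainF_meas m u δ) i3
  simp only [chainF_post hb hu h0] at j3 f3
  rw [e3, f3]
  -- the energy of the posterior mean
  obtain ⟨G, hG⟩ : ∃ G : (N → ℝ) → ℝ,
    G = fun y => Mf (1 : Matrix N N ℝ) m u y ⬝ᵥ Mf (1 : Matrix N N ℝ) m u y := ⟨_, rfl⟩
  have hGm : Measurable G := by
    rw [hG]
    exact Finset.measurable_sum _ fun k _ =>
      ((measurable_pi_apply k).comp measurable_Mf').mul ((measurable_pi_apply k).comp measurable_Mf')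
  have hGb : ∀ y, |G y| ≤ ∑ _k : N, √Λ * √Λ := by
    intro y
    rw [hG]
    refine (Finset.abs_sum_le_sum_abs _ _).trans (Finset.sum_le_sum fun k _ => ?_)
    rw [abs_mul]
    exact mul_le_mul (abs_Mf_le hL y k) (abs_Mf_le hL y k) (abs_nonneg _) (Real.sqrt_nonneg _)
  obtain ⟨j2, f2⟩ := chain_bayes (m := m) hu (F := fun p => G p.2) (hGm.comp measurable_snd)
    (Integrable.mono' (integrable_const (∑ _k : N, √Λ * √Λ))
      (hGm.comp (chain_ob_meas u)).aestronglyMeasurable (Eventually.of_forall fun w => hGb _))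
  obtain ⟨j1, f1⟩ := chain_bayes (m := m) hu (F := fun _ => 1) measurable_const
    (integrable_const _)
  simp only [integral_mul_const] at j1 f1 j2 f2
  have e2 : mm 1 (1 : Matrix N N ℝ) m u =
      ∫ ξ, Zf (1 : Matrix N N ℝ) m u (√u • ξ) * G (√u • ξ) ∂(gpi N) := by
    refine Eq.trans ?_ f2
    simp only [mm, hG, Matrix.one_mulVec]
  have e1 : ∫ ξ, Zf (1 : Matrix N N ℝ) m u (√u • ξ) ∂(gpi N) = 1 := by
    simpa [Zf] using f1.symm
  have k1 : Integrable (fun ξ => Zf (1 : Matrix N N ℝ) m u (√u • ξ)) (gpi N) := by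
    simpa [Zf] using j1
  have k2 : Integrable (fun ξ => Zf (1 : Matrix N N ℝ) m u (√u • ξ) * G (√u • ξ)) (gpi N) := j2
  have hs : ∀ y, δ / 2 * G y ≤ psi 1 (1 : Matrix N N ℝ) (chainPost m u y) δ ∧
      psi 1 (1 : Matrix N N ℝ) (chainPost m u y) δ ≤ δ / 2 * G y + cS Λ * δ ^ 2 := by
    intro y
    have := chainPost_prob hb hu y
    have h := psi_small (chainPost m u y) (chainPost_ae hb u y) h0 h1
    rw [chainPost_mean hb hu y] at h
    rw [hG]; exact h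
  have hZ : ∀ y, 0 ≤ Zf (1 : Matrix N N ℝ) m u y := fun y => (Zf_pos (chain_wt_int hb hu y)).le
  rw [e2]
  constructor
  · rw [← integral_const_mul]
    refine integral_mono (k2.const_mul _) j3 fun ξ => ?_
    have := mul_le_mul_of_nonneg_left (hs (√u • ξ)).1 (hZ (√u • ξ))
    beta_reduce
    linarith
  · have e : δ / 2 * ∫ ξ, Zf (1 : Matrix N N ℝ) m u (√u • ξ) * G (√u • ξ) ∂(gpi N) + cS Λ * δ ^ 2 =
        ∫ ξ, (δ / 2 * (Zf (1 : Matrix N N ℝ) m u (√u • ξ) * G (√u • ξ)) +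
          cS Λ * δ ^ 2 * Zf (1 : Matrix N N ℝ) m u (√u • ξ)) ∂(gpi N) := by
      rw [integral_add (k2.const_mul _) (k1.const_mul _), integral_const_mul, integral_const_mul,
        e1, mul_one]
    rw [e]
    refine integral_mono j3 ((k2.const_mul _).add (k1.const_mul _)) fun ξ => ?_
    have := mul_le_mul_of_nonneg_left (hs (√u • ξ)).2 (hZ (√u • ξ))
    beta_reduce
    linarith

end Crest.Agent.R166.B
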