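import Crest.Agent.R166.B.Defs

/-! # From frequencies to functionals -/

set_option autoImplicit false
set_option linter.unusedVariables false
set_option linter.unusedSectionVars false

open MeasureTheory ProbabilityTheory Filter Topology Matrix
open scoped ENNReal BoundedContinuousFunction Kronecker

namespace Crest.Agent.R166.B

/-- from cell frequencies to a continuous functional (bounded on the cube `[0,1]^T`) -/
theorem conv_expect {C T : Type} [Fintype T] (F : Filter C) {Ω : C → Type}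
    [∀ c, MeasurableSpace (Ω c)] (P : ∀ c, Measure (Ω c)) [∀ c, IsProbabilityMeasure (P c)]
    (X : ∀ c, Ω c → T → ℝ) (hX : ∀ c, Measurable (X c)) (h01 : ∀ c ξ t, X c ξ t ∈ Set.Icc (0 : ℝ) 1)
    (m : T → ℝ) (h : ∀ t (ε : ℝ), 0 < ε → Tendsto (fun c => P c {ξ | ε < |X c ξ t - m t|}) F (𝓝 0))
    {Ξ : (T → ℝ) → ℝ} (hΞ : Continuous Ξ) :
    Tendsto (fun c => ∫ ξ, Ξ (X c ξ) ∂(P c)) F (𝓝 (Ξ m)) := by
  obtain ⟨M, hM⟩ := (isCompact_univ_pi fun _ : T => isCompact_Icc (a := (0 : ℝ)) (b := 1)).exists_bound_of_continuousOn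
    (hΞ.sub (continuous_const (y := Ξ m))).continuousOn
  have hb : ∀ c ξ, ‖Ξ (X c ξ) - Ξ m‖ ≤ M := fun c ξ => hM _ fun t _ => h01 c ξ t
  refine Metric.tendsto_nhds.2 fun ε hε => ?_
  obtain ⟨δ, hδ, h1⟩ := Metric.continuousAt_iff.1 (hΞ.continuousAt (x := m)) _ (half_pos hε)
  have h2 : Tendsto (fun c => (∑ t, P c {ξ | δ / 2 < |X c ξ t - m t|}).toReal * |M|) F (𝓝 0) := by
    have := tendsto_finsetSum Finset.univ fun t _ => h t _ (half_pos hδ)
    rw [Finset.sum_const_zero] at this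
    simpa using ((ENNReal.tendsto_toReal ENNReal.zero_ne_top).comp this).mul_const |M|
  filter_upwards [h2.eventually (gt_mem_nhds (half_pos hε))] with c hc
  have hmΞ : Measurable fun ξ => Ξ (X c ξ) - Ξ m := (hΞ.measurable.comp (hX c)).sub_const _
  have hi : Integrable (fun ξ => Ξ (X c ξ) - Ξ m) (P c) :=
    Integrable.of_bound hmΞ.aestronglyMeasurable M (ae_of_all _ (hb c))
  set U : Set (Ω c) := ⋃ t, {ξ | δ / 2 < |X c ξ t - m t|} with hU
  have hUm : MeasurableSet U := MeasurableSet.iUnion fun t => measurableSet_lt measurable_const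
    (((measurable_pi_apply t).comp (hX c)).sub_const _).abs
  have h3 : ∀ ξ, ‖Ξ (X c ξ) - Ξ m‖ ≤ ε / 2 + U.indicator (fun _ => |M|) ξ := fun ξ => by
    by_cases hξ : ξ ∈ U
    · rw [Set.indicator_of_mem hξ]
      linarith [hb c ξ, le_abs_self M]
    · rw [Set.indicator_of_notMem hξ, add_zero, ← dist_eq_norm]
      simp only [hU, Set.mem_iUnion, Set.mem_setOf_eq, not_exists, not_lt] at hξ
      exact (h1 (((dist_pi_le_iff (half_pos hδ).le).2 hξ).trans_lt (half_lt_self hδ))).le
  have h4 : ∫ ξ, Ξ (X c ξ) ∂(P c) - Ξ m = ∫ ξ, (Ξ (X c ξ) - Ξ m) ∂(P c) := by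
    rw [integral_sub ((hi.add (integrable_const (Ξ m))).congr (ae_of_all _ fun ξ => by simp)) (integrable_const _)]
    simp
  have hI := (integrable_const (μ := P c) |M|).indicator hUm
  have h5 := norm_integral_le_of_norm_le ((integrable_const (ε / 2)).add hI) (ae_of_all _ h3)
  have h6 : (P c).real U ≤ (∑ t, P c {ξ | δ / 2 < |X c ξ t - m t|}).toReal :=
    ENNReal.toReal_mono (ENNReal.sum_ne_top.2 fun t _ => measure_ne_top _ _)
      (measure_iUnion_fintype_le _ _)
  simp only [Pi.add_apply] at h5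
  rw [integral_add (integrable_const _) hI, integral_indicator_const _ hUm] at h5
  simp only [integral_const, probReal_univ, smul_eq_mul, one_mul] at h5
  rw [dist_eq_norm, h4]
  linarith [mul_le_mul_of_nonneg_right h6 (abs_nonneg M)]

theorem frontier_null {α T : Type} [TopologicalSpace α] [MeasurableSpace α] {μ : Measure α}
    {τ : α → T} (h : ∀ᵐ q ∂μ, ∀ᶠ q' in 𝓝 q, τ q' = τ q) (t : T) : μ (frontier (τ ⁻¹' {t})) = 0 := by
  refine measure_mono_null (fun q hq => ?_) (ae_iff.1 h)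
  intro (hq' : ∀ᶠ q' in 𝓝 q, τ q' = τ q)
  by_cases h1 : τ q = t
  · exact hq.2 (mem_interior_iff_mem_nhds.2 (hq'.mono fun q' h2 => h2.trans h1))
  · obtain ⟨q', h2, h3⟩ := ((mem_closure_iff_frequently.1 hq.1).and_eventually hq').exists
    exact h1 (h3.symm.trans h2)

end Crest.Agent.R166.B
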