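import Crest.Agent.R166.B.Defs

/-! # Convergence in probability of random empirical laws -/

set_option autoImplicit false
set_option linter.unusedVariables false
set_option linter.unusedSectionVars false

open MeasureTheory ProbabilityTheory Filter Topology Matrix
open scoped ENNReal BoundedContinuousFunction Kronecker

namespace Crest.Agent.R166.B

section Aux
variable {S K : Type} [TopologicalSpace S] [CompactSpace S] [Fintype K]

private noncomputable def gen (t : C(S, ℝ) × (K → ℝ) × ℝ) : S × (K → ℝ) →ᵇ ℝ :=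
  BoundedContinuousFunction.ofNormedAddCommGroup
    (fun q => t.1 q.1 * Real.cos (t.2.2 + t.2.1 ⬝ᵥ q.2)) (by fun_prop) ‖t.1‖ fun q => by
      rw [norm_mul]
      exact (mul_le_of_le_one_right (norm_nonneg _) (Real.abs_cos_le_one _)).trans
        (t.1.norm_coe_le_norm _)

private theorem gen_apply (t : C(S, ℝ) × (K → ℝ) × ℝ) (q : S × (K → ℝ)) :
    gen t q = t.1 q.1 * Real.cos (t.2.2 + t.2.1 ⬝ᵥ q.2) := rfl

private noncomputable def alg (S K : Type) [TopologicalSpace S] [CompactSpace S] [Fintype K] :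
    StarSubalgebra ℝ (S × (K → ℝ) →ᵇ ℝ) where
  toSubalgebra := (Submodule.span ℝ (Set.range gen)).toSubalgebra
    (Submodule.subset_span ⟨(1, 0, 0), by ext q; simp [gen_apply]⟩) fun x y hx hy => by
      have h := Submodule.mul_mem_mul hx hy
      rw [Submodule.span_mul_span] at h
      refine Submodule.span_le.2 ?_ h
      rintro _ ⟨_, ⟨t, rfl⟩, _, ⟨t', rfl⟩, rfl⟩
      have : gen t * gen t' = (1 / 2 : ℝ) • (gen (t.1 * t'.1, t.2.1 + t'.2.1, t.2.2 + t'.2.2) +
          gen (t.1 * t'.1, t.2.1 - t'.2.1, t.2.2 - t'.2.2)) := by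
        ext q
        simp only [BoundedContinuousFunction.mul_apply, BoundedContinuousFunction.smul_apply,
          BoundedContinuousFunction.add_apply, gen_apply, ContinuousMap.mul_apply, add_dotProduct,
          sub_dotProduct, smul_eq_mul]
        rw [add_add_add_comm, ← add_sub_add_comm, Real.cos_sub,
          Real.cos_add (t.2.2 + t.2.1 ⬝ᵥ q.2)]
        ring
      change gen t * gen t' ∈ Submodule.span ℝ (Set.range gen)
      rw [this]
      exact Submodule.smul_mem _ _
        (add_mem (Submodule.subset_span ⟨_, rfl⟩) (Submodule.subset_span ⟨_, rfl⟩))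
  star_mem' {x} hx := by
    have : star x = x := by ext q; simp
    rwa [this]

private theorem alg_sep [T2Space S] :
    ((alg S K).map (BoundedContinuousFunction.toContinuousMapStarₐ ℝ)).SeparatesPoints := by
  classical
  intro q q' h
  suffices ∃ t, gen t q ≠ gen t q' by
    obtain ⟨t, ht⟩ := this
    exact ⟨_, ⟨_, ⟨gen t, Submodule.subset_span ⟨t, rfl⟩, rfl⟩, rfl⟩, ht⟩
  by_cases h1 : q.1 = q'.1
  · obtain ⟨k, hk⟩ := Function.ne_iff.1 fun h2 => h (Prod.ext h1 h2)
    have hk' := sub_ne_zero.2 hk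
    refine ⟨(1, Pi.single k (Real.pi / (q.2 k - q'.2 k)),
      -(Real.pi / (q.2 k - q'.2 k) * q'.2 k)), ?_⟩
    simp only [gen_apply, single_dotProduct, ContinuousMap.one_apply, one_mul, neg_add_cancel]
    rw [show -(Real.pi / (q.2 k - q'.2 k) * q'.2 k) + Real.pi / (q.2 k - q'.2 k) * q.2 k = Real.pi by
      field_simp; ring, Real.cos_pi, Real.cos_zero]
    norm_num
  · obtain ⟨f, h2, h3, -⟩ := exists_continuous_zero_one_of_isClosed (isClosed_singleton (x := q.1))
      (isClosed_singleton (x := q'.1)) (Set.disjoint_singleton.2 h1)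
    refine ⟨(f, 0, 0), ?_⟩
    simp [gen_apply, h2 rfl, h3 rfl]

private theorem weak_conv [PolishSpace S] [MeasurableSpace S] [BorelSpace S] {ι : Type}
    {𝓕 : Filter ι} {ν : ι → ProbabilityMeasure (S × (K → ℝ))} {μ : ProbabilityMeasure (S × (K → ℝ))}
    {C : ℝ} (hC : 0 < C) (hi : ∀ i, Integrable (fun q => ‖q.2‖ ^ 2) (ν i : Measure (S × (K → ℝ))))
    (hm : ∀ i, ∫ q, ‖q.2‖ ^ 2 ∂(ν i : Measure (S × (K → ℝ))) ≤ C)
    (h : ∀ t, Tendsto (fun i => ∫ q, gen t q ∂(ν i : Measure (S × (K → ℝ)))) 𝓕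
      (𝓝 (∫ q, gen t q ∂(μ : Measure (S × (K → ℝ)))))) : Tendsto ν 𝓕 (𝓝 μ) := by
  refine ProbabilityMeasure.tendsto_of_tight_of_separatesPoints ℝ
    (isTightMeasureSet_iff_exists_isCompact_measure_compl_le.2 fun δ hδ => ?_) alg_sep fun g hg => ?_
  · obtain ⟨c, -, h3, h4⟩ := ENNReal.lt_iff_exists_real_btwn.1 hδ
    have hc := ENNReal.ofReal_pos.1 h3
    refine ⟨Set.univ ×ˢ Metric.closedBall 0 (√(C / c)),
      isCompact_univ.prod (isCompact_closedBall _ _), ?_⟩
    rintro _ ⟨i, rfl⟩
    have h1 := mul_meas_ge_le_integral_of_nonneg (ae_of_all _ fun q => sq_nonneg _) (hi i) (C / c)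
    have h2 : (Set.univ ×ˢ Metric.closedBall 0 (√(C / c)) : Set (S × (K → ℝ)))ᶜ ⊆
        {q | C / c ≤ ‖q.2‖ ^ 2} := by
      intro q hq
      simp only [Set.mem_compl_iff, Set.mem_prod, Set.mem_univ, true_and, mem_closedBall_zero_iff,
        not_le] at hq
      exact ((Real.sqrt_lt' (lt_of_le_of_lt (Real.sqrt_nonneg _) hq)).1 hq).le
    refine (measure_mono h2).trans (le_trans ?_ h4.le)
    rw [← ofReal_measureReal]
    refine ENNReal.ofReal_le_ofReal
      (le_of_mul_le_mul_left (h1.trans ((hm i).trans (le_of_eq ?_))) (div_pos hC hc))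
    field_simp
  · change g ∈ Submodule.span ℝ (Set.range gen) at hg
    induction hg using Submodule.span_induction with
    | mem x hx => obtain ⟨t, rfl⟩ := hx; exact h t
    | zero => simpa using tendsto_const_nhds
    | add x y _ _ hx hy =>
      simp only [BoundedContinuousFunction.add_apply,
        integral_add (x.integrable _) (y.integrable _)]
      exact hx.add hy
    | smul a x _ hx =>
      simp only [BoundedContinuousFunction.smul_apply, smul_eq_mul, integral_const_mul]
      exact hx.const_mul a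

/-- sets whose fibres have probability tending to one -/
private def fibF {C : Type} (F : Filter C) {Ω : C → Type} [∀ c, MeasurableSpace (Ω c)]
    (P : ∀ c, Measure (Ω c)) : Filter (Σ c, Ω c) where
  sets := {T | Tendsto (fun c => P c {ξ | ⟨c, ξ⟩ ∉ T}) F (𝓝 0)}
  univ_sets := by simpa using tendsto_const_nhds
  sets_of_superset {T T'} h hT := tendsto_of_tendsto_of_tendsto_of_le_of_le tendsto_const_nhds h
    (fun _ => zero_le) fun c => measure_mono fun ξ h1 h2 => h1 (hT h2)
  inter_sets {T T'} h h' := by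
    have := Tendsto.add h h'
    rw [add_zero] at this
    exact tendsto_of_tendsto_of_tendsto_of_le_of_le tendsto_const_nhds this (fun _ => zero_le)
      fun c => (measure_mono fun ξ h1 => not_and_or.1 h1).trans (measure_union_le _ _)

end Aux

/-- Let `𝓖` be the filter on `Σ c, Ω c` of sets whose fibres have probability `→ 1` along `F`.
Fix `ε₀`; on the subtype `{(c, ξ) | W c nonempty, avg ‖y‖² ≤ C / ε₀}` the empirical laws are tight,
and along the pull-back of `𝓖` they converge weakly to `μ`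
(`ProbabilityMeasure.tendsto_of_tight_of_separatesPoints ℝ` with the algebra spanned by the
multiplicatively stable family `f σ * cos (φ + θ ⬝ y)`); portmanteau
(`tendsto_measure_of_null_frontier_of_tendsto'`) and Markov give the claim. -/
theorem conv_prob {C S K : Type} [TopologicalSpace S] [CompactSpace S] [PolishSpace S]
    [MeasurableSpace S] [BorelSpace S] [Fintype K] (F : Filter C) {Ω W : C → Type}
    [∀ c, MeasurableSpace (Ω c)] (P : ∀ c, Measure (Ω c)) [∀ c, IsProbabilityMeasure (P c)]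
    [∀ c, Fintype (W c)] (s : ∀ c, Ω c → W c → S × (K → ℝ))
    (hs : ∀ c v, Measurable fun ξ => s c ξ v) (hW : ∀ᶠ c in F, Nonempty (W c))
    (μ : Measure (S × (K → ℝ))) [IsProbabilityMeasure μ] {C₀ : ℝ}
    (hm : ∀ᶠ c in F, ∫⁻ ξ, ENNReal.ofReal (avg fun v => ‖(s c ξ v).2‖ ^ 2) ∂(P c) ≤
      ENNReal.ofReal C₀)
    (hχ : ∀ (f : C(S, ℝ)) (θ : K → ℝ) (φ ε : ℝ), 0 < ε → Tendsto (fun c => P c {ξ |
      ε < |(avg fun v => f (s c ξ v).1 * Real.cos (φ + θ ⬝ᵥ (s c ξ v).2)) -
        ∫ q, f q.1 * Real.cos (φ + θ ⬝ᵥ q.2) ∂μ|}) F (𝓝 0))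
    {A : Set (S × (K → ℝ))} (hA : MeasurableSet A) (hfr : μ (frontier A) = 0) {ε : ℝ}
    (hε : 0 < ε) :
    Tendsto (fun c => P c {ξ | ε < |(frac fun v => s c ξ v ∈ A) - μ.real A|}) F (𝓝 0) := by
  refine ENNReal.tendsto_nhds_zero.2 fun δ hδ => ?_
  obtain ⟨δ', -, h3, h4⟩ := ENNReal.lt_iff_exists_real_btwn.1 (ENNReal.half_pos hδ.ne')
  have hδ' := ENNReal.ofReal_pos.1 h3
  set C₁ := (|C₀| + 1) / δ' with hC₁
  have hC : 0 < C₁ := by positivity
  let ι := {w : Σ c, Ω c // Nonempty (W w.1) ∧ (avg fun v => ‖(s w.1 w.2 v).2‖ ^ 2) ≤ C₁}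
  let _ : ∀ c, MeasurableSpace (W c) := fun _ => ⊤
  have hms : ∀ c ξ, Measurable (s c ξ) := fun c ξ => measurable_from_top
  let ν : ι → ProbabilityMeasure (S × (K → ℝ)) := fun w =>
    ⟨(uniformOn Set.univ).map (s w.1.1 w.1.2), by
      have := w.2.1
      exact Measure.isProbabilityMeasure_map (hms _ _).aemeasurable⟩
  have hν : ∀ (w : ι) (g : S × (K → ℝ) → ℝ), Continuous g →
      ∫ q, g q ∂(ν w : Measure (S × (K → ℝ))) = avg fun v => g (s w.1.1 w.1.2 v) := fun w g hg =>
    (integral_map (hms _ _).aemeasurable hg.aestronglyMeasurable).trans (integral_uniformOn_univ _)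
  have hc2 : Continuous fun q : S × (K → ℝ) => ‖q.2‖ ^ 2 := by fun_prop
  have h1 : Tendsto ν ((fibF F P).comap Subtype.val) (𝓝 ⟨μ, inferInstance⟩) := by
    refine weak_conv hC (fun w => ?_) (fun w => (hν w _ hc2).trans_le w.2.2) fun t => ?_
    · have := w.2.1
      exact (integrable_map_measure hc2.aestronglyMeasurable (hms _ _).aemeasurable).2
        Integrable.of_finite
    · simp only [fun w => hν w _ (gen t).continuous]
      refine Tendsto.comp (g := fun w : Σ c, Ω c => avg fun v => gen t (s w.1 w.2 v))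
        (Metric.tendsto_nhds.2 fun e he => ?_) tendsto_comap
      refine tendsto_of_tendsto_of_tendsto_of_le_of_le tendsto_const_nhds
        (hχ t.1 t.2.1 t.2.2 _ (half_pos he)) (fun _ => zero_le) fun c => measure_mono fun ξ hξ => ?_
      exact (half_lt_self he).trans_le (not_lt.1 hξ)
  have h2 := (ENNReal.tendsto_toReal (measure_ne_top μ A)).comp
    (ProbabilityMeasure.tendsto_measure_of_null_frontier_of_tendsto' h1 hfr)
  obtain ⟨T, hT, h5⟩ := mem_comap.1 (Metric.tendsto_nhds.1 h2 ε hε)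
  filter_upwards [hW, hm, ENNReal.tendsto_nhds_zero.1 hT _ h3] with c k1 k2 k3
  have k4 : P c {ξ | ENNReal.ofReal C₁ ≤ ENNReal.ofReal (avg fun v => ‖(s c ξ v).2‖ ^ 2)} ≤
      ENNReal.ofReal δ' := by
    refine (meas_ge_le_lintegral_div (measurable_avg fun v =>
      hc2.measurable.comp (hs c v)).ennreal_ofReal.aemeasurable (ENNReal.ofReal_pos.2 hC).ne'
      ENNReal.ofReal_ne_top).trans ((ENNReal.div_le_div_right k2 _).trans ?_)
    refine ENNReal.div_le_of_le_mul ?_
    rw [← ENNReal.ofReal_mul hδ'.le, hC₁, mul_div_cancel₀ _ hδ'.ne']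
    exact ENNReal.ofReal_le_ofReal (by linarith [le_abs_self C₀])
  refine (measure_mono fun ξ hξ => ?_).trans ((measure_union_le _ _).trans
    ((add_le_add (k3.trans h4.le) (k4.trans h4.le)).trans (ENNReal.add_halves δ).le))
  by_contra k5
  simp only [Set.mem_union, Set.mem_setOf_eq, not_or, not_not, not_le] at k5
  have k6 := h5 (show (⟨⟨c, ξ⟩, k1, ((ENNReal.ofReal_lt_ofReal_iff hC).1 k5.2).le⟩ : ι) ∈
    Subtype.val ⁻¹' T from k5.1)
  have k7 : (((uniformOn Set.univ).map (s c ξ)) A).toReal = frac fun v => s c ξ v ∈ A := by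
    rw [Measure.map_apply (hms _ _) hA]
    exact uniformOn_univ_real _
  refine absurd (show ε < _ from hξ) (not_lt.2 ?_)
  rw [← k7]
  exact le_of_lt k6

end Crest.Agent.R166.B
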