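import Crest.Agent.R166.B.Flip

/-! # Weak form of a small deficiency -/

set_option autoImplicit false
set_option linter.unusedVariables false
set_option linter.unusedSectionVars false

open MeasureTheory ProbabilityTheory Filter Topology Matrix
open scoped ENNReal BoundedContinuousFunction Kronecker

namespace Crest.Agent.R166.B

section
variable {D p : ℕ} {s : ℝ} {β : Measure J} [IsProbabilityMeasure β] {z : ℂ} {L : ℝ}
  {μ : Measure (SX D p)} [IsProbabilityMeasure μ]
  {κ : Kernel (StarEnv D) (SV D × Fin p → ℝ)} [IsMarkovKernel κ]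
  {κ' : Kernel (Env D × Env D) (Fin 2 × Fin p → ℝ)} [IsMarkovKernel κ']

theorem ae_tri_star {P : StarEnv D → Prop} {B : StarEnv D → Matrix (SV D × Fin p) ((SV D ⊕ SV D) × Fin p) ℝ}
    (hB : MeasM B) (hfst : μ.map Prod.fst = starLaw D β) (u : ℝ) (h : ∀ᵐ σ ∂(starLaw D β), P σ) :
    ∀ᵐ w ∂(tri μ B u), P w.1.1 := by
  rw [← hfst] at h
  have h1 := ae_of_ae_map measurable_fst.aemeasurable h
  rw [← tri_fst μ hB u] at h1
  exact ae_of_ae_map measurable_fst.aemeasurable h1

/-- the edge posterior mean of a bounded field is bounded -/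
theorem ae_abs_phi_le (hb : ∀ᵐ q ∂μ, ∀ k, |q.2 k| ≤ L) (hd : Dis β μ κ κ') (mf : Env D → ℂ) (u : ℝ)
    (j : Fin (D + 1)) : ∀ᵐ σ ∂(starLaw D β), ∀ y k, |phi mf κ' u j σ y k| ≤ L := by
  have h1 : ∀ᵐ q ∂(edgeLaw μ), ∀ k, |q.2 k| ≤ L := ae_edgeLaw_of
    (by simp only [Set.setOf_forall]; exact MeasurableSet.iInter fun k => by measurability)
    fun j => hb.mono fun q hq k => hq _
  rw [hd.edge] at h1
  have h2 := Measure.ae_ae_of_ae_compProd h1
  rw [← map_eEnv β j] at h2
  exact (ae_of_ae_map (continuous_eEnv j).measurable.aemeasurable h2).mono fun σ h y k =>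
    abs_Mf_le h _ _

theorem measurable_phi {mf : Env D → ℂ} (hm : Measurable mf) (u : ℝ) (j : Fin (D + 1)) :
    Measurable fun q : SX D p => phi mf κ' u j q.1 q.2 := by
  have := (measurable_Mf (measM_PE p hm) κ' u).comp (continuous_edgeJ j).measurable
  simpa only [Function.comp_def, edgeJ, phi] using this

/-- `tri_ce` (test functions `h`, `Re m_j h`, `Im m_j h`) replaces `x` by the posterior mean;
Cauchy–Schwarz. -/
theorem weak_of_Del (hz : 0 < z.im) (hb : ∀ᵐ q ∂μ, ∀ k, |q.2 k| ≤ L) (hd : Dis β μ κ κ') {u r : ℝ}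
    (hu : 0 ≤ u) (h : Del s z (mT s z) μ κ κ' u ≤ r) : Weak s z μ κ' u r := by
  intro j a g hg hg1
  have hmT := (continuous_mT (D := D) (s := s) hz).measurable
  have hB := measM_BS p s z hmT
  have hc := gch_star (p := p) (cav_mT s β hz) hd.star (Or.inl hz)
  have := tri_prob μ hB u
  set T := tri μ (BS p s z (mT s z)) u with hT
  have hx : ∀ᵐ w ∂T, ∀ k, |w.1.2 k| ≤ L :=
    ae_of_ae_map measurable_fst.aemeasurable ((tri_fst μ hB u).symm ▸ hb)
  have hq : Measurable fun w : SX D p × (SV D × Fin p → ℝ) => (w.1.1, w.2) := by fun_prop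
  set M : SX D p × (SV D × Fin p → ℝ) → SV D × Fin p → ℝ :=
    fun w => Mf (PS p s z (mT s z) w.1.1) (κ w.1.1) u w.2 with hM
  have hMm : Measurable M := (measurable_Mf hc.mP κ u).comp hq
  set m : SX D p → ℂ := fun q => mT s z (q.1.2 j) with hm
  have hmm : Measurable m := hmT.comp (by fun_prop)
  have hmb : ∀ q, ‖m q‖ ≤ 1 / z.im := fun q => norm_mT_le hz _
  have ce : ∀ k (f : SX D p → ℝ), Measurable f → (∀ q, |f q| ≤ 1 / z.im ∨ |f q| ≤ 1) →
      Integrable (fun w => (((w.1.2 k - M w k) * f (w.1.1, w.2) : ℝ) : ℂ)) T ∧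
      ∫ w, (((w.1.2 k - M w k) * f (w.1.1, w.2) : ℝ) : ℂ) ∂T = 0 := fun k f hf hf1 => by
    have h1 : Integrable (fun w => w.1.2 k * f (w.1.1, w.2)) T :=
      Integrable.of_bound (Measurable.aestronglyMeasurable (by fun_prop)) (L * max (1 / z.im) 1)
        (hx.mono fun w hw => by
          rw [norm_mul]
          exact mul_le_mul (hw k) (le_max_iff.2 (hf1 _)) (norm_nonneg _)
            ((abs_nonneg _).trans (hw k)))
    have h2 := tri_ce hc hu k (Integrable.of_bound (Measurable.aestronglyMeasurable (by fun_prop)) L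
      ((hd.star ▸ hb).mono fun q hq => hq k)) hf (hd.star ▸ h1)
    rw [← hd.star] at h2
    simp only [sub_mul]
    exact ⟨(h1.sub h2.1).ofReal, by rw [integral_complex_ofReal, integral_sub h1 h2.1, h2.2, sub_self]; rfl⟩
  have hg2 : ∀ (t : ℝ) q, |t| ≤ ‖m q‖ → |t * g q| ≤ 1 / z.im := fun t q ht => by
    rw [abs_mul]
    exact (mul_le_of_le_one_right (abs_nonneg _) (hg1 q)).trans (ht.trans (hmb q))
  obtain ⟨i1, e1⟩ := ce (some j, a) g hg fun q => Or.inr (hg1 q)
  obtain ⟨i2, e2⟩ := ce (none, a) (fun q => (m q).re * g q) (by fun_prop)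
    fun q => Or.inl (hg2 _ q (Complex.abs_re_le_norm _))
  obtain ⟨i3, e3⟩ := ce (none, a) (fun q => (m q).im * g q) (by fun_prop)
    fun q => Or.inl (hg2 _ q (Complex.abs_im_le_norm _))
  set R : SX D p × (SV D × Fin p → ℝ) → ℂ :=
    fun w => resid (mT s z) κ' u j a w.1.1 (M w) w.2 with hR
  have hφ := (measurable_phi (κ' := κ') hmT u j).comp hq
  have hRm : Measurable R := by
    refine Measurable.add (Complex.measurable_ofReal.comp ?_)
      ((hmm.comp hq).mul (Complex.measurable_ofReal.comp ?_))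
    all_goals exact ((measurable_pi_apply _).comp hMm).sub ((measurable_pi_apply _).comp hφ)
  have hRb : ∀ᵐ w ∂T, ‖R w‖ ≤ 2 * L + 1 / z.im * (2 * L) := by
    filter_upwards [ae_tri_star hB hd.fst.1 u (ae_abs_phi_le hb hd (mT s z) u j),
      ae_tri_star hB hd.fst.1 u (Measure.ae_ae_of_ae_compProd (hd.star ▸ hb))] with w h1 h2
    have h3 : ∀ k k', ‖((M w k - phi (mT s z) κ' u j w.1.1 w.2 k' : ℝ) : ℂ)‖ ≤ 2 * L := fun k k' => by
      rw [Complex.norm_real, Real.norm_eq_abs]
      linarith [abs_sub (M w k) (phi (mT s z) κ' u j w.1.1 w.2 k'), h1 w.2 k',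
        (abs_Mf_le h2 w.2 k : |M w k| ≤ L)]
    refine (norm_add_le _ _).trans (add_le_add (h3 _ _) ?_)
    rw [norm_mul]
    exact mul_le_mul (norm_mT_le hz _) (h3 _ _) (norm_nonneg _) (by positivity)
  have i0 : Integrable (fun w => R w * (g (w.1.1, w.2) : ℝ)) T :=
    Integrable.of_bound (Measurable.aestronglyMeasurable (by fun_prop)) _ (hRb.mono fun w hw => by
      rw [norm_mul, Complex.norm_real]
      exact (mul_le_of_le_one_right (norm_nonneg _) (hg1 _)).trans hw)
  have e0 : ∫ w, resid (mT s z) κ' u j a w.1.1 w.1.2 w.2 * (g (w.1.1, w.2) : ℝ) ∂T =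
      ∫ w, R w * (g (w.1.1, w.2) : ℝ) ∂T := by
    have := integral_add (i0.add i1) (i2.add (i3.const_mul Complex.I))
    simp only [Pi.add_apply] at this
    rw [integral_add i0 i1, integral_add i2 (i3.const_mul _), integral_const_mul, e1, e2, e3,
      mul_zero, add_zero, add_zero, add_zero] at this
    rw [← this]
    refine integral_congr_ae (ae_of_all _ fun w => ?_)
    simp only [hR, resid]
    rw [show mT s z (w.1.1.2 j) = m (w.1.1, w.2) from rfl, ← Complex.re_add_im (m (w.1.1, w.2))]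
    simp only [Complex.add_re, Complex.ofReal_re, Complex.mul_re, Complex.I_re, mul_zero,
      Complex.ofReal_im, Complex.I_im, mul_one, sub_self, add_zero, Complex.add_im, Complex.mul_im,
      zero_add]
    push_cast
    ring
  have hm0 : ∀ q, 0 < (m q).im := fun q => mT_im_pos hz _
  have hc0 : 0 < z.im / (|s| + ‖z‖ + D / z.im) ^ 2 :=
    div_pos hz (pow_pos (by have := hz.trans_le (Complex.im_le_norm z); positivity) 2)
  have iA : Integrable (fun w => ‖R w‖ ^ 2 / (m (w.1.1, w.2)).im) T :=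
    Integrable.of_bound (Measurable.aestronglyMeasurable (by fun_prop)) _ (hRb.mono fun w hw => by
      rw [Real.norm_of_nonneg (div_nonneg (sq_nonneg _) (hm0 _).le)]
      exact div_le_div₀ (sq_nonneg _) (pow_le_pow_left₀ (norm_nonneg _) hw 2) hc0 (mT_im_ge hz _))
  have iB : Integrable (fun w => (m (w.1.1, w.2)).im * g (w.1.1, w.2) ^ 2) T :=
    Integrable.of_bound (Measurable.aestronglyMeasurable (by fun_prop)) (1 / z.im)
      (ae_of_all _ fun w => by
        rw [Real.norm_of_nonneg (mul_nonneg (hm0 _).le (sq_nonneg _))]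
        exact (mul_le_of_le_one_right (hm0 _).le ((sq_le_one_iff_abs_le_one _).2 (hg1 _))).trans
          ((Complex.im_le_norm _).trans (hmb _)))
  have hA : ∫ w, ‖R w‖ ^ 2 / (m (w.1.1, w.2)).im ∂T ≤ r := by
    refine le_trans ?_ h
    have h0 : ∀ j a, 0 ≤ ∫ w, ‖resid (mT s z) κ' u j a w.1.1 (M w) w.2‖ ^ 2 /
        (mT s z (w.1.1.2 j)).im ∂T := fun j a =>
      integral_nonneg fun w => div_nonneg (sq_nonneg _) (mT_im_pos hz _).le
    exact (Finset.single_le_sum (fun a _ => h0 j a) (Finset.mem_univ a)).trans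
      (Finset.single_le_sum (fun j _ => Finset.sum_nonneg fun a _ => h0 j a) (Finset.mem_univ j))
  have hd2 := discrim_le_zero (a := ∫ w, ‖R w‖ ^ 2 / (m (w.1.1, w.2)).im ∂T)
    (b := -(2 * ∫ w, ‖R w * (g (w.1.1, w.2) : ℝ)‖ ∂T))
    (c := ∫ w, (m (w.1.1, w.2)).im * g (w.1.1, w.2) ^ 2 ∂T) fun t => by
      have := integral_mono (i0.norm.const_mul (2 * t)) ((iA.const_mul (t ^ 2)).add iB) fun w => by
        have k0 := hm0 (w.1.1, w.2)
        have k1 := div_nonneg (sq_nonneg (t * ‖R w‖ - (m (w.1.1, w.2)).im * |g (w.1.1, w.2)|)) k0.le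
        simp only [Pi.add_apply, norm_mul, Complex.norm_real, Real.norm_eq_abs]
        rw [← sq_abs (g _)]
        refine sub_nonneg.1 (k1.trans_eq ?_)
        field_simp
        ring
      simp only [Pi.add_apply] at this
      rw [integral_add (iA.const_mul _) iB, integral_const_mul, integral_const_mul] at this
      linarith
  rw [e0]
  refine (pow_le_pow_left₀ (norm_nonneg _) (norm_integral_le_integral_norm _) 2).trans
    (le_trans ?_ (mul_le_mul_of_nonneg_right hA
      (integral_nonneg fun w => mul_nonneg (hm0 _).le (sq_nonneg _))))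
  rw [discrim] at hd2
  linarith

end

end Crest.Agent.R166.B
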