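import Crest.Agent.R166.B.Gap
import Crest.Agent.R166.B.Weak

/-! # Small deficiency -/

set_option autoImplicit false
set_option linter.unusedVariables false
set_option linter.unusedSectionVars false

open MeasureTheory ProbabilityTheory Filter Topology Matrix
open scoped ENNReal BoundedContinuousFunction Kronecker

namespace Crest.Agent.R166.B

section
variable {D p : ℕ} {s : ℝ} {β : Measure J} [IsProbabilityMeasure β] {z : ℂ} {L : ℝ}
  {μ : Measure (SX D p)} [IsProbabilityMeasure μ]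
  {κ : Kernel (StarEnv D) (SV D × Fin p → ℝ)} [IsMarkovKernel κ]
  {κ' : Kernel (Env D × Env D) (Fin 2 × Fin p → ℝ)} [IsMarkovKernel κ']

/-- telescoping and pigeonhole -/
private theorem tele {F G : ℝ → ℝ} {C r ε : ℝ} (hε : 0 < ε)
    (hstep : ∀ u δ : ℝ, 0 ≤ u → 0 ≤ δ → δ ≤ 1 → δ / 2 * G u - C * δ ^ 2 ≤ F (u + δ) - F u)
    (hG : ∀ u, 0 ≤ G u) (h0 : F 0 = 0) (h2 : F 2 ≤ r) :
    ∃ u ∈ Set.Icc (1 : ℝ) 2, G u ≤ 2 * r + ε := by
  by_contra hcon
  push Not at hcon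
  obtain ⟨N, hN⟩ := exists_nat_gt (max 1 (4 * C / ε))
  have hN1 : (1 : ℝ) < N := (le_max_left _ _).trans_lt hN
  have hN0 : (0 : ℝ) < N := by linarith
  have hNC : 4 * C < N * ε := (div_lt_iff₀ hε).1 ((le_max_right _ _).trans_lt hN)
  set δ : ℝ := 1 / N with hδ
  have hδ0 : 0 < δ := by positivity
  have hδN : N * δ = 1 := by rw [hδ]; field_simp
  have hδ1 : δ ≤ 1 := by rw [hδ, div_le_one hN0]; exact hN1.le
  have h1 : ∀ k : ℕ, -(k * (C * δ ^ 2)) ≤ F (k * δ) := by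
    intro k
    induction k with
    | zero => simp [h0]
    | succ k ih =>
      have h3 := hstep (k * δ) δ (by positivity) hδ0.le hδ1
      have h4 : 0 ≤ δ / 2 * G (k * δ) := mul_nonneg (by positivity) (hG _)
      have e : ((k + 1 : ℕ) : ℝ) * δ = k * δ + δ := by push_cast; ring
      rw [e]; push_cast; linarith
  have h5 : ∀ k : ℕ, k ≤ N →
      F 1 + k * (δ / 2 * (2 * r + ε) - C * δ ^ 2) ≤ F (1 + k * δ) := by
    intro k
    induction k with
    | zero => intro _; simp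
    | succ k ih =>
      intro hk
      have hk' : (k : ℝ) ≤ N := by exact_mod_cast (by omega : k ≤ N)
      have hkδ : 0 ≤ (k : ℝ) * δ := by positivity
      have h3 := hstep (1 + k * δ) δ (by positivity) hδ0.le hδ1
      have h4 := hcon (1 + k * δ) ⟨by linarith, by nlinarith⟩
      have h6 : δ / 2 * (2 * r + ε) ≤ δ / 2 * G (1 + k * δ) :=
        mul_le_mul_of_nonneg_left h4.le (by positivity)
      have e : 1 + ((k + 1 : ℕ) : ℝ) * δ = 1 + k * δ + δ := by push_cast; ring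
      have h7 := ih (by omega)
      rw [e]; push_cast; linarith
  have h8 := h1 N
  have h9 := h5 N le_rfl
  rw [hδN] at h8 h9
  have e1 : (N : ℝ) * (C * δ ^ 2) = C * δ := by
    calc (N : ℝ) * (C * δ ^ 2) = (N * δ) * (C * δ) := by ring
      _ = C * δ := by rw [hδN, one_mul]
  have e2 : (N : ℝ) * (δ / 2 * (2 * r + ε) - C * δ ^ 2) = r + ε / 2 - C * δ := by
    calc (N : ℝ) * (δ / 2 * (2 * r + ε) - C * δ ^ 2) =
        (N * δ) * (r + ε / 2) - N * (C * δ ^ 2) := by ring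
      _ = r + ε / 2 - C * δ := by rw [hδN, one_mul, e1]
  rw [e1] at h8
  rw [e2, show (1 : ℝ) + 1 = 2 by norm_num] at h9
  have h10 : 4 * C * δ < ε := by
    calc 4 * C * δ < N * ε * δ := mul_lt_mul_of_pos_right hNC hδ0
      _ = (N * δ) * ε := by ring
      _ = ε := by rw [hδN, one_mul]
  linarith

private theorem form_le {K : Type} [Fintype K] {P : Matrix K K ℝ} {x : K → ℝ} {C L : ℝ}
    (hP : ∀ i j, |P i j| ≤ C) (hx : ∀ k, |x k| ≤ L) :
    x ⬝ᵥ P *ᵥ x ≤ ∑ _i : K, ∑ _j : K, L * (C * L) := by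
  simp only [dotProduct, Matrix.mulVec, Finset.mul_sum]
  refine Finset.sum_le_sum fun i _ => Finset.sum_le_sum fun j _ => (le_abs_self _).trans ?_
  rw [abs_mul, abs_mul]
  have hL : 0 ≤ L := (abs_nonneg _).trans (hx i)
  have hC : 0 ≤ C := (abs_nonneg _).trans (hP i j)
  exact mul_le_mul (hx i) (mul_le_mul (hP i j) (hx j) (abs_nonneg _) hC) (by positivity) hL

/-- telescope `Psi_step` over `u_k = k / N`, `k < 2N`; `gap`, `Del_nonneg`; pigeonhole on
`N ≤ k < 2N`. -/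
theorem exists_Del_le (hD : 1 ≤ D) (hz : 0 < z.im) (hb : ∀ᵐ q ∂μ, ∀ k, |q.2 k| ≤ L)
    (hd : Dis β μ κ κ') {r ε : ℝ} (hε : 0 < ε)
    (h : Psi (starLaw D β) κ (PS p s z (mT s z)) (BS p s z (mT s z)) 2 -
      (D + 1 : ℝ) / 2 * Psi (env2 D β) κ' (PE p (mT s z)) (BE p (mT s z)) 2 ≤ r) :
    ∃ u ∈ Set.Icc (1 : ℝ) 2, Del s z (mT s z) μ κ κ' u ≤ 2 * r + ε := by
  obtain ⟨C, -, hCS, -, -, hCE, -⟩ := bound_mats (D := D) p s hz
  have hc := cav_mT (D := D) s β hz
  have hS := gch_star (p := p) hc hd.star (Or.inl hz)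
  have hE := gch_edge (κ' := κ') hc
  have hbS : ∀ᵐ q ∂(starLaw D β ⊗ₘ κ), ∀ k, |q.2 k| ≤ L := hd.star ▸ hb
  have hbE : ∀ᵐ q ∂(env2 D β ⊗ₘ κ'), ∀ k, |q.2 k| ≤ L := by
    rw [← hd.edge]
    refine ae_edgeLaw_of ?_ fun j => hb.mono fun q hq k => hq _
    have : {q : EX D p | ∀ k, |q.2 k| ≤ L} = ⋂ k, {q | |q.2 k| ≤ L} := by ext; simp
    rw [this]
    exact MeasurableSet.iInter fun k => measurableSet_le
      (((measurable_pi_apply k).comp measurable_snd).abs) measurable_const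
  have hqS := hbS.mono fun q hq => form_le (hCS q.1) hq
  have hqE := hbE.mono fun q hq => form_le (hCE q.1) hq
  refine tele (F := fun u => Psi (starLaw D β) κ (PS p s z (mT s z)) (BS p s z (mT s z)) u -
      (D + 1 : ℝ) / 2 * Psi (env2 D β) κ' (PE p (mT s z)) (BE p (mT s z)) u)
    (C := (D + 1 : ℝ) / 2 * cS (∑ _i : Fin 2 × Fin p, ∑ _j : Fin 2 × Fin p, L * (C * L))) hε
    (fun u δ hu h0 h1 => ?_) (Del_nonneg hz) ?_ h
  · have h2 := (Psi_step hS hbS hqS hu h0 h1).1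
    have h3 := (Psi_step hE hbE hqE hu h0 h1).2
    have h4 := gap (s := s) hD hz hb hd hu
    have h5 : (0 : ℝ) ≤ (D + 1 : ℝ) / 2 := by positivity
    have h6 := mul_le_mul_of_nonneg_left h3 h5
    have h7 := mul_le_mul_of_nonneg_left h4 (by positivity : 0 ≤ δ / 2)
    nlinarith
  · simp only [Psi_zero, mul_zero, sub_zero]

end

end Crest.Agent.R166.B
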