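import Crest.Agent.R166.Gauss3
import Crest.Agent.R166.T6

/-! # Part B: definitions

Plan (helper46).  `Typ β μ`: the star law `μ` is approximated, with non-vanishing probability, by the
empirical star law of some field on the random graph.
* `Extract`: failure of `GaussEig` gives an admissible limit `μ` (`Lim`) with a wrong edge average.
* counting (`Match`, `Count`, `Noise`, `CTa`, `KLid`, `KLL`, `CT2`, `CT3`): for bounded typical `μ`, `η > 0`,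
  `Ψ_star - (d/2) Ψ_edge ≤ ½ E cen`, `Ψ = KL (x + noise ‖ noise)`, noise covariance `Im G`.
* channel (`Bayes`, `Small`, `Chain`, `Step`): `Ψ(u+δ) - Ψ(u) = (δ/2) E P(posterior mean) + O(δ²)`.
* `Gap`, `Defi`, `Lim0`, `Lim1`, `Lim2`: at `η = 0` the star posterior mean restricts to the edge one.
* `Rig1`-`Rig4`, `Final`: hence the edge law is the Gaussian wave. -/

set_option autoImplicit false
set_option linter.unusedVariables false
set_option linter.unusedSectionVars false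

open MeasureTheory ProbabilityTheory Filter Topology Matrix
open scoped ENNReal BoundedContinuousFunction Kronecker

namespace Crest.Agent.R166.B

noncomputable section

/-! ## Stars, edges, typical laws -/

abbrev SV (D : ℕ) : Type := Option (Fin (D + 1))
abbrev SX (D p : ℕ) : Type := StarEnv D × (SV D × Fin p → ℝ)
abbrev EX (D p : ℕ) : Type := (Env D × Env D) × (Fin 2 × Fin p → ℝ)

/-- law of the two environments of an edge -/
abbrev env2 (D : ℕ) (β : Measure J) : Measure (Env D × Env D) := (envLaw D β).prod (envLaw D β)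

/-- `A ⊗ 1_p` -/
def ten (p : ℕ) {K N : Type} (A : Matrix K N ℝ) : Matrix (K × Fin p) (N × Fin p) ℝ :=
  A ⊗ₖ (1 : Matrix (Fin p) (Fin p) ℝ)

def eV {D : ℕ} (j : Fin (D + 1)) (b : Fin 2) : SV D := if b = 0 then none else some j
def eI {D p : ℕ} (j : Fin (D + 1)) (k : Fin 2 × Fin p) : SV D × Fin p := (eV j k.1, k.2)
def eEnv {D : ℕ} (j : Fin (D + 1)) (σ : StarEnv D) : Env D × Env D := (outEnv σ j, σ.2 j)
def edgeJ {D p : ℕ} (j : Fin (D + 1)) (q : SX D p) : EX D p := (eEnv j q.1, q.2 ∘ eI j)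
def swI {p : ℕ} (k : Fin 2 × Fin p) : Fin 2 × Fin p := (k.1.rev, k.2)
def flipE {D p : ℕ} (q : EX D p) : EX D p := (q.1.swap, q.2 ∘ swI)

/-- law of a uniform edge out of the centre -/
def edgeLaw {D p : ℕ} (μ : Measure (SX D p)) : Measure (EX D p) :=
  ((D + 1 : ℕ) : ℝ≥0∞)⁻¹ • ∑ j, μ.map (edgeJ j)

def starS {n D p : ℕ} (π : Equiv.Perm (HE n D)) (ω : Fin n → J) (x : Fin n × Fin p → ℝ)
    (v : Fin n) : SX D p :=
  (starH π ω v, fun k => x (starV π v k.1, k.2))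

def Near {n D p : ℕ} (μ : Measure (SX D p)) (Φ : Finset (SX D p →ᵇ ℝ)) (ε : ℝ)
    (π : Equiv.Perm (HE n D)) (ω : Fin n → J) (x : Fin n × Fin p → ℝ) : Prop :=
  ∀ f ∈ Φ, |(avg fun v => f (starS π ω x v)) - ∫ q, f q ∂μ| ≤ ε

/-- typical star laws -/
def Typ {D p : ℕ} (β : Measure J) (μ : Measure (SX D p)) : Prop :=
  ∀ (Φ : Finset (SX D p →ᵇ ℝ)) (ε : ℝ), 0 < ε → ∃ c : ℝ, 0 < c ∧ ∃ᶠ n in atTop,
    ENNReal.ofReal c ≤ POm n D β {o | ∃ x, Near μ Φ ε o.1.1 o.2 x}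

/-- typical star laws, through fields bounded by `L` -/
def TypB {D p : ℕ} (β : Measure J) (L : ℝ) (μ : Measure (SX D p)) : Prop :=
  ∀ (Φ : Finset (SX D p →ᵇ ℝ)) (ε : ℝ), 0 < ε → ∃ c : ℝ, 0 < c ∧ ∃ᶠ n in atTop,
    ENNReal.ofReal c ≤ POm n D β {o | ∃ x, (∀ k, |x k| ≤ L) ∧ Near μ Φ ε o.1.1 o.2 x}

/-- apply `F` to every coordinate of the field -/
def cmap {S K : Type} (F : ℝ → ℝ) (q : S × (K → ℝ)) : S × (K → ℝ) := (q.1, F ∘ q.2)

def clip (L t : ℝ) : ℝ := max (-L) (min L t)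

/-- admissible limits of eigenvector systems -/
structure Lim {D p : ℕ} (s E : ℝ) (β : Measure J) (μ : Measure (SX D p)) : Prop where
  typ : Typ β μ
  sq : MemLp (fun q : SX D p => q.2) 2 μ
  eig : ∀ᵐ q ∂μ, ∀ a, ∑ j, q.2 (some j, a) = (E - s * (q.1.1 : ℝ)) * q.2 (none, a)
  cov : ∀ a b, ∫ q, q.2 (none, a) * q.2 (none, b) ∂μ = if a = b then 1 else 0

/-- disintegrations of the star law and of the (flip invariant) edge law -/
structure Dis {D p : ℕ} (β : Measure J) (μ : Measure (SX D p))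
    (κ : Kernel (StarEnv D) (SV D × Fin p → ℝ)) (κ' : Kernel (Env D × Env D) (Fin 2 × Fin p → ℝ)) :
    Prop where
  star : μ = starLaw D β ⊗ₘ κ
  edge : edgeLaw μ = env2 D β ⊗ₘ κ'
  flip : (edgeLaw μ).map flipE = edgeLaw μ

/-! ## Gaussian channel `y = u x + √u B ξ` -/

section Channel
variable {K N S : Type} [Fintype K] [Fintype N]

/-- likelihood -/
def wt (P : Matrix K K ℝ) (u : ℝ) (y x : K → ℝ) : ℝ :=
  Real.exp (x ⬝ᵥ P *ᵥ y - u / 2 * (x ⬝ᵥ P *ᵥ x))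

def Zf (P : Matrix K K ℝ) (κ : Measure (K → ℝ)) (u : ℝ) (y : K → ℝ) : ℝ := ∫ x, wt P u y x ∂κ

/-- posterior mean -/
def Mf (P : Matrix K K ℝ) (κ : Measure (K → ℝ)) (u : ℝ) (y : K → ℝ) : K → ℝ :=
  fun k => (∫ x, wt P u y x * x k ∂κ) / Zf P κ u y

/-- observation -/
def ob (B : Matrix K N ℝ) (u : ℝ) (x : K → ℝ) (ξ : N → ℝ) : K → ℝ := u • x + √u • B *ᵥ ξ

/-- relative entropy of the observation with respect to the noise -/
def psi (P : Matrix K K ℝ) (B : Matrix K N ℝ) (κ : Measure (K → ℝ)) (u : ℝ) : ℝ :=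
  ∫ x, ∫ ξ, Real.log (Zf P κ u (ob B u x ξ)) ∂(gpi N) ∂κ

/-- energy of the posterior mean -/
def mm (P : Matrix K K ℝ) (B : Matrix K N ℝ) (κ : Measure (K → ℝ)) (u : ℝ) : ℝ :=
  ∫ x, ∫ ξ, Mf P κ u (ob B u x ξ) ⬝ᵥ P *ᵥ Mf P κ u (ob B u x ξ) ∂(gpi N) ∂κ

/-- `P` is a precision for the noise `B ξ` on the support of `κ` -/
structure Ch (P : Matrix K K ℝ) (B : Matrix K N ℝ) (κ : Measure (K → ℝ)) : Prop where
  psd : P.PosSemidef
  supp : ∀ᵐ x ∂κ, (B * Bᵀ * P) *ᵥ x = x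

def cS (Λ : ℝ) : ℝ := 16 * Λ ^ 2 * Real.exp (4 * Λ)

/-- density of `x + B ξ` with respect to `gpi K`, `P = (B Bᵀ)⁻¹` -/
def gden [DecidableEq K] (P : Matrix K K ℝ) (x y : K → ℝ) : ℝ :=
  √P.det * Real.exp (y ⬝ᵥ y / 2 - (y - x) ⬝ᵥ P *ᵥ (y - x) / 2)

variable [MeasurableSpace S]

/-- joint law of (environment, signal), observation -/
def tri (μ : Measure (S × (K → ℝ))) (B : S → Matrix K N ℝ) (u : ℝ) :
    Measure ((S × (K → ℝ)) × (K → ℝ)) :=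
  (μ.prod (gpi N)).map fun w => (w.1, ob (B w.1.1) u w.1.2 w.2)

/-- law of (environment, signal + noise) -/
def noisy (μ : Measure (S × (K → ℝ))) (B : S → Matrix K N ℝ) : Measure (S × (K → ℝ)) :=
  (μ.prod (gpi N)).map fun w => (w.1.1, w.1.2 + B w.1.1 *ᵥ w.2)

/-- entrywise measurability -/
def MeasM {I I' : Type} (A : S → Matrix I I' ℝ) : Prop := ∀ i j, Measurable fun σ => A σ i j

/-- channel with environment -/
structure GCh (l : Measure S) (κ : Kernel S (K → ℝ)) (P : S → Matrix K K ℝ)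
    (B : S → Matrix K N ℝ) : Prop where
  mP : MeasM P
  mB : MeasM B
  ch : ∀ᵐ σ ∂l, Ch (P σ) (B σ) (κ σ)

def Psi (l : Measure S) (κ : Kernel S (K → ℝ)) (P : S → Matrix K K ℝ) (B : S → Matrix K N ℝ)
    (u : ℝ) : ℝ := ∫ σ, psi (P σ) (B σ) (κ σ) u ∂l

def Mm (l : Measure S) (κ : Kernel S (K → ℝ)) (P : S → Matrix K K ℝ) (B : S → Matrix K N ℝ)
    (u : ℝ) : ℝ := ∫ σ, mm (P σ) (B σ) (κ σ) u ∂l

end Channel

/-! ## Star and edge matrices -/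

/-- `Cs Csᴴ = Im gC` -/
def Cs {D : ℕ} (t : ℝ) (z : ℂ) (m : Fin (D + 1) → ℂ) : SV D → SV D → ℂ
  | none, none => gO t z m * (√z.im : ℝ)
  | some i, none => -(m i * gO t z m) * (√z.im : ℝ)
  | none, some j => -gO t z m * (√(m j).im : ℝ)
  | some i, some j => ((if i = j then 1 else 0) + m i * gO t z m) * (√(m j).im : ℝ)

/-- `[Re Cs | Im Cs]` -/
def Bs {D : ℕ} (t : ℝ) (z : ℂ) (m : Fin (D + 1) → ℂ) : Matrix (SV D) (SV D ⊕ SV D) ℝ :=
  Matrix.of fun a b => Sum.elim (fun b => (Cs t z m a b).re) (fun b => (Cs t z m a b).im) b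

/-- inverse of `Cs` for `Im z > 0`; the row `none` vanishes for `Im z = 0` -/
def Rs {D : ℕ} (t : ℝ) (z : ℂ) (m : Fin (D + 1) → ℂ) : SV D → SV D → ℂ
  | none, none => (t - z) / (√z.im : ℝ)
  | none, some _ => 1 / (√z.im : ℝ)
  | some j, none => m j / (√(m j).im : ℝ)
  | some j, some i => (if i = j then 1 else 0) / (√(m j).im : ℝ)

/-- star precision `Re (Rsᴴ Rs)` -/
def Ps {D : ℕ} (t : ℝ) (z : ℂ) (m : Fin (D + 1) → ℂ) : Matrix (SV D) (SV D) ℝ :=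
  Matrix.of fun a b => ∑ c, ((starRingEnd ℂ) (Rs t z m c a) * Rs t z m c b).re

/-- polar form of `|b + m a|² / Im m` -/
def qB (m : ℂ) (a b a' b' : ℝ) : ℝ :=
  (((b : ℂ) + m * a) * (starRingEnd ℂ) ((b' : ℂ) + m * a')).re / m.im

/-- edge precision -/
def Pe (m m' : ℂ) : Matrix (Fin 2) (Fin 2) ℝ :=
  !![1 / m.im + ‖m'‖ ^ 2 / m'.im, m.re / m.im + m'.re / m'.im;
     m.re / m.im + m'.re / m'.im, ‖m‖ ^ 2 / m.im + 1 / m'.im]

def Be (m m' : ℂ) : Matrix (Fin 2) (Fin 2) ℝ := chol (imM (gE m m'))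

def BS {D : ℕ} (p : ℕ) (s : ℝ) (z : ℂ) (mf : Env D → ℂ) (σ : StarEnv D) :
    Matrix (SV D × Fin p) ((SV D ⊕ SV D) × Fin p) ℝ :=
  ten p (Bs (s * (σ.1 : ℝ)) z fun j => mf (σ.2 j))

def PS {D : ℕ} (p : ℕ) (s : ℝ) (z : ℂ) (mf : Env D → ℂ) (σ : StarEnv D) :
    Matrix (SV D × Fin p) (SV D × Fin p) ℝ :=
  ten p (Ps (s * (σ.1 : ℝ)) z fun j => mf (σ.2 j))

def BE {D : ℕ} (p : ℕ) (mf : Env D → ℂ) (e : Env D × Env D) :
    Matrix (Fin 2 × Fin p) (Fin 2 × Fin p) ℝ := ten p (Be (mf e.1) (mf e.2))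

def PE {D : ℕ} (p : ℕ) (mf : Env D → ℂ) (e : Env D × Env D) :
    Matrix (Fin 2 × Fin p) (Fin 2 × Fin p) ℝ := ten p (Pe (mf e.1) (mf e.2))

/-- a cavity function at `z` (`mT s z` for `Im z > 0`, `m0 s E` for `z = E`) -/
structure Cav (D : ℕ) (s : ℝ) (β : Measure J) (z : ℂ) (mf : Env D → ℂ) : Prop where
  zim : 0 ≤ z.im
  meas : Measurable mf
  pos : ∀ᵐ e ∂(envLaw D β), 0 < (mf e).im
  recur : ∀ j, ∀ᵐ σ ∂(starLaw D β), mf (outEnv σ j) =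
    1 / (((s * (σ.1 : ℝ) : ℝ) : ℂ) - z - ∑ c, mf (σ.2 (j.succAbove c)))

/-- the centre term of the star precision -/
def cen {D p : ℕ} (s : ℝ) (z : ℂ) (q : SX D p) : ℝ :=
  ∑ a, ‖(((s * (q.1.1 : ℝ) : ℝ) : ℂ) - z) * (q.2 (none, a) : ℝ) + ((∑ j, q.2 (some j, a) : ℝ) : ℂ)‖ ^ 2 /
    z.im

/-- edge posterior mean seen from the star -/
def phi {D p : ℕ} (mf : Env D → ℂ) (κ' : Kernel (Env D × Env D) (Fin 2 × Fin p → ℝ)) (u : ℝ)
    (j : Fin (D + 1)) (σ : StarEnv D) (y : SV D × Fin p → ℝ) : Fin 2 × Fin p → ℝ :=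
  Mf (PE p mf (eEnv j σ)) (κ' (eEnv j σ)) u (y ∘ eI j)

/-- `(x_j - φ_j) + m_j (x_o - φ_o)` -/
def resid {D p : ℕ} (mf : Env D → ℂ) (κ' : Kernel (Env D × Env D) (Fin 2 × Fin p → ℝ)) (u : ℝ)
    (j : Fin (D + 1)) (a : Fin p) (σ : StarEnv D) (x y : SV D × Fin p → ℝ) : ℂ :=
  ((x (some j, a) - phi mf κ' u j σ y (1, a) : ℝ) : ℂ) +
    mf (σ.2 j) * ((x (none, a) - phi mf κ' u j σ y (0, a) : ℝ) : ℂ)

def damp {D p : ℕ} (mf : Env D → ℂ) (κ' : Kernel (Env D × Env D) (Fin 2 × Fin p → ℝ)) (u : ℝ)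
    (j : Fin (D + 1)) (σ : StarEnv D) (y : SV D × Fin p → ℝ) : ℝ :=
  1 / ((1 + ‖mf (σ.2 j)‖) * (1 + ‖phi mf κ' u j σ y‖))

/-- the deficiency `Σ_j E q_j (M_star - φ_j)` -/
def Del {D p : ℕ} (s : ℝ) (z : ℂ) (mf : Env D → ℂ) (μ : Measure (SX D p))
    (κ : Kernel (StarEnv D) (SV D × Fin p → ℝ)) (κ' : Kernel (Env D × Env D) (Fin 2 × Fin p → ℝ))
    (u : ℝ) : ℝ :=
  ∑ j, ∑ a, ∫ w, ‖resid mf κ' u j a w.1.1 (Mf (PS p s z mf w.1.1) (κ w.1.1) u w.2) w.2‖ ^ 2 /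
    (mf (w.1.1.2 j)).im ∂(tri μ (BS p s z mf) u)

/-- the approximate identity at height `z`, in weak form -/
def Weak {D p : ℕ} (s : ℝ) (z : ℂ) (μ : Measure (SX D p))
    (κ' : Kernel (Env D × Env D) (Fin 2 × Fin p → ℝ)) (u r : ℝ) : Prop :=
  ∀ j a (h : SX D p → ℝ), Measurable h → (∀ q, |h q| ≤ 1) →
    ‖∫ w, resid (mT s z) κ' u j a w.1.1 w.1.2 w.2 * (h (w.1.1, w.2) : ℝ)
        ∂(tri μ (BS p s z (mT s z)) u)‖ ^ 2 ≤
      r * ∫ w, (mT s z (w.1.1.2 j)).im * h (w.1.1, w.2) ^ 2 ∂(tri μ (BS p s z (mT s z)) u)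

/-- the exact identity at real energy: the edge posterior means glue to an eigenvector -/
def Ident {D p : ℕ} (s E : ℝ) (β : Measure J) (κ' : Kernel (Env D × Env D) (Fin 2 × Fin p → ℝ))
    (u : ℝ) : Prop :=
  ∀ᵐ σ ∂(starLaw D β), ∀ y : SV D × Fin p → ℝ,
    (∀ a, ∑ j, y (some j, a) = (E - s * (σ.1 : ℝ)) * y (none, a)) → ∀ a,
      (∀ i j, phi (m0 s E) κ' u i σ y (0, a) = phi (m0 s E) κ' u j σ y (0, a)) ∧
      ∑ j, phi (m0 s E) κ' u j σ y (1, a) = (E - s * (σ.1 : ℝ)) * phi (m0 s E) κ' u 0 σ y (0, a)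

/-! ## Finite partitions -/

structure Part (D p : ℕ) where
  nA : ℕ
  nT : ℕ
  nK : ℕ
  a : J → Fin nA
  t : Env D → Fin nT
  k : (Fin p → ℝ) → Fin nK
  cmb : Fin nA → (Fin D → Fin nT) → Fin nT
  hcmb : ∀ v f, t (comb v f) = cmb (a v) fun c => t (f c)
  ma : Measurable a
  mt : Measurable t
  mk' : Measurable k
  pos : ∀ c, 0 < (gpi (Fin p)).real (k ⁻¹' {c})

namespace Part
variable {D p : ℕ} (Q : Part D p)

/-- star types -/
abbrev ST : Type := Fin Q.nA × (Fin (D + 1) → Fin Q.nT) × (SV D → Fin Q.nK)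
/-- half-edge types -/
abbrev HT : Type := (Fin Q.nT × Fin Q.nK) × (Fin Q.nT × Fin Q.nK)

def τ (q : SX D p) : Q.ST :=
  (Q.a q.1.1, fun j => Q.t (q.1.2 j), fun v => Q.k fun i => q.2 (v, i))

def τe (q : EX D p) : Q.HT :=
  ((Q.t q.1.1, Q.k fun i => q.2 (0, i)), (Q.t q.1.2, Q.k fun i => q.2 (1, i)))

def he (t : Q.ST) (j : Fin (D + 1)) : Q.HT :=
  ((Q.cmb t.1 fun c => t.2.1 (j.succAbove c), t.2.2 none), (t.2.1 j, t.2.2 (some j)))

def rk (c : Fin Q.nK) : ℝ := (gpi (Fin p)).real (Q.k ⁻¹' {c})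

/-- the counting functional of a star type distribution `m` and a test law `a` -/
def Xi (a m : Q.ST → ℝ) : ℝ :=
  ∑ t, m t * (Real.log (Q.rk (t.2.2 none)) - Real.log (a t)) - (D + 1 : ℝ) / 2 *
    ∑ h, Real.negMulLog (avg fun j => ∑ t, if Q.he t j = h then m t else 0)

/-- positive test laws, normalised given the centre cell -/
def Test (a : Q.ST → ℝ) : Prop :=
  (∀ t, 0 < a t) ∧ ∀ a₀, ∑ t, (if t.1 = a₀ then a t else 0) ≤ 1

end Part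

def lamS (D p : ℕ) (β : Measure J) : Measure (SX D p) := (starLaw D β).prod (gpi (SV D × Fin p))
def lamE (D p : ℕ) (β : Measure J) : Measure (EX D p) := (env2 D β).prod (gpi (Fin 2 × Fin p))

/-- the type map is locally constant at almost every point -/
def Part.Null {D p : ℕ} (Q : Part D p) (β : Measure J) : Prop :=
  ∀ᵐ q ∂(lamS D p β), ∀ᶠ q' in 𝓝 q, Q.τ q' = Q.τ q

/-- cell frequencies -/
def fr {α T : Type} [MeasurableSpace α] (m : Measure α) (τ : α → T) (t : T) : ℝ :=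
  m.real (τ ⁻¹' {t})

def klD {T : Type} [Fintype T] (m l : T → ℝ) : ℝ := ∑ t, m t * Real.log (m t / l t)

/-! ## Configurations -/

structure Cfg (D p : ℕ) where
  n : ℕ
  π : Pairing n D
  ω : Fin n → J
  x : Fin n × Fin p → ℝ

/-- Green matrix of a configuration -/
def Cfg.G {D p : ℕ} (c : Cfg D p) (s : ℝ) (z : ℂ) : Matrix (Fin c.n) (Fin c.n) ℂ :=
  res (ham s c.π.1 c.ω) z

structure Conv {D p : ℕ} (s : ℝ) (β : Measure J) (z : ℂ) (L : ℝ) (μ : Measure (SX D p))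
    (F : Filter (Cfg D p)) : Prop where
  top : Tendsto Cfg.n F atTop
  emp : ∀ f : SX D p →ᵇ ℝ,
    Tendsto (fun c => avg fun v => f (starS c.π.1 c.ω c.x v)) F (𝓝 (∫ q, f q ∂μ))
  tree : ∀ k, Tendsto (fun c : Cfg D p => frac fun v => ¬ TreeLike c.π.1 v k) F (𝓝 0)
  bdd : ∀ᶠ c in F, ∀ k, |c.x k| ≤ L
  ldet : ∀ ε : ℝ, 0 < ε → ∀ᶠ c in F,
    (avg fun l => Real.log ‖(evs (ham s c.π.1 c.ω) l : ℂ) - z‖) ≤ bethe D s β z + ε

/-- limit of `(1/n) E log (dP_Y / dγ)` -/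
def thr {D p : ℕ} (s : ℝ) (β : Measure J) (z : ℂ) (μ : Measure (SX D p)) : ℝ :=
  p * (bethe D s β z - Real.log z.im / 2) - p / 2 +
    ((∫ q, ∑ a, q.2 (none, a) ^ 2 ∂μ) +
      p * ∫ σ, (gO (((s * (σ.1 : ℝ) : ℝ) : ℂ)) z fun i => mT s z (σ.2 i)).im ∂(starLaw D β)) / 2

end

end Crest.Agent.R166.B
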