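import Crest.Agent.R166.B.Basic
import Crest.Agent.R166.Spec3

/-! # Compactness -/

set_option autoImplicit false
set_option linter.unusedVariables false
set_option linter.unusedSectionVars false

open MeasureTheory ProbabilityTheory Filter Topology Matrix
open scoped ENNReal BoundedContinuousFunction Kronecker

namespace Crest.Agent.R166.B

section Aux

private theorem abs_compact {Y : Type} [TopologicalSpace Y] [T2Space Y] {Ω : ℕ → Type}
    [∀ n, MeasurableSpace (Ω n)] (P : ∀ n, Measure (Ω n)) (Emp : ∀ n, Ω n → Set Y)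
    {C : ℕ → Set Y} (hC : ∀ M, IsCompact (C M)) (hm : Antitone C) {c : ℝ≥0∞} (hc : 0 < c)
    (h : ∀ M, ∃ᶠ n in atTop, c ≤ P n {o | ∃ ν ∈ Emp n o, ν ∈ C M}) :
    ∃ μ, (∀ M, μ ∈ C M) ∧ ∀ U ∈ 𝓝 μ, ∃ c' : ℝ, 0 < c' ∧
      ∃ᶠ n in atTop, ENNReal.ofReal c' ≤ P n {o | ∃ ν ∈ Emp n o, ν ∈ U} := by
  by_contra H
  push Not at H
  have hK : IsCompact (⋂ M, C M) :=
    (hC 0).of_isClosed_subset (isClosed_iInter fun M => (hC M).isClosed) (Set.iInter_subset _ 0)
  have key : ∃ U, IsOpen U ∧ (⋂ M, C M) ⊆ U ∧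
      Tendsto (fun n => P n {o | ∃ ν ∈ Emp n o, ν ∈ U}) atTop (𝓝 0) := by
    refine hK.induction_on (p := fun s => ∃ U, IsOpen U ∧ s ⊆ U ∧
      Tendsto (fun n => P n {o | ∃ ν ∈ Emp n o, ν ∈ U}) atTop (𝓝 0)) ?_ ?_ ?_ ?_
    · exact ⟨∅, isOpen_empty, subset_rfl, by simp⟩
    · rintro s t hst ⟨U, h1, h2, h3⟩
      exact ⟨U, h1, hst.trans h2, h3⟩
    · rintro s t ⟨U, h1, h2, h3⟩ ⟨V, k1, k2, k3⟩
      refine ⟨U ∪ V, h1.union k1, Set.union_subset_union h2 k2, ?_⟩
      have := h3.add k3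
      rw [add_zero] at this
      refine tendsto_of_tendsto_of_tendsto_of_le_of_le tendsto_const_nhds this
        (fun _ => zero_le) fun n => (measure_mono ?_).trans (measure_union_le _ _)
      rintro o ⟨ν, h4, h5 | h5⟩
      exacts [Or.inl ⟨ν, h4, h5⟩, Or.inr ⟨ν, h4, h5⟩]
    · intro μ hμ
      obtain ⟨U, hU, h1⟩ := H μ (Set.mem_iInter.1 hμ)
      refine ⟨interior U, mem_nhdsWithin_of_mem_nhds (interior_mem_nhds.2 hU), interior U,
        isOpen_interior, subset_rfl, ENNReal.tendsto_nhds_zero.2 fun δ hδ => ?_⟩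
      obtain ⟨c', h2, h3, h4⟩ := ENNReal.lt_iff_exists_real_btwn.1 hδ
      filter_upwards [h1 c' (ENNReal.ofReal_pos.1 h3)] with n hn
      refine le_trans (measure_mono ?_) (hn.trans h4).le
      rintro o ⟨ν, h5, h6⟩
      exact ⟨ν, h5, interior_subset h6⟩
  obtain ⟨U, h1, h2, h3⟩ := key
  obtain ⟨M, hM⟩ := exists_subset_nhds_of_isCompact' (V := C) hm.directed_ge hC
    (fun M => (hC M).isClosed) fun x hx => h1.mem_nhds (h2 hx)
  obtain ⟨n, k1, k2⟩ := ((h M).and_eventually (h3.eventually (gt_mem_nhds hc))).exists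
  refine absurd (k1.trans (measure_mono ?_)) (not_le.2 k2)
  rintro o ⟨ν, h5, h6⟩
  exact ⟨ν, h5, hM h6⟩

variable {D p : ℕ}

private theorem cont_int {g : SX D p → ℝ} (hg : Continuous g) {C : ℝ} (h : ∀ q, |g q| ≤ C) :
    Continuous fun ν : ProbabilityMeasure (SX D p) => ∫ q, g q ∂(ν : Measure (SX D p)) :=
  ProbabilityMeasure.continuous_integral_boundedContinuousFunction
    (BoundedContinuousFunction.ofNormedAddCommGroup g hg C h)

private theorem int_bdd {g : SX D p → ℝ} (hg : Continuous g) {C : ℝ} (h : ∀ q, |g q| ≤ C)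
    (ν : Measure (SX D p)) [IsFiniteMeasure ν] : Integrable g ν :=
  (BoundedContinuousFunction.ofNormedAddCommGroup g hg C h).integrable ν

private def g1 (L : ℕ) (q : SX D p) : ℝ := min (L : ℝ) (‖q.2‖ ^ 2)

private noncomputable def rs (s E : ℝ) (a : Fin p) (q : SX D p) : ℝ :=
  ∑ j, q.2 (some j, a) - (E - s * (q.1.1 : ℝ)) * q.2 (none, a)

private noncomputable def g2 (s E : ℝ) (a : Fin p) (q : SX D p) : ℝ := min 1 (rs s E a q ^ 2)

private noncomputable def g3 (L : ℝ) (a b : Fin p) (q : SX D p) : ℝ :=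
  clip L (q.2 (none, a)) * clip L (q.2 (none, b))

private theorem c1 (L : ℕ) : Continuous (g1 L : SX D p → ℝ) := by unfold g1; fun_prop

private theorem b1 (L : ℕ) (q : SX D p) : |g1 L q| ≤ L :=
  abs_le.2 ⟨le_trans (by simp) (le_min (Nat.cast_nonneg L) (sq_nonneg _)), min_le_left _ _⟩

private theorem c2 (s E : ℝ) (a : Fin p) : Continuous (g2 s E a : SX D p → ℝ) := by
  unfold g2 rs; fun_prop

private theorem b2 (s E : ℝ) (a : Fin p) (q : SX D p) : |g2 s E a q| ≤ 1 :=
  abs_le.2 ⟨le_trans (by simp) (le_min zero_le_one (sq_nonneg _)), min_le_left _ _⟩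

private theorem c3 (L : ℝ) (a b : Fin p) : Continuous (g3 L a b : SX D p → ℝ) :=
  ((continuous_clip L).comp (by fun_prop)).mul ((continuous_clip L).comp (by fun_prop))

private theorem b3 {L : ℝ} (hL : 0 ≤ L) (a b : Fin p) (q : SX D p) : |g3 L a b q| ≤ L * L := by
  rw [g3, abs_mul]
  exact mul_le_mul (abs_clip_le hL _).1 (abs_clip_le hL _).1 (abs_nonneg _) hL

private def KK (D p : ℕ) : Set (ProbabilityMeasure (SX D p)) :=
  {ν | ∀ L, ∫ q, g1 L q ∂(ν : Measure (SX D p)) ≤ (D + 2) * p}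

private theorem KK_compact : IsCompact (KK D p) := by
  have hcl : IsClosed (KK D p) := by
    simp only [KK, Set.setOf_forall]
    exact isClosed_iInter fun L => isClosed_le (cont_int (c1 L) (b1 L)) continuous_const
  rw [← hcl.closure_eq]
  refine isCompact_closure_of_isTightMeasureSet
    (isTightMeasureSet_iff_exists_isCompact_measure_compl_le.2 fun δ hδ => ?_)
  obtain ⟨c, -, h3, h4⟩ := ENNReal.lt_iff_exists_real_btwn.1 hδ
  have hc := ENNReal.ofReal_pos.1 h3
  obtain ⟨L, hL⟩ := exists_nat_gt (((D + 2) * p : ℝ) / c)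
  have hL0 : (0 : ℝ) < L := lt_of_le_of_lt (by positivity) hL
  refine ⟨Set.univ ×ˢ Metric.closedBall 0 (√L), isCompact_univ.prod (isCompact_closedBall _ _), ?_⟩
  rintro _ ⟨ν, hν, rfl⟩
  have h1 := mul_meas_ge_le_integral_of_nonneg (μ := (ν : Measure (SX D p))) (f := g1 L)
    (ae_of_all _ fun q => le_min hL0.le (sq_nonneg _)) (int_bdd (c1 L) (b1 L) _) L
  have h2 : (Set.univ ×ˢ Metric.closedBall 0 (√L) : Set (SX D p))ᶜ ⊆ {q | (L : ℝ) ≤ g1 L q} := by
    intro q hq
    simp only [Set.mem_compl_iff, Set.mem_prod, Set.mem_univ, true_and, mem_closedBall_zero_iff,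
      not_le] at hq
    exact le_min le_rfl ((Real.sqrt_lt' (lt_of_le_of_lt (Real.sqrt_nonneg _) hq)).1 hq).le
  refine (measure_mono h2).trans (le_trans ?_ h4.le)
  rw [← ofReal_measureReal]
  refine ENNReal.ofReal_le_ofReal (le_of_mul_le_mul_left (h1.trans ((hν L).trans ?_)) hL0)
  exact ((div_lt_iff₀ hc).1 hL).le

private theorem KK_sq {ν : ProbabilityMeasure (SX D p)} (h : ν ∈ KK D p) :
    MemLp (fun q : SX D p => q.2) 2 (ν : Measure (SX D p)) := by
  rw [memLp_two_iff_integrable_sq_norm continuous_snd.aestronglyMeasurable]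
  refine ⟨(by fun_prop : Continuous fun q : SX D p => ‖q.2‖ ^ 2).aestronglyMeasurable, ?_⟩
  rw [hasFiniteIntegral_iff_ofReal (ae_of_all _ fun q => sq_nonneg _)]
  have h1 := lintegral_tendsto_of_tendsto_of_monotone (μ := (ν : Measure (SX D p)))
    (f := fun L q => ENNReal.ofReal (g1 L q)) (F := fun q => ENNReal.ofReal (‖q.2‖ ^ 2))
    (fun L => (c1 L).measurable.ennreal_ofReal.aemeasurable)
    (ae_of_all _ fun q L L' hL => ENNReal.ofReal_le_ofReal
      (min_le_min_right _ (Nat.cast_le.2 hL)))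
    (ae_of_all _ fun q => tendsto_const_nhds.congr' (by
      filter_upwards [tendsto_natCast_atTop_atTop.eventually_ge_atTop (‖q.2‖ ^ 2)] with L hL
      rw [g1, min_eq_right hL]))
  refine lt_of_le_of_lt (le_of_tendsto' h1 fun L => ?_) (ENNReal.ofReal_lt_top (r := (D + 2) * p))
  rw [← ofReal_integral_eq_lintegral_ofReal (int_bdd (c1 L) (b1 L) _)
    (ae_of_all _ fun q => le_min (Nat.cast_nonneg L) (sq_nonneg _))]
  exact ENNReal.ofReal_le_ofReal (h L)

private def CC (s E : ℝ) (f : EX D p →ᵇ ℝ) (W ε : ℝ) (Lm : ℕ → ℝ) (M : ℕ) :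
    Set (ProbabilityMeasure (SX D p)) :=
  KK D p ∩ {ν | ε ≤ |(avg fun j => ∫ q, f (edgeJ j q) ∂(ν : Measure (SX D p))) - W| ∧
    (∀ a, ∫ q, g2 s E a q ∂(ν : Measure (SX D p)) ≤ 1 / (M + 1)) ∧
    ∀ m ≤ M, ∀ L, 0 ≤ L → Lm m ≤ L ^ 2 → ∀ a b,
      |∫ q, g3 L a b q ∂(ν : Measure (SX D p)) - if a = b then 1 else 0| ≤ 2 * √(ε / 2 ^ (m + 2))}

private theorem CC_compact (s E : ℝ) (f : EX D p →ᵇ ℝ) (W ε : ℝ) (Lm : ℕ → ℝ) (M : ℕ) :
    IsCompact (CC s E f W ε Lm M) := by
  refine KK_compact.inter_right ?_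
  simp only [Set.setOf_and, Set.setOf_forall]
  refine IsClosed.inter (isClosed_le continuous_const (Continuous.abs (Continuous.sub ?_
    continuous_const))) (IsClosed.inter (isClosed_iInter fun a =>
      isClosed_le (cont_int (c2 s E a) (b2 s E a)) continuous_const) ?_)
  · exact (continuous_finsetSum _ fun j _ => cont_int (f.continuous.comp (continuous_edgeJ j))
      fun q => f.norm_coe_le_norm _).div_const _
  · exact isClosed_iInter fun m => isClosed_iInter fun _ => isClosed_iInter fun L =>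
      isClosed_iInter fun hL => isClosed_iInter fun _ => isClosed_iInter fun a =>
      isClosed_iInter fun b => isClosed_le
        ((cont_int (c3 L a b) (b3 hL a b)).sub continuous_const).abs continuous_const

private theorem CC_anti (s E : ℝ) (f : EX D p →ᵇ ℝ) (W ε : ℝ) (Lm : ℕ → ℝ) :
    Antitone (CC s E f W ε Lm) := fun M M' h ν hν =>
  ⟨hν.1, hν.2.1, fun a => (hν.2.2.1 a).trans (Nat.one_div_le_one_div h),
    fun m hm => hν.2.2.2 m (hm.trans h)⟩

private theorem CC_eig {s E : ℝ} {f : EX D p →ᵇ ℝ} {W ε : ℝ} {Lm : ℕ → ℝ}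
    {ν : ProbabilityMeasure (SX D p)} (h : ∀ M, ν ∈ CC s E f W ε Lm M) :
    ∀ᵐ q ∂(ν : Measure (SX D p)), ∀ a,
      ∑ j, q.2 (some j, a) = (E - s * (q.1.1 : ℝ)) * q.2 (none, a) := by
  refine ae_all_iff.2 fun a => ?_
  have h0 : ∀ q : SX D p, 0 ≤ g2 s E a q := fun q => le_min zero_le_one (sq_nonneg _)
  have h1 : ∫ q, g2 s E a q ∂(ν : Measure (SX D p)) = 0 :=
    le_antisymm (ge_of_tendsto' tendsto_one_div_add_atTop_nhds_zero_nat fun M => (h M).2.2.1 a)
      (integral_nonneg h0)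
  filter_upwards [(integral_eq_zero_iff_of_nonneg h0 (int_bdd (c2 s E a) (b2 s E a) _)).1 h1]
    with q hq
  have h2 : rs s E a q ^ 2 = 0 := by
    rcases min_eq_iff.1 hq with h3 | h3
    · exact absurd h3.1 one_ne_zero
    · exact h3.1
  exact sub_eq_zero.1 (pow_eq_zero_iff two_ne_zero |>.1 h2)

private theorem CC_cov {s E : ℝ} {f : EX D p →ᵇ ℝ} {W ε : ℝ} {Lm : ℕ → ℝ}
    {ν : ProbabilityMeasure (SX D p)} (h : ∀ M, ν ∈ CC s E f W ε Lm M) (a b : Fin p) :
    ∫ q, q.2 (none, a) * q.2 (none, b) ∂(ν : Measure (SX D p)) = if a = b then 1 else 0 := by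
  have hsq := (memLp_two_iff_integrable_sq_norm continuous_snd.aestronglyMeasurable).1
    (KK_sq (h 0).1)
  have h1 : Tendsto (fun L : ℕ => ∫ q, g3 L a b q ∂(ν : Measure (SX D p))) atTop
      (𝓝 (∫ q, q.2 (none, a) * q.2 (none, b) ∂(ν : Measure (SX D p)))) := by
    refine tendsto_integral_of_dominated_convergence _ (fun L => (c3 L a b).aestronglyMeasurable)
      hsq (fun L => ae_of_all _ fun q => ?_) (ae_of_all _ fun q => tendsto_const_nhds.congr' ?_)
    · rw [Real.norm_eq_abs, g3, abs_mul, sq]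
      exact mul_le_mul ((abs_clip_le (Nat.cast_nonneg L) _).2.trans (norm_le_pi_norm q.2 _))
        ((abs_clip_le (Nat.cast_nonneg L) _).2.trans (norm_le_pi_norm q.2 _)) (abs_nonneg _)
        (norm_nonneg _)
    · filter_upwards [tendsto_natCast_atTop_atTop.eventually_ge_atTop ‖q.2‖] with L hL
      rw [g3, clip_eq ((norm_le_pi_norm q.2 _).trans hL), clip_eq ((norm_le_pi_norm q.2 _).trans hL)]
  have h2 : ∀ m : ℕ, |∫ q, q.2 (none, a) * q.2 (none, b) ∂(ν : Measure (SX D p)) -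
      if a = b then 1 else 0| ≤ 2 * √(ε / 2 ^ (m + 2)) := fun m => by
    refine le_of_tendsto (h1.sub_const _).abs ?_
    filter_upwards [tendsto_natCast_atTop_atTop.eventually_ge_atTop (max 1 (Lm m))] with L hL
    have := le_max_left 1 (Lm m)
    have := le_max_right 1 (Lm m)
    exact (h m).2.2.2 m le_rfl L (Nat.cast_nonneg L) (by nlinarith) a b
  have h3 : Tendsto (fun m : ℕ => 2 * √(ε / 2 ^ (m + 2))) atTop (𝓝 (2 * √0)) :=
    (Tendsto.sqrt (tendsto_const_nhds.div_atTop ((tendsto_pow_atTop_atTop_of_one_lt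
      one_lt_two).comp (tendsto_add_atTop_nat 2)))).const_mul 2
  rw [Real.sqrt_zero, mul_zero] at h3
  exact sub_eq_zero.1 (abs_nonpos_iff.1 (ge_of_tendsto' h3 h2))

private theorem avg_cs {A : Type} [Fintype A] (f g : A → ℝ) :
    |avg fun a => f a * g a| ≤ √(avg fun a => f a ^ 2) * √(avg fun a => g a ^ 2) := by
  rw [← Real.sqrt_mul (avg_nonneg fun a => sq_nonneg _)]
  refine Real.abs_le_sqrt ?_
  rw [avg, avg, avg, div_pow, div_mul_div_comm, ← sq]
  exact div_le_div_of_nonneg_right (Finset.sum_mul_sq_le_sq_mul_sq _ _ _) (sq_nonneg _)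

private theorem cov_clip {A : Type} [Fintype A] {x y : A → ℝ} {L L' e : ℝ} (hL : 0 ≤ L)
    (hL' : L' ≤ L ^ 2) (hx : (avg fun v => x v ^ 2) ≤ 1) (hy : (avg fun v => y v ^ 2) ≤ 1)
    (tx : (avg fun v => if L' < x v ^ 2 then x v ^ 2 else 0) ≤ e)
    (ty : (avg fun v => if L' < y v ^ 2 then y v ^ 2 else 0) ≤ e) :
    |(avg fun v => clip L (x v) * clip L (y v)) - avg fun v => x v * y v| ≤ 2 * √e := by
  have hd : ∀ t : ℝ, (clip L t - t) ^ 2 ≤ if L' < t ^ 2 then t ^ 2 else 0 := fun t => by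
    split_ifs with h
    · rw [clip]
      rcases le_total t L with h1 | h1
      · rw [min_eq_right h1]
        rcases le_total t (-L) with h2 | h2
        · rw [max_eq_left h2]; nlinarith
        · rw [max_eq_right h2]; nlinarith
      · rw [min_eq_left h1, max_eq_right (by linarith)]; nlinarith
    · rw [clip_eq (abs_le_of_sq_le_sq' (by linarith) hL |> abs_le.2)]; simp
  have hc : (avg fun v => clip L (x v) ^ 2) ≤ 1 :=
    (avg_mono fun v => sq_le_sq.2 (abs_clip_le hL _).2).trans hx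
  have h1 := avg_cs (fun v => clip L (x v)) fun v => clip L (y v) - y v
  have h2 := avg_cs y fun v => clip L (x v) - x v
  have k1 := mul_le_mul (Real.sqrt_le_one.2 hc)
    (Real.sqrt_le_sqrt ((avg_mono fun v => hd (y v)).trans ty)) (Real.sqrt_nonneg _) zero_le_one
  have k2 := mul_le_mul (Real.sqrt_le_one.2 hy)
    (Real.sqrt_le_sqrt ((avg_mono fun v => hd (x v)).trans tx)) (Real.sqrt_nonneg _) zero_le_one
  rw [← avg_sub, show (fun v => clip L (x v) * clip L (y v) - x v * y v) = fun v =>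
    clip L (x v) * (clip L (y v) - y v) + y v * (clip L (x v) - x v) from funext fun v => by ring,
    avg_add]
  refine (abs_add_le _ _).trans ?_
  linarith

private theorem sum_nbr {n : ℕ} (π : Equiv.Perm (HE n D)) (F : Fin n → ℝ) :
    ∑ v, ∑ j, F (π (v, j)).1 = (D + 1) * ∑ v, F v := by
  rw [← Fintype.sum_prod_type' fun v j => F (π (v, j)).1,
    Equiv.sum_comp π fun h => F h.1, Fintype.sum_prod_type]
  simp [Finset.mul_sum]

private theorem mem_CC {s E R ε W : ℝ} {f : EX D p →ᵇ ℝ} {Lm : ℕ → ℝ} {M n : ℕ} (hn : 0 < n)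
    (hR : (R / n) ^ 2 ≤ 1 / (M + 1)) (π : Pairing n D) (ω : Fin n → J) {X : Fin p → Fin n → ℝ}
    (hX : EigSys (ham s π.1 ω) E R p X)
    (hf : ε < |(avg fun h : HE n D => f ((envH π.1 ω h, envH π.1 ω (π.1 h)),
        fun q => X q.2 (ends π.1 h q.1))) - W|)
    (hU : ∀ m ≤ M, ∀ a, (avg fun x => if Lm m < X a x ^ 2 then X a x ^ 2 else 0) ≤ ε / 2 ^ (m + 2))
    {ν : ProbabilityMeasure (SX D p)} (hν : ∀ g : SX D p → ℝ, Continuous g →
      ∫ q, g q ∂(ν : Measure (SX D p)) = avg fun v => g (starS π.1 ω (fun k => X k.2 k.1) v)) :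
    ν ∈ CC s E f W ε Lm M := by
  have hn' : (0 : ℝ) < n := Nat.cast_pos.2 hn
  have h1 : ∀ a b, (avg fun v => X a v * X b v) = if a = b then 1 else 0 := fun a b => by
    rw [avg, hX.1, Fintype.card_fin]
    split_ifs
    · exact div_self hn'.ne'
    · exact zero_div _
  have h2 : ∀ a, (avg fun v => X a v ^ 2) = 1 := fun a => by
    simpa only [sq, if_true] using h1 a a
  refine ⟨fun L => ?_, ?_, fun a => ?_, fun m hm L hL hL' a b => ?_⟩
  · rw [hν _ (c1 L)]
    have h3 : ∀ v, g1 L (starS π.1 ω (fun k => X k.2 k.1) v) ≤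
        ∑ a, (X a v ^ 2 + ∑ j, X a (π.1 (v, j)).1 ^ 2) := fun v => by
      refine (min_le_right _ _).trans ?_
      have h4 : ∑ a, (X a v ^ 2 + ∑ j, X a (π.1 (v, j)).1 ^ 2) =
          ∑ k, (starS π.1 ω (fun k => X k.2 k.1) v).2 k ^ 2 := by
        rw [Fintype.sum_prod_type_right]
        exact Finset.sum_congr rfl fun a _ => by rw [Fintype.sum_option]; rfl
      rw [h4, ← Real.le_sqrt (norm_nonneg _) (Finset.sum_nonneg fun k _ => sq_nonneg _),
        pi_norm_le_iff_of_nonneg (Real.sqrt_nonneg _)]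
      exact fun k => Real.abs_le_sqrt (Finset.single_le_sum
        (f := fun k => (starS π.1 ω (fun k => X k.2 k.1) v).2 k ^ 2)
        (fun k _ => sq_nonneg _) (Finset.mem_univ k))
    refine (avg_mono h3).trans (le_of_eq ?_)
    rw [avg_finset_sum]
    have h5 : ∀ a, (avg fun v => X a v ^ 2 + ∑ j, X a (π.1 (v, j)).1 ^ 2) = D + 2 := fun a => by
      rw [avg_add, h2, avg, sum_nbr π.1 fun v => X a v ^ 2, mul_div_assoc, ← avg, h2]
      ring
    simp only [h5, Finset.sum_const, Finset.card_univ, Fintype.card_fin, nsmul_eq_mul, mul_comm]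
  · refine hf.le.trans (le_of_eq ?_)
    congr 2
    rw [avg_prod, avg_comm]
    refine avg_congr fun j => ?_
    rw [hν (fun q => f (edgeJ j q)) (f.continuous.comp (continuous_edgeJ j))]
    exact avg_congr fun v => congrArg f (edgeJ_starS π ω (fun k => X k.2 k.1) (v, j)).symm
  · rw [hν _ (c2 s E a)]
    obtain ⟨lam, h3, h4⟩ := hX.2 a
    have h5 : ∀ v, g2 s E a (starS π.1 ω (fun k => X k.2 k.1) v) ≤ (R / n) ^ 2 * X a v ^ 2 :=
      fun v => by
      refine (min_le_right _ _).trans ?_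
      have h6 := congrFun h4 v
      rw [ham_mulVec, Pi.smul_apply, smul_eq_mul] at h6
      have h7 : rs s E a (starS π.1 ω (fun k => X k.2 k.1) v) = (lam - E) * X a v := by
        change ∑ j, X a (π.1 (v, j)).1 - (E - s * (ω v : ℝ)) * X a v = _
        linarith
      rw [h7, mul_pow, ← sq_abs (lam - E)]
      exact mul_le_mul_of_nonneg_right (pow_le_pow_left₀ (abs_nonneg _) h3 2) (sq_nonneg _)
    refine (avg_mono h5).trans ?_
    rwa [avg_const_mul, h2, mul_one]
  · rw [hν _ (c3 L a b), ← h1]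
    exact cov_clip hL hL' (h2 a).le (h2 b).le (hU m hm a) (hU m hm b)

end Aux

/-- Suppose `GaussEig` fails for `p, R, f, ε`.  Work in `ProbabilityMeasure (SX D p)`;
`emp o X` = law of `starS π ω (flat X) v`, `v` uniform (`n ≥ 1`).  `UIEig` with `ε 2^{-m-2}` gives
`L_m`.  Closed sets: `𝒦 = {∀ L, ∫ min L ‖x‖² ≤ (D+2)(D+1) p}` (tight, hence compact: Prokhorov,
`isCompact_closure_of_isTightMeasureSet`), `C_M = 𝒦 ∩ {ε ≤ |avg_j ∫ f ∘ edgeJ j - waveInt|} ∩
{∀ a, ∫ min 1 (residual a)² ≤ 1/(M+1)} ∩ {∀ m ≤ M, ∀ L ≥ √L_m, ∀ a b,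
|∫ clip L x_a clip L x_b - δ_ab| ≤ 2 √(ε 2^{-m})}`.  Outside an event of mass `≤ ε/2`, for large `n`
every bad `emp o X` lies in `C_M` (`ham_mulVec`, `edgeJ_starS`, `avg_prod`).  If no point of `⋂ C_M`
were typical, each would have a neighbourhood (basic: a `Near` set) of vanishing probability;
finitely many cover some `C_M` (`IsCompact.elim_nhds_subcover`,
`exists_subset_nhds_of_isCompact'`), contradiction.  A typical point of `⋂ C_M` is a `Lim`
(monotone / dominated convergence as `L → ∞`). -/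
theorem extract {D : ℕ} {s E : ℝ} {β : Measure J} [IsProbabilityMeasure β] (hU : UIEig D s β E)
    (h : ¬ GaussEig D s β E) : ∃ (p : ℕ) (f : EX D p →ᵇ ℝ) (μ : Measure (SX D p)),
      IsProbabilityMeasure μ ∧ Lim s E β μ ∧ ∫ q, f q ∂(edgeLaw μ) ≠ waveInt D s β E p f := by
  simp only [GaussEig, not_forall, Filter.not_eventually, not_le] at h
  obtain ⟨p, R, f, ε, hε, h⟩ := h
  choose Lm hLm using fun m : ℕ => hU R (ε / 2 ^ (m + 2)) (by positivity)
  obtain ⟨μ, h1, h2⟩ := abs_compact (fun n => POm n D β)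
    (fun n o => {ν : ProbabilityMeasure (SX D p) | ∃ x, ∀ g : SX D p → ℝ, Continuous g →
      ∫ q, g q ∂(ν : Measure (SX D p)) = avg fun v => g (starS o.1.1 o.2 x v)})
    (CC_compact s E f (waveInt D s β E p f) ε Lm) (CC_anti _ _ _ _ _ _)
    (ENNReal.ofReal_pos.2 (half_pos hε)) fun M => by
      have e1 : ∀ᶠ n : ℕ in atTop, (R / n) ^ 2 ≤ 1 / (M + 1) := by
        have := (tendsto_const_div_atTop_nhds_zero_nat R).pow 2
        exact this.eventually (ge_mem_nhds (by rw [zero_pow two_ne_zero]; positivity))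
      refine (h.and_eventually (((Filter.eventually_all_finset (Finset.range (M + 1))).2
        fun m _ => hLm m).and (e1.and (eventually_gt_atTop 0)))).mono ?_
      rintro n ⟨k1, k2, k3, k4⟩
      by_contra k5
      refine absurd k1 (not_lt.2 ((measure_mono (t := _ ∪ ⋃ m ∈ Finset.range (M + 1),
        {o : Om n D | ∃ X : Fin 1 → Fin n → ℝ, EigSys (ham s o.1.1 o.2) E R 1 X ∧
          ε / 2 ^ (m + 2) < avg fun x => if Lm m < X 0 x ^ 2 then X 0 x ^ 2 else 0}) ?_).trans
        ((measure_union_le _ _).trans ((add_le_add (not_le.1 k5).le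
          ((measure_biUnion_finset_le _ _).trans (Finset.sum_le_sum k2))).trans ?_))))
      · rintro o ⟨X, hX, hf⟩
        by_contra k6
        simp only [Set.mem_union, Set.mem_iUnion, Set.mem_setOf_eq, not_or, not_exists, not_and,
          not_lt] at k6
        have : Nonempty (Fin n) := ⟨⟨0, k4⟩⟩
        have hm : Measurable (starS o.1.1 o.2 fun k : Fin n × Fin p => X k.2 k.1) :=
          measurable_of_finite _
        have hν : ∀ g : SX D p → ℝ, Continuous g → ∫ q, g q ∂((uniformOn Set.univ).map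
            (starS o.1.1 o.2 fun k : Fin n × Fin p => X k.2 k.1)) =
            avg fun v => g (starS o.1.1 o.2 (fun k => X k.2 k.1) v) := fun g hg => by
          rw [integral_map hm.aemeasurable hg.aestronglyMeasurable, integral_uniformOn_univ]
        refine k6.1 ⟨_, Measure.isProbabilityMeasure_map hm.aemeasurable⟩ ⟨_, hν⟩
          (mem_CC k4 k3 o.1 o.2 hX hf (fun m hm a => ?_) hν)
        refine k6.2 m (Finset.mem_range.2 (Nat.lt_succ_of_le hm)) (fun _ => X a)
          ⟨fun i j => ?_, fun _ => hX.2 a⟩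
        rw [hX.1, if_pos rfl, if_pos (Subsingleton.elim i j)]
      · rw [← ENNReal.ofReal_sum_of_nonneg fun m _ => by positivity,
          ← ENNReal.ofReal_add (half_pos hε).le (Finset.sum_nonneg fun m _ => by positivity)]
        refine ENNReal.ofReal_le_ofReal ?_
        have h3 : ∑ m ∈ Finset.range (M + 1), ε / 2 ^ (m + 2) =
            ε / 4 * ∑ m ∈ Finset.range (M + 1), (1 / 2 : ℝ) ^ m := by
          rw [Finset.mul_sum]
          exact Finset.sum_congr rfl fun m _ => by rw [pow_add, _root_.one_div_pow]; field_simp; norm_num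
        have h4 := sum_geometric_two_le (M + 1)
        rw [h3]
        nlinarith
  refine ⟨p, f, μ, inferInstance, ⟨fun Φ δ hδ => ?_, KK_sq (h1 0).1, CC_eig h1, CC_cov h1⟩, ?_⟩
  · obtain ⟨c, hc, h3⟩ := h2 {ν | ∀ g ∈ Φ, |∫ q, g q ∂(ν : Measure (SX D p)) -
        ∫ q, g q ∂(μ : Measure (SX D p))| ≤ δ} ((Filter.eventually_all_finset Φ).2 fun g _ =>
      (((ProbabilityMeasure.continuous_integral_boundedContinuousFunction g).sub
        continuous_const).abs.tendsto μ).eventually (ge_mem_nhds (by simpa using hδ)))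
    refine ⟨c, hc, h3.mono fun n hn => hn.trans (measure_mono ?_)⟩
    rintro o ⟨ν, ⟨x, hx⟩, hν⟩
    exact ⟨x, fun g hg => hx g g.continuous ▸ hν g hg⟩
  · rw [integral_edgeLaw f.continuous.stronglyMeasurable fun j =>
      int_bdd (f.continuous.comp (continuous_edgeJ j)) (fun q => f.norm_coe_le_norm _) _]
    intro h3
    have h4 := (h1 0).2.1
    rw [h3, sub_self, abs_zero] at h4
    linarith

end Crest.Agent.R166.B
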