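import Crest.Agent.R166.B.Flip

/-! # The exact identity -/

set_option autoImplicit false
set_option linter.unusedVariables false
set_option linter.unusedSectionVars false

open MeasureTheory ProbabilityTheory Filter Topology Matrix
open scoped ENNReal BoundedContinuousFunction Kronecker

namespace Crest.Agent.R166.B

section aux
variable {K N S : Type} [Fintype K] [Fintype N] [MeasurableSpace S]
  {l : Measure S} {κ : Kernel S (K → ℝ)} {P : S → Matrix K K ℝ} {B : S → Matrix K N ℝ} {u : ℝ}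
  [IsProbabilityMeasure l] [IsMarkovKernel κ]

private theorem lim2_ce (hc : GCh l κ P B) (hu : 0 ≤ u) (k : K)
    (hx : Integrable (fun q => q.2 k) (l ⊗ₘ κ)) {f c : S × (K → ℝ) → ℝ} (hf : Measurable f)
    (hcm : Measurable c) (h1 : ∀ q, |c q| ≤ 1) (h2 : ∀ q, |f q * c q| ≤ 1) :
    Integrable (fun w => (w.1.2 k - f (w.1.1, w.2)) * c (w.1.1, w.2)) (tri (l ⊗ₘ κ) B u) ∧
    Integrable (fun w => (Mf (P w.1.1) (κ w.1.1) u w.2 k - f (w.1.1, w.2)) * c (w.1.1, w.2))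
      (tri (l ⊗ₘ κ) B u) ∧
    ∫ w, (Mf (P w.1.1) (κ w.1.1) u w.2 k - f (w.1.1, w.2)) * c (w.1.1, w.2) ∂(tri (l ⊗ₘ κ) B u) =
      ∫ w, (w.1.2 k - f (w.1.1, w.2)) * c (w.1.1, w.2) ∂(tri (l ⊗ₘ κ) B u) := by
  have := tri_prob (l ⊗ₘ κ) hc.mB u
  have hπ : Measurable fun w : (S × (K → ℝ)) × (K → ℝ) => (w.1.1, w.2) := by fun_prop
  have hm : MeasurePreserving Prod.fst (tri (l ⊗ₘ κ) B u) (l ⊗ₘ κ) :=
    ⟨measurable_fst, tri_fst _ hc.mB u⟩
  have a1 : Integrable (fun w => w.1.2 k * c (w.1.1, w.2)) (tri (l ⊗ₘ κ) B u) :=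
    (hm.integrable_comp_of_integrable hx).mul_bdd (c := 1) (hcm.comp hπ).aestronglyMeasurable
      (Eventually.of_forall fun w => h1 _)
  have a2 : Integrable (fun w => f (w.1.1, w.2) * c (w.1.1, w.2)) (tri (l ⊗ₘ κ) B u) :=
    Integrable.of_bound ((hf.mul hcm).comp hπ).aestronglyMeasurable 1
      (Eventually.of_forall fun w => h2 _)
  obtain ⟨a3, a4⟩ := tri_ce hc hu k hx hcm a1
  simp only [sub_mul]
  exact ⟨a1.sub a2, a3.sub a2, by rw [integral_sub a1 a2, integral_sub a3 a2, a4]⟩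

private theorem lim2_zero {Ω : Type} [MeasurableSpace Ω] {T : Measure Ω} {F c : Ω → ℝ}
    (hc : ∀ᵐ w ∂T, 0 < c w) (hi : Integrable (fun w => F w * (c w * (F w / (1 + |F w|)))) T)
    (h0 : ∫ w, F w * (c w * (F w / (1 + |F w|))) ∂T = 0) : ∀ᵐ w ∂T, F w = 0 := by
  have e : ∀ w, F w * (c w * (F w / (1 + |F w|))) = c w * F w ^ 2 / (1 + |F w|) := fun w => by ring
  have h := (integral_eq_zero_iff_of_nonneg_ae (hc.mono fun w hw => by
    simp only [e, Pi.zero_apply]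
    positivity) hi).1 h0
  filter_upwards [h, hc] with w h1 h2
  simp only [e, Pi.zero_apply, div_eq_zero_iff, mul_eq_zero, pow_eq_zero_iff two_ne_zero] at h1
  rcases h1 with (h1 | h1) | h1
  · exact absurd h1 h2.ne'
  · exact h1
  · exact absurd h1 (by positivity)

private theorem lim2_sq (t : ℝ) : |t / (1 + |t|)| ≤ 1 := by
  rw [abs_div, abs_of_pos (by positivity : 0 < 1 + |t|), div_le_one (by positivity)]
  linarith

private theorem lim2_bd {a b x y g : ℝ} (ha : 0 ≤ a) (hb : 0 ≤ b) (hx : |x| ≤ 1 + a)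
    (hy : |y| ≤ 1 + b) (hg : |g| ≤ 1) : |y * (x * (1 / ((1 + a) * (1 + b))) * g)| ≤ 1 := by
  have h : 0 < (1 + a) * (1 + b) := by positivity
  rw [abs_mul, abs_mul, abs_mul, abs_of_pos (one_div_pos.2 h)]
  calc |y| * (|x| * (1 / ((1 + a) * (1 + b))) * |g|)
      ≤ (1 + b) * ((1 + a) * (1 / ((1 + a) * (1 + b))) * 1) := by gcongr
    _ = 1 := by field_simp

private theorem lim2_main (hc : GCh l κ P B) (hu : 0 ≤ u)
    (hx : ∀ k, Integrable (fun q => q.2 k) (l ⊗ₘ κ)) {K' : Type} [Fintype K'] {m : S → ℂ}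
    (hm : Measurable m) (hm' : ∀ᵐ σ ∂l, 0 < (m σ).im) {φ : S × (K → ℝ) → K' → ℝ}
    (hφ : Measurable φ) (hφc : ∀ᵐ σ ∂l, Continuous fun y => φ (σ, y))
    (hMc : ∀ᵐ σ ∂l, Continuous (Mf (P σ) (κ σ) u)) (k₀ k₁ : K) (i₀ i₁ : K')
    (h : ∀ g : S × (K → ℝ) → ℝ, Measurable g → (∀ q, |g q| ≤ 1) →
      (∀ᵐ σ ∂l, Continuous fun y => g (σ, y)) →
      ∫ w, (((w.1.2 k₁ - φ (w.1.1, w.2) i₁ : ℝ) : ℂ) +
        m w.1.1 * ((w.1.2 k₀ - φ (w.1.1, w.2) i₀ : ℝ) : ℂ)) *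
        ((1 / ((1 + ‖m w.1.1‖) * (1 + ‖φ (w.1.1, w.2)‖)) * g (w.1.1, w.2) : ℝ) : ℂ)
          ∂(tri (l ⊗ₘ κ) B u) = 0) :
    ∀ᵐ σ ∂l, ∀ ξ : N → ℝ, Mf (P σ) (κ σ) u (√u • B σ *ᵥ ξ) k₀ = φ (σ, √u • B σ *ᵥ ξ) i₀ ∧
      Mf (P σ) (κ σ) u (√u • B σ *ᵥ ξ) k₁ = φ (σ, √u • B σ *ᵥ ξ) i₁ := by
  obtain ⟨d, hd⟩ : ∃ d : S × (K → ℝ) → ℝ, ∀ q, d q = 1 / ((1 + ‖m q.1‖) * (1 + ‖φ q‖)) :=
    ⟨_, fun _ => rfl⟩
  have hdm : Measurable d := by
    rw [funext hd]
    exact measurable_const.div ((measurable_const.add (hm.comp measurable_fst).norm).mul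
      (measurable_const.add hφ.norm))
  have hd0 : ∀ q, 0 < d q := fun q => by rw [hd]; positivity
  have hφi : ∀ i, Measurable fun q => φ q i := fun i => (measurable_pi_apply i).comp hφ
  have hM : ∀ k, Measurable fun q : S × (K → ℝ) => Mf (P q.1) (κ q.1) u q.2 k := fun k =>
    (measurable_pi_apply k).comp (measurable_Mf hc.mP κ u)
  have ce : ∀ (k : K) (i : K') (r : S → ℝ), Measurable r → (∀ σ, |r σ| ≤ 1 + ‖m σ‖) →
      ∀ g : S × (K → ℝ) → ℝ, Measurable g → (∀ q, |g q| ≤ 1) → _ := fun k i r hr hr' g hg hg' =>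
    lim2_ce hc hu k (hx k) (c := fun q => r q.1 * d q * g q) (hφi i)
      (((hr.comp measurable_fst).mul hdm).mul hg)
      (fun q => by
        have := lim2_bd (y := 1) (norm_nonneg (m q.1)) (norm_nonneg (φ q)) (hr' q.1)
          (by simp) (hg' q)
        rwa [one_mul, ← hd] at this)
      fun q => by
        have := lim2_bd (norm_nonneg (m q.1)) (norm_nonneg (φ q)) (hr' q.1)
          ((norm_le_pi_norm (φ q) i).trans (le_add_of_nonneg_left zero_le_one)) (hg' q)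
        rwa [← hd] at this
  have key : ∀ g : S × (K → ℝ) → ℝ, Measurable g → (∀ q, |g q| ≤ 1) →
      (∀ᵐ σ ∂l, Continuous fun y => g (σ, y)) →
      ∫ w, (Mf (P w.1.1) (κ w.1.1) u w.2 k₁ - φ (w.1.1, w.2) i₁) *
          (1 * d (w.1.1, w.2) * g (w.1.1, w.2)) ∂(tri (l ⊗ₘ κ) B u) +
        ∫ w, (Mf (P w.1.1) (κ w.1.1) u w.2 k₀ - φ (w.1.1, w.2) i₀) *
          ((m w.1.1).re * d (w.1.1, w.2) * g (w.1.1, w.2)) ∂(tri (l ⊗ₘ κ) B u) = 0 ∧
      ∫ w, (Mf (P w.1.1) (κ w.1.1) u w.2 k₀ - φ (w.1.1, w.2) i₀) *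
          ((m w.1.1).im * d (w.1.1, w.2) * g (w.1.1, w.2)) ∂(tri (l ⊗ₘ κ) B u) = 0 := by
    intro g hg hg' hgc
    obtain ⟨a1, -, a2⟩ := ce k₁ i₁ (fun _ => 1) measurable_const (fun σ => by simp) g hg hg'
    obtain ⟨b1, -, b2⟩ := ce k₀ i₀ (fun σ => (m σ).re) (Complex.measurable_re.comp hm)
      (fun σ => (Complex.abs_re_le_norm _).trans (le_add_of_nonneg_left zero_le_one)) g hg hg'
    obtain ⟨c1, -, c2⟩ := ce k₀ i₀ (fun σ => (m σ).im) (Complex.measurable_im.comp hm)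
      (fun σ => (Complex.abs_im_le_norm _).trans (le_add_of_nonneg_left zero_le_one)) g hg hg'
    have h0 := h g hg hg' hgc
    have e : ∀ w : (S × (K → ℝ)) × (K → ℝ), (((w.1.2 k₁ - φ (w.1.1, w.2) i₁ : ℝ) : ℂ) +
        m w.1.1 * ((w.1.2 k₀ - φ (w.1.1, w.2) i₀ : ℝ) : ℂ)) *
        ((1 / ((1 + ‖m w.1.1‖) * (1 + ‖φ (w.1.1, w.2)‖)) * g (w.1.1, w.2) : ℝ) : ℂ) =
        (((w.1.2 k₁ - φ (w.1.1, w.2) i₁) * (1 * d (w.1.1, w.2) * g (w.1.1, w.2)) +
          (w.1.2 k₀ - φ (w.1.1, w.2) i₀) * ((m w.1.1).re * d (w.1.1, w.2) * g (w.1.1, w.2)) : ℝ) :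
            ℂ) + (((w.1.2 k₀ - φ (w.1.1, w.2) i₀) *
              ((m w.1.1).im * d (w.1.1, w.2) * g (w.1.1, w.2)) : ℝ) : ℂ) * Complex.I := by
      intro w
      rw [← hd (w.1.1, w.2)]
      conv_lhs => rw [← Complex.re_add_im (m w.1.1)]
      push_cast
      ring
    simp only [e] at h0
    rw [integral_add (a1.add b1).ofReal (c1.ofReal.mul_const _), integral_mul_const,
      integral_complex_ofReal, integral_complex_ofReal, integral_add a1 b1, ← a2, ← b2, ← c2] at h0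
    have h1 := congrArg Complex.re h0
    have h2 := congrArg Complex.im h0
    simp only [Complex.add_re, Complex.ofReal_re, Complex.mul_re, Complex.I_re, mul_zero,
      Complex.ofReal_im, Complex.I_im, mul_one, sub_self, add_zero, Complex.zero_re, Complex.add_im,
      Complex.mul_im, zero_add, Complex.zero_im] at h1 h2
    exact ⟨h1, h2⟩
  have hg : ∀ k i, Measurable (fun q : S × (K → ℝ) => (Mf (P q.1) (κ q.1) u q.2 k - φ q i) /
      (1 + |Mf (P q.1) (κ q.1) u q.2 k - φ q i|)) ∧ ∀ᵐ σ ∂l, Continuous fun y =>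
        (Mf (P σ) (κ σ) u y k - φ (σ, y) i) / (1 + |Mf (P σ) (κ σ) u y k - φ (σ, y) i|) := by
    intro k i
    refine ⟨((hM k).sub (hφi i)).div (measurable_const.add ((hM k).sub (hφi i)).abs), ?_⟩
    filter_upwards [hφc, hMc] with σ h1 h2
    have h3 := ((continuous_apply k).comp h2).sub ((continuous_apply i).comp h1)
    exact h3.div (continuous_const.add h3.abs) fun y => by positivity
  have hT : ∀ᵐ w ∂(tri (l ⊗ₘ κ) B u), 0 < (m w.1.1).im := by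
    have h1 : MeasurePreserving Prod.fst (tri (l ⊗ₘ κ) B u) (l ⊗ₘ κ) :=
      ⟨measurable_fst, tri_fst _ hc.mB u⟩
    have h2 : MeasurePreserving Prod.fst (l ⊗ₘ κ) l := ⟨measurable_fst, Measure.fst_compProd l κ⟩
    exact (h2.comp h1).quasiMeasurePreserving.ae hm'
  have z0 : ∀ᵐ w ∂(tri (l ⊗ₘ κ) B u),
      Mf (P w.1.1) (κ w.1.1) u w.2 k₀ - φ (w.1.1, w.2) i₀ = 0 :=
    lim2_zero (c := fun w => (m w.1.1).im * d (w.1.1, w.2))
      (hT.mono fun w hw => mul_pos hw (hd0 _))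
      (ce k₀ i₀ (fun σ => (m σ).im) (Complex.measurable_im.comp hm)
        (fun σ => (Complex.abs_im_le_norm _).trans (le_add_of_nonneg_left zero_le_one)) _
        (hg k₀ i₀).1 fun q => lim2_sq _).2.1
      (key _ (hg k₀ i₀).1 (fun q => lim2_sq _) (hg k₀ i₀).2).2
  have z1 : ∀ᵐ w ∂(tri (l ⊗ₘ κ) B u),
      Mf (P w.1.1) (κ w.1.1) u w.2 k₁ - φ (w.1.1, w.2) i₁ = 0 := by
    refine lim2_zero (c := fun w => 1 * d (w.1.1, w.2))
      (Eventually.of_forall fun w => mul_pos one_pos (hd0 _))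
      (ce k₁ i₁ (fun _ => 1) measurable_const (fun σ => by simp) _
        (hg k₁ i₁).1 fun q => lim2_sq _).2.1 ?_
    have h1 := (key _ (hg k₁ i₁).1 (fun q => lim2_sq _) (hg k₁ i₁).2).1
    have h2 : ∀ G : (S × (K → ℝ)) × (K → ℝ) → ℝ,
        ∫ w, (Mf (P w.1.1) (κ w.1.1) u w.2 k₀ - φ (w.1.1, w.2) i₀) * G w ∂(tri (l ⊗ₘ κ) B u) = 0 :=
      fun G => integral_eq_zero_of_ae (z0.mono fun w hw => by simp only [hw, zero_mul, Pi.zero_apply])
    rwa [h2, add_zero] at h1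
  have fin : ∀ k i, (∀ᵐ w ∂(tri (l ⊗ₘ κ) B u),
      Mf (P w.1.1) (κ w.1.1) u w.2 k - φ (w.1.1, w.2) i = 0) → ∀ᵐ σ ∂l, ∀ ξ : N → ℝ,
      Mf (P σ) (κ σ) u (√u • B σ *ᵥ ξ) k = φ (σ, √u • B σ *ᵥ ξ) i := by
    intro k i hz
    have h1 := tri_ae hc hu (A := {q | Mf (P q.1) (κ q.1) u q.2 k = φ q i})
      (measurableSet_eq_fun (hM k) (hφi i)) (hz.mono fun w hw => sub_eq_zero.1 hw)
    filter_upwards [h1, hφc, hMc] with σ h1 h2 h3
    have h4 : Continuous fun ξ : N → ℝ => √u • B σ *ᵥ ξ := by fun_prop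
    exact congrFun ((((continuous_apply k).comp (h3.comp h4)).ae_eq_iff_eq (gpi N)
      ((continuous_apply i).comp (h2.comp h4))).1 h1)
  filter_upwards [fin _ _ z0, fin _ _ z1] with σ h1 h2 ξ using ⟨h1 ξ, h2 ξ⟩

end aux

/-- `M` = star posterior mean at `z = E` (`gch_star`, `cav_m0`), `Δ (σ, y) = resid .. σ (M σ y) y`,
measurable, continuous in `y` for a.e. `σ` (`continuous_Mf`).  `tri_ce` replaces `x` by `M`; take
`g = Re Δ / (1 + |Re Δ|)` and `Im Δ / (1 + |Im Δ|)`: `Δ = 0` a.e.; `tri_ae`, continuity and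
`IsOpenPosMeasure` give `Δ (σ, √u B ξ) = 0` for all `ξ`; every `y` in the hyperplane is of this
form (`Bs_Ps_fix`).  `Im m_j > 0` splits `Δ = 0` into `M (none,a) = φ_j (0,a)`,
`M (some j,a) = φ_j (1,a)`; `dot_Mf_eq_zero` gives the eigenvalue equation for `M`. -/
theorem ident_of_lim {D p : ℕ} (hD : 1 ≤ D) {s E : ℝ} {β : Measure J} [IsProbabilityMeasure β]
    (hT : TreeOK D s β E) {μ : Measure (SX D p)} [IsProbabilityMeasure μ]
    (hμ : Lim s E β μ) {κ : Kernel (StarEnv D) (SV D × Fin p → ℝ)} [IsMarkovKernel κ]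
    {κ' : Kernel (Env D × Env D) (Fin 2 × Fin p → ℝ)} [IsMarkovKernel κ'] (hd : Dis β μ κ κ')
    {u : ℝ} (hu : 0 < u)
    (h : ∀ j a (g : SX D p → ℝ), Measurable g → (∀ q, |g q| ≤ 1) →
      (∀ᵐ σ ∂(starLaw D β), Continuous fun y => g (σ, y)) →
      ∫ w, resid (m0 s E) κ' u j a w.1.1 w.1.2 w.2 *
        ((damp (m0 s E) κ' u j w.1.1 w.2 * g (w.1.1, w.2) : ℝ) : ℂ)
          ∂(tri μ (BS p s E (m0 s E)) u) = 0) :
    Ident s E β κ' u := by
  have hc := cav_m0 hD hT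
  have hG := gch_star hc hd.star (Or.inr hμ.eig)
  have hx : ∀ k, Integrable (fun q : SX D p => q.2 k) (starLaw D β ⊗ₘ κ) := fun k => by
    rw [← hd.star]
    exact (hμ.sq.integrable one_le_two).eval k
  have hPS : ∀ᵐ σ ∂(starLaw D β), (PS p s E (m0 s E) σ).PosDef :=
    hc.pos_star.mono fun σ hσ => ten_posDef (Ps_posDef hc.zim fun j => (hσ j).1)
  have hφm : ∀ j : Fin (D + 1), Measurable fun q : SX D p => phi (m0 s E) κ' u j q.1 q.2 :=
    fun j => by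
      have h1 := measurable_Mf (measM_PE p hc.meas) κ' u
      have h2 : Measurable (edgeJ j : SX D p → EX D p) := (continuous_edgeJ j).measurable
      have h3 := h1.comp h2
      simp only [Function.comp_def, edgeJ] at h3
      simp only [phi, Function.comp_def]
      exact h3
  have hφc : ∀ j : Fin (D + 1), ∀ᵐ σ ∂(starLaw D β),
      Continuous fun y => phi (m0 s E) κ' u j σ y := fun j =>
    hc.pos_star.mono fun σ hσ => by
      have h1 : (PE p (m0 s E) (eEnv j σ)).PosDef := ten_posDef (Pe_posDef (hσ j).2 (hσ j).1)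
      have h2 : Continuous fun y : SV D × Fin p → ℝ => y ∘ eI j := by fun_prop
      exact (continuous_Mf (κ' (eEnv j σ)) h1 hu).comp h2
  have hmm : ∀ j : Fin (D + 1), Measurable fun σ : StarEnv D => m0 s E (σ.2 j) := fun j =>
    hc.meas.comp ((measurable_pi_apply j).comp measurable_snd)
  have hmain := fun (j : Fin (D + 1)) (a : Fin p) =>
    lim2_main hG hu.le hx (hmm j) (hc.pos_star.mono fun σ hσ => (hσ j).1) (hφm j) (hφc j)
      (hPS.mono fun σ hσ => continuous_Mf _ hσ hu) (none, a) (some j, a) (0, a) (1, a)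
      (by rw [← hd.star]; exact h j a)
  have heig := hμ.eig
  rw [hd.star] at heig
  filter_upwards [ae_all_iff.2 fun j => ae_all_iff.2 fun a => hmain j a, hc.pos_star, hPS,
    Measure.ae_ae_of_ae_compProd heig, ae_all_iff.2 fun k =>
      ((Measure.integrable_compProd_iff (hx k).aestronglyMeasurable).1 (hx k)).1]
    with σ h1 h2 h3 h4 h5 y hy a
  have hfix : (BS p s E (m0 s E) σ * (BS p s E (m0 s E) σ)ᵀ * PS p s E (m0 s E) σ) *ᵥ y = y := by
    funext k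
    unfold BS PS
    rw [ten_transpose, ten_mul, ten_mul, ten_mulVec]
    exact congrFun (Bs_Ps_fix hc.zim (fun j => (h2 j).1) (x := fun v => y (v, k.2))
      (Or.inr (hy k.2))) k.1
  have hy' : √u • BS p s E (m0 s E) σ *ᵥ
      ((√u)⁻¹ • ((BS p s E (m0 s E) σ)ᵀ * PS p s E (m0 s E) σ) *ᵥ y) = y := by
    rw [mulVec_smul, smul_smul, mul_inv_cancel₀ (Real.sqrt_pos.2 hu).ne', one_smul, mulVec_mulVec,
      ← Matrix.mul_assoc, hfix]
  have h6 : ∀ j, Mf (PS p s E (m0 s E) σ) (κ σ) u y (none, a) = phi (m0 s E) κ' u j σ y (0, a) ∧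
      Mf (PS p s E (m0 s E) σ) (κ σ) u y (some j, a) = phi (m0 s E) κ' u j σ y (1, a) := fun j => by
    have := h1 j a ((√u)⁻¹ • ((BS p s E (m0 s E) σ)ᵀ * PS p s E (m0 s E) σ) *ᵥ y)
    rwa [hy'] at this
  have hb : ∀ x : SV D × Fin p → ℝ, ((∑ j, Pi.single (some j, a) 1) -
      (E - s * (σ.1 : ℝ)) • Pi.single (none, a) 1 : SV D × Fin p → ℝ) ⬝ᵥ x =
        ∑ j, x (some j, a) - (E - s * (σ.1 : ℝ)) * x (none, a) := fun x => by
    simp [sub_dotProduct, sum_dotProduct]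
  have h7 := dot_Mf_eq_zero (P := PS p s E (m0 s E) σ) (κ := κ σ) (u := u) (y := y)
    (fun k => integrable_wt_mul h3.posSemidef hu.le (Or.inl hu) k (h5 k))
    (h4.mono fun x hx => (hb x).trans (sub_eq_zero.2 (hx a)))
  rw [hb, sub_eq_zero] at h7
  refine ⟨fun i j => (h6 i).1.symm.trans (h6 j).1, ?_⟩
  rw [← (h6 0).1, ← h7]
  exact Finset.sum_congr rfl fun j _ => (h6 j).2.symm

end Crest.Agent.R166.B
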