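import Crest.Agent.R166.B.Rig1
import Crest.Agent.R166.B.Flip
import Crest.Agent.R166.T7

/-! # The edge posterior mean is affine -/

set_option autoImplicit false
set_option linter.unusedVariables false
set_option linter.unusedSectionVars false

open MeasureTheory ProbabilityTheory Filter Topology Matrix
open scoped ENNReal BoundedContinuousFunction Kronecker

namespace Crest.Agent.R166.B

/-- `tl e v a = Mf (PE e) (κ' e) u (fun k => if k.1 = 0 then v k.2 else 0) (0, a)`.
`tail_indep` + `ae_forall_of_map` (`map_eEnv`): a.e. `e`, `Mf .. y (0,a) = tl e (y (0,·)) a`;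
`Mf_flip`: `Mf .. y (1,a) = tl e.swap (y (1,·)) a`.  `heads_affine` for `H j = tl (eEnv j σ).swap`.
`α e = tl e (single b 1) a - tl e 0 a` is a.e. constant (`edge_const`).  Transfer the affine form to
a.e. `e` along `σ ↦ (eEnv 0 σ).swap` (law `env2`).  `b e = tl e 0`. -/
theorem affine_of_ident {D p : ℕ} (hD : 2 ≤ D) {s E : ℝ} {β : Measure J} [IsProbabilityMeasure β]
    (hT : TreeOK D s β E) {κ' : Kernel (Env D × Env D) (Fin 2 × Fin p → ℝ)} [IsMarkovKernel κ']
    (hflip : (env2 D β ⊗ₘ κ').map flipE = env2 D β ⊗ₘ κ') {u : ℝ} (hu : 0 < u)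
    (h : Ident s E β κ' u) :
    ∃ (A : Matrix (Fin p) (Fin p) ℝ) (b : Env D × Env D → Fin p → ℝ), Measurable b ∧
      (∀ᵐ e ∂(env2 D β), ∀ y a,
        Mf (PE p (m0 s E) e) (κ' e) u y (0, a) = b e a + ∑ c, A a c * y (0, c) ∧
        Mf (PE p (m0 s E) e) (κ' e) u y (1, a) = b e.swap a + ∑ c, A a c * y (1, c)) ∧
      (∀ i j, ∀ᵐ σ ∂(starLaw D β), b (eEnv i σ) = b (eEnv j σ)) ∧
      ∀ᵐ σ ∂(starLaw D β), ∀ a,
        ∑ i, b (eEnv i σ).swap a = (E - s * (σ.1 : ℝ)) * b (eEnv 0 σ) a := by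
  classical
  have hc := cav_m0 (by omega) hT
  set F : Env D × Env D → (Fin 2 × Fin p → ℝ) → Fin 2 × Fin p → ℝ :=
    fun e y => Mf (PE p (m0 s E) e) (κ' e) u y
  have mF : ∀ y k, Measurable fun e => F e y k := fun y k =>
    (measurable_pi_apply k).comp ((measurable_Mf (measM_PE p hc.meas) κ' u).comp
      (measurable_id.prodMk measurable_const))
  have cF : ∀ᵐ e ∂(env2 D β), Continuous (F e) := hc.pos_edge.mono fun e he =>
    continuous_Mf _ (ten_posDef (Pe_posDef he.1 he.2)) hu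
  replace h : ∀ᵐ σ ∂(starLaw D β), ∀ y : SV D × Fin p → ℝ,
      (∀ a, ∑ j, y (some j, a) = (E - s * (σ.1 : ℝ)) * y (none, a)) → ∀ a,
      (∀ i j, F (eEnv i σ) (y ∘ eI i) (0, a) = F (eEnv j σ) (y ∘ eI j) (0, a)) ∧
      ∑ j, F (eEnv j σ) (y ∘ eI j) (1, a) =
        (E - s * (σ.1 : ℝ)) * F (eEnv 0 σ) (y ∘ eI 0) (0, a) := h
  have hfl : ∀ᵐ e ∂(env2 D β), ∀ y, F e.swap (y ∘ swI) = F e y ∘ swI := Mf_flip hflip (m0 s E) u
  change ∃ (A : Matrix (Fin p) (Fin p) ℝ) (b : Env D × Env D → Fin p → ℝ), Measurable b ∧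
      (∀ᵐ e ∂(env2 D β), ∀ y a, F e y (0, a) = b e a + ∑ c, A a c * y (0, c) ∧
        F e y (1, a) = b e.swap a + ∑ c, A a c * y (1, c)) ∧ _
  clear_value F
  let up : (Fin p → ℝ) → Fin 2 × Fin p → ℝ := fun v k => if k.1 = 0 then v k.2 else 0
  have cup : Continuous up := continuous_pi fun k => by
    simp only [up]
    split_ifs
    · exact continuous_apply _
    · exact continuous_const
  let tl : Env D × Env D → (Fin p → ℝ) → Fin p → ℝ := fun e v a => F e (up v) (0, a)
  have mtl : ∀ v a, Measurable fun e => tl e v a := fun v a => mF _ _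
  have ctl : ∀ᵐ e ∂(env2 D β), Continuous (tl e) := cF.mono fun e he =>
    continuous_pi fun a => (continuous_apply _).comp (he.comp cup)
  have mE : ∀ j, Measurable (eEnv j : StarEnv D → _) := fun j => (continuous_eEnv j).measurable
  have toS : ∀ {Q : Env D × Env D → Prop}, (∀ᵐ e ∂(env2 D β), Q e) →
      ∀ᵐ σ ∂(starLaw D β), ∀ j, Q (eEnv j σ) := fun hQ => ae_all_iff.2 fun j =>
    ae_of_ae_map (mE j).aemeasurable (by rwa [map_eEnv])
  have toSw : ∀ {Q : Env D × Env D → Prop}, (∀ᵐ e ∂(env2 D β), Q e) →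
      ∀ᵐ e ∂(env2 D β), Q e.swap := fun hQ =>
    Measure.measurePreserving_swap.quasiMeasurePreserving.ae hQ
  -- step 1
  have h1 : ∀ᵐ σ ∂(starLaw D β), ∀ i j (y y' : Fin 2 × Fin p → ℝ), (∀ a, y (0, a) = y' (0, a)) →
      ∀ a, F (eEnv i σ) y (0, a) = F (eEnv j σ) y' (0, a) := by
    filter_upwards [h] with σ hσ i j y y' hy a
    exact congrFun (tail_indep hD (E - s * (σ.1 : ℝ)) (fun i y a => F (eEnv i σ) y (0, a))
      (fun y hy i j => funext fun a => (hσ y hy a).1 i j) i j y y' hy) a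
  -- step 2
  have h2 : ∀ᵐ e ∂(env2 D β), ∀ a y, F e y (0, a) = tl e (fun c => y (0, c)) a := by
    refine ae_all_iff.2 fun a => ?_
    rw [← map_eEnv β 0]
    refine ae_forall_of_map (G := fun e y => F e y (0, a))
      (H := fun e y => tl e (fun c => y (0, c)) a) (mE 0) (fun y => mF y _)
      (fun y => mtl (fun c => y (0, c)) a) ?_
      (h1.mono fun σ hσ y => hσ 0 0 y (up fun c => y (0, c)) (fun _ => rfl) a)
    rw [map_eEnv]
    filter_upwards [cF, ctl] with e he he'
    have h0 : Continuous fun (y : Fin 2 × Fin p → ℝ) (c : Fin p) => y (0, c) := by fun_prop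
    exact ⟨(continuous_apply _).comp he, (continuous_apply a).comp (he'.comp h0)⟩
  -- step 3
  have h3 : ∀ᵐ e ∂(env2 D β), ∀ a y, F e y (1, a) = tl e.swap (fun c => y (1, c)) a := by
    filter_upwards [toSw h2, hfl] with e he he' a y
    exact (congrFun (he' y) (0, a)).symm.trans (he a (y ∘ swI))
  -- the vertex identity
  have h4 : ∀ᵐ σ ∂(starLaw D β), ∀ v : Fin (D + 1) → Fin p → ℝ, ∑ j, v j = 0 → ∀ a,
      ∑ j, tl (eEnv j σ).swap (v j) a = (E - s * (σ.1 : ℝ)) * tl (eEnv 0 σ) 0 a := by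
    filter_upwards [h, toS h2, toS h3] with σ hσ h2 h3 v hv a
    have := (hσ (fun k => k.1.elim 0 fun j => v j k.2) (fun a => by
      simpa using congrFun hv a) a).2
    exact ((Finset.sum_congr rfl fun j _ => (h3 j a _).symm).trans this).trans
      (congrArg _ (h2 0 a _))
  have h5 : ∀ᵐ σ ∂(starLaw D β), ∃ A : Matrix (Fin p) (Fin p) ℝ, ∀ j v,
      tl (eEnv j σ).swap v = tl (eEnv j σ).swap 0 + A *ᵥ v := by
    filter_upwards [h4, toS (toSw ctl)] with σ h4 hct
    refine heads_affine hD _ hct fun v hv => funext fun a => ?_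
    simp only [Finset.sum_apply]
    rw [h4 v hv a, h4 (fun _ => 0) (by simp) a]
  have htl : ∀ᵐ σ ∂(starLaw D β), ∀ i j v, tl (eEnv i σ) v = tl (eEnv j σ) v :=
    h1.mono fun σ hσ i j v => funext fun a => hσ i j _ _ (fun _ => rfl) a
  have h6 : ∀ a c, ∃ r : ℝ, ∀ᵐ e ∂(env2 D β), tl e (Pi.single c 1) a - tl e 0 a = r := by
    intro a c
    refine edge_const hD β ((mtl _ a).sub (mtl _ a)) (fun i j => ?_) fun i j => ?_
    · filter_upwards [htl] with σ hσ
      exact congrArg₂ (· - ·) (congrFun (hσ i j _) a) (congrFun (hσ i j _) a)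
    · filter_upwards [h5] with σ ⟨A, hA⟩
      change tl (eEnv i σ).swap _ a - tl (eEnv i σ).swap 0 a =
        tl (eEnv j σ).swap _ a - tl (eEnv j σ).swap 0 a
      rw [hA i (Pi.single c 1), hA j (Pi.single c 1)]
      simp
  choose A hA using h6
  have h7 : ∀ᵐ e ∂(env2 D β), ∀ a v, tl e v a = tl e 0 a + ∑ c, A a c * v c := by
    refine ae_all_iff.2 fun a => ?_
    have hmap : (starLaw D β).map (fun σ => (eEnv 0 σ).swap) = env2 D β := by
      rw [show (fun σ : StarEnv D => (eEnv 0 σ).swap) = Prod.swap ∘ eEnv 0 from rfl,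
        ← Measure.map_map measurable_swap (mE 0), map_eEnv, Measure.prod_swap]
    rw [← hmap]
    refine ae_forall_of_map (G := fun e v => tl e v a)
      (H := fun e v => tl e 0 a + ∑ c, A a c * v c) (f := fun σ : StarEnv D => (eEnv 0 σ).swap)
      (measurable_swap.comp (mE 0)) (fun v => mtl v a)
      (fun v => (mtl _ a).add_const _) ?_ ?_
    · rw [hmap]
      filter_upwards [ctl] with e he
      exact ⟨(continuous_apply a).comp he, by fun_prop⟩
    · filter_upwards [h5, toS (toSw (ae_all_iff.2 (hA a)))] with σ ⟨B, hB⟩ hσ v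
      have hb : ∀ c, A a c = B a c := fun c => by
        rw [← hσ 0 c, hB 0 (Pi.single c 1)]
        simp
      rw [hB 0 v]
      simp only [hb, Pi.add_apply, Matrix.mulVec, dotProduct]
  refine ⟨Matrix.of A, fun e => tl e 0, measurable_pi_lambda _ fun a => mtl _ a, ?_,
    fun i j => htl.mono fun σ hσ => hσ i j _, h4.mono fun σ hσ => hσ (fun _ => 0) (by simp)⟩
  filter_upwards [h2, h3, h7, toSw h7] with e h2 h3 h7 h7' y a
  exact ⟨(h2 a y).trans (h7 a fun c => y (0, c)), (h3 a y).trans (h7' a fun c => y (1, c))⟩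

end Crest.Agent.R166.B
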