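import Crest.Agent.R166.B.Flip
import Crest.Agent.R166.T8

/-! # The affine map is a homothety -/

set_option autoImplicit false
set_option linter.unusedVariables false
set_option linter.unusedSectionVars false

open MeasureTheory ProbabilityTheory Filter Topology Matrix
open scoped ENNReal BoundedContinuousFunction Kronecker

namespace Crest.Agent.R166.B

section aux
variable {K N S : Type} [Fintype K] [Fintype N] [MeasurableSpace S]
  {ν : Measure (S × (K → ℝ))} [IsProbabilityMeasure ν] {B : S → Matrix K N ℝ} {u : ℝ}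

theorem Rig3_imul {Ω : Type} [MeasurableSpace Ω] {T : Measure Ω} {f g : Ω → ℝ} (hf : MemLp f 2 T)
    (hg : MemLp g 2 T) : Integrable (fun w => f w * g w) T := hf.integrable_mul hg

theorem Rig3_iadd {Ω : Type} [MeasurableSpace Ω] {T : Measure Ω} {f g : Ω → ℝ} (hf : Integrable f T)
    (hg : Integrable g T) : Integrable (fun w => f w + g w) T := hf.add hg

theorem Rig3_measG (hB : MeasM B) (k : K) :
    Measurable fun w : (S × (K → ℝ)) × (N → ℝ) => B w.1.1 k ⬝ᵥ w.2 :=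
  Finset.measurable_sum _ fun j _ =>
    ((hB k j).comp (measurable_fst.comp measurable_fst)).mul ((measurable_pi_apply j).comp measurable_snd)

theorem Rig3_gram (σ : S) (k k' : K) : (B σ * (B σ)ᵀ) k k' = B σ k ⬝ᵥ B σ k' := rfl

theorem Rig3_G2 (hB : MeasM B) {k : K} (hk : Integrable (fun q => (B q.1 * (B q.1)ᵀ) k k) ν) :
    MemLp (fun w : (S × (K → ℝ)) × (N → ℝ) => B w.1.1 k ⬝ᵥ w.2) 2 (ν.prod (gpi N)) := by
  have hm := Rig3_measG hB k
  rw [memLp_two_iff_integrable_sq hm.aestronglyMeasurable,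
    integrable_prod_iff (hm.pow_const 2).aestronglyMeasurable]
  refine ⟨Eventually.of_forall fun q => ?_, hk.congr (Eventually.of_forall fun q => ?_)⟩
  · simpa only [sq] using (integral_dot_mul (B q.1 k) (B q.1 k)).1
  · simp only [Real.norm_eq_abs, abs_sq]
    simp only [sq]
    exact (integral_dot_mul (B q.1 k) (B q.1 k)).2.symm

theorem Rig3_GG (hB : MeasM B) {k k' : K} (hk : Integrable (fun q => (B q.1 * (B q.1)ᵀ) k k) ν)
    (hk' : Integrable (fun q => (B q.1 * (B q.1)ᵀ) k' k') ν) :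
    ∫ w : (S × (K → ℝ)) × (N → ℝ), (B w.1.1 k ⬝ᵥ w.2) * (B w.1.1 k' ⬝ᵥ w.2) ∂(ν.prod (gpi N)) =
      ∫ q, (B q.1 * (B q.1)ᵀ) k k' ∂ν := by
  rw [integral_prod _ (Rig3_imul (Rig3_G2 hB hk) (Rig3_G2 hB hk'))]
  exact integral_congr_ae (Eventually.of_forall fun q => (integral_dot_mul (B q.1 k) (B q.1 k')).2)

theorem Rig3_XG (hB : MeasM B) {k : K} (hk : Integrable (fun q => (B q.1 * (B q.1)ᵀ) k k) ν)
    {X : S × (K → ℝ) → ℝ} (hX : MemLp X 2 ν) :
    ∫ w : (S × (K → ℝ)) × (N → ℝ), X w.1 * (B w.1.1 k ⬝ᵥ w.2) ∂(ν.prod (gpi N)) = 0 := by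
  rw [integral_prod _ (Rig3_imul (hX.comp_fst (gpi N)) (Rig3_G2 hB hk))]
  simp only [integral_const_mul, (integral_dot _).2, mul_zero, integral_zero]

theorem Rig3_measT (hB : MeasM B) (u : ℝ) :
    Measurable fun w : (S × (K → ℝ)) × (N → ℝ) => (w.1, ob (B w.1.1) u w.1.2 w.2) :=
  measurable_fst.prodMk (measurable_ob hB u)

theorem Rig3_ob (σ : S) (x : K → ℝ) (ξ : N → ℝ) (k : K) :
    ob (B σ) u x ξ k = u * x k + √u * (B σ k ⬝ᵥ ξ) := rfl

theorem Rig3_X2 (hB : MeasM B) {k : K} (hx : MemLp (fun q => q.2 k) 2 ν) :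
    MemLp (fun w => w.1.2 k) 2 (tri ν B u) := by
  rw [tri, memLp_map_measure_iff (Measurable.aestronglyMeasurable (by fun_prop))
    (Rig3_measT hB u).aemeasurable]
  exact hx.comp_fst (gpi N)

theorem Rig3_Y2 (hB : MeasM B) {k : K} (hx : MemLp (fun q => q.2 k) 2 ν)
    (hk : Integrable (fun q => (B q.1 * (B q.1)ᵀ) k k) ν) :
    MemLp (fun w => w.2 k) 2 (tri ν B u) := by
  rw [tri, memLp_map_measure_iff (Measurable.aestronglyMeasurable (by fun_prop))
    (Rig3_measT hB u).aemeasurable]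
  exact ((hx.comp_fst (gpi N)).const_mul u).add ((Rig3_G2 hB hk).const_mul √u)

theorem Rig3_XY (hB : MeasM B) {k k' : K} (hx : MemLp (fun q => q.2 k) 2 ν)
    (hx' : MemLp (fun q => q.2 k') 2 ν) (hk' : Integrable (fun q => (B q.1 * (B q.1)ᵀ) k' k') ν) :
    ∫ w, w.1.2 k * w.2 k' ∂(tri ν B u) = u * ∫ q, q.2 k * q.2 k' ∂ν := by
  rw [tri, integral_map (Rig3_measT hB u).aemeasurable
    (Measurable.aestronglyMeasurable (by fun_prop))]
  have i1 : Integrable (fun w : (S × (K → ℝ)) × (N → ℝ) => w.1.2 k * w.1.2 k') (ν.prod (gpi N)) :=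
    (hx.comp_fst (gpi N)).integrable_mul (hx'.comp_fst (gpi N))
  have i2 : Integrable (fun w : (S × (K → ℝ)) × (N → ℝ) => w.1.2 k * (B w.1.1 k' ⬝ᵥ w.2))
      (ν.prod (gpi N)) := (hx.comp_fst (gpi N)).integrable_mul (Rig3_G2 hB hk')
  have e : ∀ w : (S × (K → ℝ)) × (N → ℝ), w.1.2 k * ob (B w.1.1) u w.1.2 w.2 k' =
      u * (w.1.2 k * w.1.2 k') + √u * (w.1.2 k * (B w.1.1 k' ⬝ᵥ w.2)) := fun w => by
    rw [Rig3_ob]; ring
  simp only [e]
  rw [integral_add (i1.const_mul u) (i2.const_mul √u), integral_const_mul, integral_const_mul,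
    Rig3_XG hB hk' hx, integral_prod _ i1]
  simp

theorem Rig3_YY (hB : MeasM B) (hu : 0 ≤ u) {k k' : K} (hx : MemLp (fun q => q.2 k) 2 ν)
    (hx' : MemLp (fun q => q.2 k') 2 ν) (hk : Integrable (fun q => (B q.1 * (B q.1)ᵀ) k k) ν)
    (hk' : Integrable (fun q => (B q.1 * (B q.1)ᵀ) k' k') ν) :
    ∫ w, w.2 k * w.2 k' ∂(tri ν B u) =
      u ^ 2 * ∫ q, q.2 k * q.2 k' ∂ν + u * ∫ q, (B q.1 * (B q.1)ᵀ) k k' ∂ν := by
  rw [tri, integral_map (Rig3_measT hB u).aemeasurable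
    (Measurable.aestronglyMeasurable (by fun_prop))]
  have i1 : Integrable (fun w : (S × (K → ℝ)) × (N → ℝ) => w.1.2 k * w.1.2 k') (ν.prod (gpi N)) :=
    (hx.comp_fst (gpi N)).integrable_mul (hx'.comp_fst (gpi N))
  have i2 : Integrable (fun w : (S × (K → ℝ)) × (N → ℝ) => w.1.2 k * (B w.1.1 k' ⬝ᵥ w.2))
      (ν.prod (gpi N)) := (hx.comp_fst (gpi N)).integrable_mul (Rig3_G2 hB hk')
  have i3 : Integrable (fun w : (S × (K → ℝ)) × (N → ℝ) => w.1.2 k' * (B w.1.1 k ⬝ᵥ w.2))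
      (ν.prod (gpi N)) := (hx'.comp_fst (gpi N)).integrable_mul (Rig3_G2 hB hk)
  have i4 : Integrable (fun w : (S × (K → ℝ)) × (N → ℝ) =>
      (B w.1.1 k ⬝ᵥ w.2) * (B w.1.1 k' ⬝ᵥ w.2)) (ν.prod (gpi N)) :=
    (Rig3_G2 hB hk).integrable_mul (Rig3_G2 hB hk')
  have e : ∀ w : (S × (K → ℝ)) × (N → ℝ),
      ob (B w.1.1) u w.1.2 w.2 k * ob (B w.1.1) u w.1.2 w.2 k' =
      (u ^ 2 * (w.1.2 k * w.1.2 k') + u * √u * (w.1.2 k * (B w.1.1 k' ⬝ᵥ w.2))) +
        (u * √u * (w.1.2 k' * (B w.1.1 k ⬝ᵥ w.2)) +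
          u * ((B w.1.1 k ⬝ᵥ w.2) * (B w.1.1 k' ⬝ᵥ w.2))) := fun w => by
    rw [Rig3_ob, Rig3_ob]
    linear_combination ((B w.1.1 k ⬝ᵥ w.2) * (B w.1.1 k' ⬝ᵥ w.2)) * Real.mul_self_sqrt hu
  simp only [e]
  rw [integral_add (Rig3_iadd (i1.const_mul _) (i2.const_mul _))
      (Rig3_iadd (i3.const_mul _) (i4.const_mul _)),
    integral_add (i1.const_mul _) (i2.const_mul _), integral_add (i3.const_mul _) (i4.const_mul _),
    integral_const_mul, integral_const_mul, integral_const_mul, integral_const_mul,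
    Rig3_XG hB hk' hx, Rig3_XG hB hk hx', Rig3_GG hB hk hk', integral_prod _ i1]
  simp

end aux

/-- a function of `φ` with the same integrals as `Z ∈ L²` on `φ`-measurable sets is in `L²` -/
theorem Rig3_memLp {Ω S : Type} [MeasurableSpace Ω] [MeasurableSpace S] {T : Measure Ω}
    [IsProbabilityMeasure T] {φ : Ω → S} (hφ : Measurable φ) {g : S → ℝ} (hg : Measurable g)
    {Z : Ω → ℝ} (hZ : MemLp Z 2 T) (hi : Integrable (fun w => g (φ w)) T)
    (he : ∀ t, MeasurableSet t → ∫ w in φ ⁻¹' t, g (φ w) ∂T = ∫ w in φ ⁻¹' t, Z w ∂T) :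
    MemLp g 2 (T.map φ) := by
  rw [memLp_map_measure_iff hg.aestronglyMeasurable hφ.aemeasurable]
  have h1 : (fun w => g (φ w)) =ᵐ[T] T[Z | MeasurableSpace.comap φ inferInstance] := by
    refine ae_eq_condExp_of_forall_setIntegral_eq hφ.comap_le (hZ.integrable one_le_two)
      (fun s _ _ => hi.integrableOn) ?_
      (hg.comp (comap_measurable φ)).stronglyMeasurable.aestronglyMeasurable
    rintro _ ⟨t, ht, rfl⟩ -
    exact he t ht
  exact (memLp_congr_ae h1).2 (hZ.condExp one_le_two)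

/-- `b ∈ L²`: for a.e. `e`, `bayes_ce` with `h = 1` gives `m_a e = b e a + u Σ_c A a c m_c e`,
`m_a e = ∫ x (0,a) dκ' e ∈ L²` (Jensen); `no_factor_eig` ⇒ `b = 0`.  `tri_ce` (edge) with
`h = y (0, c)`: `u δ_{ac} = Σ_{c'} A a c' (u² + u π ρ) δ_{c'c}` (`integral_tri`, `integral_dot_mul`,
`Be_gram`, `TreeOK`, `Lim.cov`, `integral_edgeLaw`). -/
theorem homothety {D p : ℕ} (hD : 2 ≤ D) {s E : ℝ} {β : Measure J} [IsProbabilityMeasure β]
    (hβ : Adm s β) (hE : E ^ 2 < 4 * D) (hT : TreeOK D s β E) {μ : Measure (SX D p)}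
    [IsProbabilityMeasure μ] (hμ : Lim s E β μ)
    {κ : Kernel (StarEnv D) (SV D × Fin p → ℝ)} [IsMarkovKernel κ]
    {κ' : Kernel (Env D × Env D) (Fin 2 × Fin p → ℝ)} [IsMarkovKernel κ'] (hd : Dis β μ κ κ')
    {u : ℝ} (hu : 0 < u) {A : Matrix (Fin p) (Fin p) ℝ} {b : Env D × Env D → Fin p → ℝ}
    (hb : Measurable b)
    (h1 : ∀ᵐ e ∂(env2 D β), ∀ y a,
        Mf (PE p (m0 s E) e) (κ' e) u y (0, a) = b e a + ∑ c, A a c * y (0, c) ∧
        Mf (PE p (m0 s E) e) (κ' e) u y (1, a) = b e.swap a + ∑ c, A a c * y (1, c))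
    (h2 : ∀ i j, ∀ᵐ σ ∂(starLaw D β), b (eEnv i σ) = b (eEnv j σ))
    (h3 : ∀ᵐ σ ∂(starLaw D β), ∀ a,
        ∑ i, b (eEnv i σ).swap a = (E - s * (σ.1 : ℝ)) * b (eEnv 0 σ) a) :
    ∀ᵐ e ∂(env2 D β), ∀ y,
      Mf (PE p (m0 s E) e) (κ' e) u y = (u + Real.pi * rho D s β E)⁻¹ • y := by
  have hc : Cav D s β E (m0 s E) := cav_m0 (by omega) hT
  have hG : GCh (env2 D β) κ' (PE p (m0 s E)) (BE p (m0 s E)) := gch_edge hc
  have hB := hG.mB
  have hπρ : 0 < Real.pi * rho D s β E := mul_pos Real.pi_pos hT.2.2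
  -- second moments of the signal
  have hx : ∀ k, MemLp (fun q : EX D p => q.2 k) 2 (env2 D β ⊗ₘ κ') := fun k => by
    rw [← hd.edge, memLp_two_iff_integrable_sq (Measurable.aestronglyMeasurable (by fun_prop)),
      integrable_edgeLaw (Measurable.stronglyMeasurable (by fun_prop))]
    exact fun j => (hμ.sq.eval (eI j k)).integrable_sq
  have hxx : ∀ a c, ∫ q : EX D p, q.2 (0, a) * q.2 (0, c) ∂(env2 D β ⊗ₘ κ') =
      if a = c then 1 else 0 := fun a c => by
    rw [← hd.edge, integral_edgeLaw (Measurable.stronglyMeasurable (by fun_prop))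
      fun j => (hμ.sq.eval (eI j (0, a))).integrable_mul (hμ.sq.eval (eI j (0, c)))]
    have : ∀ j : Fin (D + 1), ∫ q, (edgeJ j q).2 (0, a) * (edgeJ j q).2 (0, c) ∂μ =
        if a = c then 1 else 0 := fun j => hμ.cov a c
    simp only [this, avg, Finset.sum_const, Finset.card_univ, nsmul_eq_mul]
    exact mul_div_cancel_left₀ _ (by simp; positivity)
  -- second moments of the noise
  have hfst : MeasurePreserving (Prod.fst : EX D p → _) (env2 D β ⊗ₘ κ') (env2 D β) :=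
    ⟨measurable_fst, Measure.fst_compProd _ _⟩
  have hgram : ∀ a c, (fun e => (BE p (m0 s E) e * (BE p (m0 s E) e)ᵀ) (0, a) (0, c)) =ᵐ[env2 D β]
      fun e => (if a = c then 1 else 0) * (gE (m0 s E e.1) (m0 s E e.2) 0 0).im := fun a c => by
    filter_upwards [hc.pos_edge] with e he
    rw [BE, ten_transpose, ten_mul, Be_gram he.1 he.2, ten_apply]
    split_ifs <;> simp [imM]
  have hgi : ∀ a c, Integrable (fun e => (BE p (m0 s E) e * (BE p (m0 s E) e)ᵀ) (0, a) (0, c))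
      (env2 D β) := fun a c => (hT.2.1.const_mul _).congr (hgram a c).symm
  have hk : ∀ a, Integrable (fun q : EX D p => (BE p (m0 s E) q.1 * (BE p (m0 s E) q.1)ᵀ)
      (0, a) (0, a)) (env2 D β ⊗ₘ κ') := fun a => hfst.integrable_comp_of_integrable (hgi a a)
  have hkk : ∀ a c, ∫ q : EX D p, (BE p (m0 s E) q.1 * (BE p (m0 s E) q.1)ᵀ) (0, a) (0, c)
      ∂(env2 D β ⊗ₘ κ') = (if a = c then 1 else 0) * (Real.pi * rho D s β E) := fun a c => by
    rw [← integral_map (f := fun e => (BE p (m0 s E) e * (BE p (m0 s E) e)ᵀ) (0, a) (0, c))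
      measurable_fst.aemeasurable (by rw [hfst.map_eq]; exact (hgi a c).aestronglyMeasurable),
      hfst.map_eq, integral_congr_ae (hgram a c), integral_const_mul, rho,
      mul_div_cancel₀ _ Real.pi_ne_zero]
  -- the channel
  obtain ⟨T, hTe⟩ : ∃ T, T = tri (env2 D β ⊗ₘ κ') (BE p (m0 s E)) u := ⟨_, rfl⟩
  have hTp : IsProbabilityMeasure T := hTe ▸ tri_prob _ hB u
  have hφ : MeasurePreserving (fun w : EX D p × (Fin 2 × Fin p → ℝ) => w.1.1) T (env2 D β) :=
    hfst.comp ⟨measurable_fst, hTe ▸ tri_fst _ hB u⟩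
  have hX : ∀ k, MemLp (fun w => w.1.2 k) 2 T := fun k => hTe ▸ Rig3_X2 hB (hx k)
  have hY : ∀ c, MemLp (fun w => w.2 (0, c)) 2 T := fun c => hTe ▸ Rig3_Y2 hB (hx _) (hk c)
  have hM : ∀ᵐ w ∂T, ∀ a, Mf (PE p (m0 s E) w.1.1) (κ' w.1.1) u w.2 (0, a) =
      b w.1.1 a + ∑ c, A a c * w.2 (0, c) := by
    filter_upwards [hφ.quasiMeasurePreserving.ae h1] with w hw a
    exact (hw w.2 a).1
  have hce : ∀ (a : Fin p) (h : EX D p → ℝ), Measurable h →
      MemLp (fun w : EX D p × (Fin 2 × Fin p → ℝ) => h (w.1.1, w.2)) 2 T →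
      Integrable (fun w => (b w.1.1 a + ∑ c, A a c * w.2 (0, c)) * h (w.1.1, w.2)) T ∧
      ∫ w, (b w.1.1 a + ∑ c, A a c * w.2 (0, c)) * h (w.1.1, w.2) ∂T =
        ∫ w, w.1.2 (0, a) * h (w.1.1, w.2) ∂T := fun a h hh h2 => by
    have := tri_ce hG hu.le (0, a) ((hx _).integrable one_le_two) hh
      (hTe ▸ (hX (0, a)).integrable_mul h2)
    rw [← hTe] at this
    have e : (fun w => Mf (PE p (m0 s E) w.1.1) (κ' w.1.1) u w.2 (0, a) * h (w.1.1, w.2)) =ᵐ[T]
        fun w => (b w.1.1 a + ∑ c, A a c * w.2 (0, c)) * h (w.1.1, w.2) := by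
      filter_upwards [hM] with w hw
      rw [hw a]
    exact ⟨this.1.congr e, (integral_congr_ae e).symm.trans this.2⟩
  have hAY : ∀ a, MemLp (fun w => ∑ c, A a c * w.2 (0, c)) 2 T := fun a =>
    memLp_finsetSum _ fun c _ => (hY c).const_mul _
  -- `b = 0`
  have hb2 : ∀ a, MemLp (fun e => b e a) 2 (env2 D β) := fun a => by
    have i1 := (hAY a).integrable one_le_two
    have i0 : Integrable (fun w => b w.1.1 a + ∑ c, A a c * w.2 (0, c)) T := by
      simpa only [mul_one] using (hce a (fun _ => 1) measurable_const (memLp_const 1)).1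
    have i2 : Integrable (fun w => b w.1.1 a) T := by
      simpa only [Pi.sub_def, add_sub_cancel_right] using i0.sub i1
    rw [← hφ.map_eq]
    refine Rig3_memLp hφ.measurable ((measurable_pi_apply a).comp hb) ((hX (0, a)).sub (hAY a)) i2
      fun t ht => ?_
    have ht' := hφ.measurable ht
    have h5 := (hce a (fun q => t.indicator (fun _ => (1 : ℝ)) q.1)
      ((measurable_const.indicator ht).comp measurable_fst)
      ((memLp_const (1 : ℝ)).indicator ht')).2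
    have e : ∀ f : EX D p × (Fin 2 × Fin p → ℝ) → ℝ,
        ∫ w, f w * t.indicator (fun _ => (1 : ℝ)) w.1.1 ∂T =
          ∫ w in (fun w : EX D p × (Fin 2 × Fin p → ℝ) => w.1.1) ⁻¹' t, f w ∂T := fun f => by
      rw [← integral_indicator ht']
      refine integral_congr_ae (Eventually.of_forall fun w => ?_)
      by_cases hw : w.1.1 ∈ t <;> simp [hw]
    rw [e, e, integral_add i2.integrableOn i1.integrableOn] at h5
    simp only [Pi.sub_apply]
    rw [integral_sub ((hX (0, a)).integrable one_le_two).integrableOn i1.integrableOn, ← h5]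
    ring
  have hb0 : ∀ᵐ e ∂(env2 D β), ∀ a, b e a = 0 := ae_all_iff.2 fun a =>
    no_factor_eig hD hβ hT hE ((measurable_pi_apply a).comp hb) (hb2 a)
      (fun i j => (h2 i j).mono fun σ hσ => congrFun hσ a) (h3.mono fun σ hσ => hσ a)
  have hb0' : ∀ᵐ e ∂(env2 D β), ∀ a, b e.swap a = 0 :=
    Measure.measurePreserving_swap.quasiMeasurePreserving.ae hb0
  -- the matrix
  have hA : ∀ a c, A a c = if a = c then (u + Real.pi * rho D s β E)⁻¹ else 0 := fun a c => by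
    have h5 := (hce a (fun q => q.2 (0, c)) (by fun_prop) (hY c)).2
    have e : (fun w : EX D p × (Fin 2 × Fin p → ℝ) =>
        (b w.1.1 a + ∑ c', A a c' * w.2 (0, c')) * w.2 (0, c)) =ᵐ[T]
        fun w => ∑ c', A a c' * (w.2 (0, c') * w.2 (0, c)) := by
      filter_upwards [hφ.quasiMeasurePreserving.ae hb0] with w hw
      rw [hw a, zero_add, Finset.sum_mul]
      simp only [mul_assoc]
    have hYY : ∀ c', ∫ w, w.2 (0, c') * w.2 (0, c) ∂T =
        (if c' = c then 1 else 0) * (u * (u + Real.pi * rho D s β E)) := fun c' => by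
      rw [hTe, Rig3_YY hB hu.le (hx _) (hx _) (hk c') (hk c), hxx, hkk]
      ring
    have hXY : ∫ w, w.1.2 (0, a) * w.2 (0, c) ∂T = u * if a = c then 1 else 0 := by
      rw [hTe, Rig3_XY hB (hx _) (hx _) (hk c), hxx]
    rw [integral_congr_ae e, hXY, integral_finsetSum _ fun c' _ =>
      (Rig3_imul (hY c') (hY c)).const_mul _] at h5
    simp only [integral_const_mul, hYY, ite_mul, one_mul, zero_mul, mul_ite, mul_zero, mul_one,
      Finset.sum_ite_eq', Finset.mem_univ, if_true] at h5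
    have h6 : 0 < u + Real.pi * rho D s β E := by positivity
    split_ifs at h5 ⊢ with hac
    · field_simp
      apply mul_left_cancel₀ hu.ne'
      linear_combination h5
    · exact (mul_eq_zero.1 h5).resolve_right (by positivity)
  filter_upwards [h1, hb0, hb0'] with e he he0 he0' y
  funext k
  obtain ⟨i, a⟩ := k
  have hs : ∀ i : Fin 2, ∑ c, A a c * y (i, c) = (u + Real.pi * rho D s β E)⁻¹ * y (i, a) := fun i => by
    simp [hA]
  have h0 := he y a
  rw [he0 a, he0' a, zero_add, zero_add, hs, hs] at h0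
  fin_cases i
  · exact h0.1
  · exact h0.2

end Crest.Agent.R166.B
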