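import Crest.Agent.R166.B.Bayes

/-! # Linear posterior mean forces a Gaussian prior -/

set_option autoImplicit false
set_option linter.unusedVariables false
set_option linter.unusedSectionVars false

open MeasureTheory ProbabilityTheory Filter Topology Matrix
open scoped ENNReal BoundedContinuousFunction Kronecker

namespace Crest.Agent.R166.B

private theorem Rig4_int {K : Type} [Fintype K] {κ : Measure (K → ℝ)}
    (hx : ∀ k, Integrable (fun x => x k) κ) (θ : K → ℝ) : Integrable (fun x => θ ⬝ᵥ x) κ :=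
  integrable_finsetSum _ fun k _ => (hx k).const_mul (θ k)

private theorem Rig4_key {K N : Type} [Fintype K] [Fintype N] {P : Matrix K K ℝ} {B : Matrix K N ℝ}
    {κ : Measure (K → ℝ)} [IsProbabilityMeasure κ] (hc : Ch P B κ)
    (hx : ∀ k, Integrable (fun x => x k) κ) {u c : ℝ} (hu : 0 < u) (h0 : 0 < c)
    (h : ∀ y, Mf P κ u y = (u + c)⁻¹ • y) (θ : K → ℝ) (φ s : ℝ) :
    ∫ x, (θ ⬝ᵥ x) * Real.cos (φ + s * (θ ⬝ᵥ x)) ∂κ =
      -(s * ((θ ᵥ* B) ⬝ᵥ (θ ᵥ* B)) / c) * ∫ x, Real.sin (φ + s * (θ ⬝ᵥ x)) ∂κ := by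
  set b' := θ ᵥ* B with hb'
  set b := (s / u * √u) • b' with hb
  let H : (K → ℝ) → ℝ := fun y => Real.cos (φ + s / u * (θ ⬝ᵥ y))
  have hH : Measurable H := by
    refine Continuous.measurable ?_
    simp only [H, dotProduct]
    fun_prop
  have hob : Measurable fun w : (K → ℝ) × (N → ℝ) => ob B u w.1 w.2 := by
    refine Continuous.measurable ?_
    simp only [ob]
    fun_prop
  have hdot : ∀ x ξ, θ ⬝ᵥ ob B u x ξ = u * (θ ⬝ᵥ x) + √u * (b' ⬝ᵥ ξ) := fun x ξ => by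
    rw [ob, dotProduct_add, dotProduct_smul, dotProduct_smul, dotProduct_mulVec, smul_eq_mul,
      smul_eq_mul]
  have hHo : ∀ x ξ, H (ob B u x ξ) = Real.cos (φ + s * (θ ⬝ᵥ x) + b ⬝ᵥ ξ) := fun x ξ => by
    simp only [H]
    rw [hdot, hb, smul_dotProduct, smul_eq_mul]
    congr 1
    field_simp
    ring
  have hbd : ∀ {f : (K → ℝ) × (N → ℝ) → ℝ}, Integrable f (κ.prod (gpi N)) →
      Integrable (fun w => f w * H (ob B u w.1 w.2)) (κ.prod (gpi N)) := fun hf =>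
    hf.mul_bdd (c := 1) (hH.comp hob).aestronglyMeasurable
      (Eventually.of_forall fun w => Real.abs_cos_le_one _)
  have hk : ∀ k, Integrable (fun w => w.1 k * H (ob B u w.1 w.2)) (κ.prod (gpi N)) := fun k =>
    hbd ((hx k).comp_fst _)
  have h1 : Integrable (fun w => (θ ⬝ᵥ w.1) * H (ob B u w.1 w.2)) (κ.prod (gpi N)) :=
    hbd ((Rig4_int hx θ).comp_fst _)
  have h2 : Integrable (fun w => (b' ⬝ᵥ w.2) * H (ob B u w.1 w.2)) (κ.prod (gpi N)) :=
    hbd ((integral_dot b').1.comp_snd _)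
  have e1 : ∫ w, (θ ⬝ᵥ w.1) * H (ob B u w.1 w.2) ∂(κ.prod (gpi N)) =
      (∫ x, (θ ⬝ᵥ x) * Real.cos (φ + s * (θ ⬝ᵥ x)) ∂κ) * Real.exp (-(b ⬝ᵥ b) / 2) := by
    rw [integral_prod _ h1, ← integral_mul_const]
    refine integral_congr_ae (Eventually.of_forall fun x => ?_)
    simp only [hHo]
    rw [integral_const_mul, integral_cos, mul_assoc]
  have e2 : ∫ w, (b' ⬝ᵥ w.2) * H (ob B u w.1 w.2) ∂(κ.prod (gpi N)) =
      -(b' ⬝ᵥ b) * (∫ x, Real.sin (φ + s * (θ ⬝ᵥ x)) ∂κ) * Real.exp (-(b ⬝ᵥ b) / 2) := by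
    rw [integral_prod _ h2, ← integral_const_mul, ← integral_mul_const]
    refine integral_congr_ae (Eventually.of_forall fun x => ?_)
    simp only [hHo]
    rw [(integral_dot_cos _ b b').2]
  have e3 : ∫ w, (θ ⬝ᵥ w.1) * H (ob B u w.1 w.2) ∂(κ.prod (gpi N)) =
      (u + c)⁻¹ * (u * ∫ w, (θ ⬝ᵥ w.1) * H (ob B u w.1 w.2) ∂(κ.prod (gpi N)) +
        √u * ∫ w, (b' ⬝ᵥ w.2) * H (ob B u w.1 w.2) ∂(κ.prod (gpi N))) := by
    have hce := fun k => bayes_ce hc hu.le k (hx k) hH (hk k)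
    calc ∫ w, (θ ⬝ᵥ w.1) * H (ob B u w.1 w.2) ∂(κ.prod (gpi N))
        = ∑ k, θ k * ∫ w, w.1 k * H (ob B u w.1 w.2) ∂(κ.prod (gpi N)) := by
          simp only [← integral_const_mul]
          rw [← integral_finsetSum _ fun k _ => (hk k).const_mul (θ k)]
          simp only [dotProduct, Finset.sum_mul, mul_assoc]
      _ = ∑ k, θ k * ∫ w, Mf P κ u (ob B u w.1 w.2) k * H (ob B u w.1 w.2) ∂(κ.prod (gpi N)) :=
          Finset.sum_congr rfl fun k _ => by rw [(hce k).2.1]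
      _ = ∫ w, (θ ⬝ᵥ Mf P κ u (ob B u w.1 w.2)) * H (ob B u w.1 w.2) ∂(κ.prod (gpi N)) := by
          simp only [← integral_const_mul]
          rw [← integral_finsetSum _ fun k _ => (hce k).1.const_mul (θ k)]
          simp only [dotProduct, Finset.sum_mul, mul_assoc]
      _ = _ := by
          rw [← integral_const_mul, ← integral_const_mul,
            ← integral_add (h1.const_mul _) (h2.const_mul _), ← integral_const_mul]
          refine integral_congr_ae (Eventually.of_forall fun w => ?_)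
          simp only [h]
          rw [dotProduct_smul, hdot, smul_eq_mul]
          ring
  rw [e1, e2] at e3
  have e4 : √u * (b' ⬝ᵥ b) = s * (b' ⬝ᵥ b') := by
    rw [hb, dotProduct_smul, smul_eq_mul]
    have := Real.mul_self_sqrt hu.le
    calc √u * (s / u * √u * (b' ⬝ᵥ b')) = s / u * (√u * √u) * (b' ⬝ᵥ b') := by ring
      _ = _ := by rw [this]; field_simp
  have hE := Real.exp_pos (-(b ⬝ᵥ b) / 2)
  set E := Real.exp (-(b ⬝ᵥ b) / 2)
  set A := ∫ x, (θ ⬝ᵥ x) * Real.cos (φ + s * (θ ⬝ᵥ x)) ∂κ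
  set S := ∫ x, Real.sin (φ + s * (θ ⬝ᵥ x)) ∂κ
  have huc : u + c ≠ 0 := by positivity
  rw [eq_inv_mul_iff_mul_eq₀ huc] at e3
  have e5 : (c * A + s * (b' ⬝ᵥ b') * S) * E = 0 := by
    rw [← e4]
    linear_combination e3
  have e6 := (mul_eq_zero.1 e5).resolve_right hE.ne'
  field_simp
  linear_combination e6

private theorem Rig4_deriv {K : Type} [Fintype K] {κ : Measure (K → ℝ)} [IsProbabilityMeasure κ]
    (hx : ∀ k, Integrable (fun x => x k) κ) (θ : K → ℝ) (φ s : ℝ) :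
    HasDerivAt (fun s => ∫ x, Real.sin (φ + s * (θ ⬝ᵥ x)) ∂κ)
      (∫ x, (θ ⬝ᵥ x) * Real.cos (φ + s * (θ ⬝ᵥ x)) ∂κ) s := by
  have hd : Continuous fun x : K → ℝ => θ ⬝ᵥ x := by
    simp only [dotProduct]
    fun_prop
  refine (hasDerivAt_integral_of_dominated_loc_of_deriv_le (s := Set.univ)
    (F := fun s x => Real.sin (φ + s * (θ ⬝ᵥ x)))
    (F' := fun s x => (θ ⬝ᵥ x) * Real.cos (φ + s * (θ ⬝ᵥ x))) (bound := fun x => |θ ⬝ᵥ x|)
    univ_mem (Eventually.of_forall fun s => Continuous.aestronglyMeasurable (by fun_prop)) ?_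
    (Continuous.aestronglyMeasurable (by fun_prop)) (Eventually.of_forall fun x s _ => ?_)
    (Rig4_int hx θ).abs (Eventually.of_forall fun x s _ => ?_)).2
  · exact Integrable.of_bound (Continuous.aestronglyMeasurable (by fun_prop)) 1
      (Eventually.of_forall fun x => Real.abs_sin_le_one _)
  · rw [Real.norm_eq_abs, abs_mul]
    exact mul_le_of_le_one_right (abs_nonneg _) (Real.abs_cos_le_one _)
  · have := (((hasDerivAt_id s).mul_const (θ ⬝ᵥ x)).const_add φ).sin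
    simpa [mul_comm] using this

/-- Fix `θ, φ`; `σ² = |Bᵀ θ|²`, `a = (u + c)⁻¹`.  `bayes_ce` with `h y = cos (φ + (s/u) θ ⬝ y)`,
summed against `θ`, `integral_cos`, `integral_dot_cos`:
`∫ (θ ⬝ x) cos (φ + s θ ⬝ x) dκ = -(s σ² / c) ∫ sin (φ + s θ ⬝ x) dκ`.  So
`S s = ∫ sin (φ + s θ ⬝ x) dκ` solves `S' = -(s σ² / c) S`
(`hasDerivAt_integral_of_dominated_loc_of_deriv_le`), `S 1 = sin φ exp (-σ² / (2c))`; `ext_of_cos`. -/
theorem gauss_of_linear {K N : Type} [Fintype K] [Fintype N] {P : Matrix K K ℝ} {B : Matrix K N ℝ}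
    {κ : Measure (K → ℝ)} [IsProbabilityMeasure κ] (hc : Ch P B κ)
    (hx : ∀ k, Integrable (fun x => x k) κ) {u c : ℝ} (hu : 0 < u) (h0 : 0 < c)
    (h : ∀ y, Mf P κ u y = (u + c)⁻¹ • y) :
    κ = (gpi N).map fun g => (√c)⁻¹ • B *ᵥ g := by
  have hm : Continuous fun g : N → ℝ => (√c)⁻¹ • B *ᵥ g := by fun_prop
  have key : ∀ (θ : K → ℝ) (φ : ℝ), ∫ x, Real.sin (φ + θ ⬝ᵥ x) ∂κ =
      Real.sin φ * Real.exp (-((θ ᵥ* B) ⬝ᵥ (θ ᵥ* B) / c) / 2) := fun θ φ => by
    set v := (θ ᵥ* B) ⬝ᵥ (θ ᵥ* B) / c with hv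
    have hT : ∀ s, HasDerivAt (fun s => (∫ x, Real.sin (φ + s * (θ ⬝ᵥ x)) ∂κ) *
        Real.exp (s ^ 2 * (v / 2))) 0 s := fun s => by
      have h1 := Rig4_deriv hx θ φ s
      rw [Rig4_key hc hx hu h0 h] at h1
      have h2 := h1.mul (((hasDerivAt_pow 2 s).mul_const (v / 2)).exp)
      refine h2.congr_deriv ?_
      rw [hv]
      push_cast
      ring
    have h3 := is_const_of_deriv_eq_zero (fun s => (hT s).differentiableAt)
      (fun s => (hT s).deriv) 1 0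
    simp only [one_mul, zero_mul, add_zero, one_pow, integral_const, probReal_univ, smul_eq_mul,
      ne_eq, OfNat.ofNat_ne_zero, not_false_eq_true, zero_pow, Real.exp_zero, mul_one] at h3
    rw [← h3, mul_assoc, ← Real.exp_add]
    simp [neg_div]
  refine ext_of_cos fun θ φ => ?_
  have hd : Continuous fun x : K → ℝ => Real.cos (φ + θ ⬝ᵥ x) := by
    simp only [dotProduct]
    fun_prop
  rw [integral_map hm.measurable.aemeasurable hd.aestronglyMeasurable]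
  have e1 : ∀ g : N → ℝ, θ ⬝ᵥ (√c)⁻¹ • B *ᵥ g = ((√c)⁻¹ • (θ ᵥ* B)) ⬝ᵥ g := fun g => by
    rw [dotProduct_smul, smul_dotProduct, dotProduct_mulVec]
  simp only [e1]
  rw [integral_cos]
  have h1 := key θ (φ + Real.pi / 2)
  simp only [add_right_comm φ (Real.pi / 2), Real.sin_add_pi_div_two] at h1
  rw [h1, dotProduct_smul, smul_dotProduct, smul_eq_mul, smul_eq_mul, ← mul_assoc, ← mul_inv,
    Real.mul_self_sqrt h0.le, div_eq_inv_mul _ c]

end Crest.Agent.R166.B
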