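import Crest.Agent.R166.B.Lim1
import Crest.Agent.R166.B.Lim2
import Crest.Agent.R166.B.Rig2
import Crest.Agent.R166.B.Rig3
import Crest.Agent.R166.B.Rig4

/-! # Admissible limits are Gaussian waves -/

set_option autoImplicit false
set_option linter.unusedVariables false
set_option linter.unusedSectionVars false

open MeasureTheory ProbabilityTheory Filter Topology Matrix
open scoped ENNReal BoundedContinuousFunction Kronecker

namespace Crest.Agent.R166.B

/-- `gauss_of_linear` for a.e. `e`, `Measure.integral_compProd`, `ten_mulVec` -/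
theorem wave_of_homothety {D p : ℕ} (hD : 1 ≤ D) {s E : ℝ} {β : Measure J} [IsProbabilityMeasure β]
    (hT : TreeOK D s β E) {μ : Measure (SX D p)} [IsProbabilityMeasure μ] (hμ : Lim s E β μ)
    {κ : Kernel (StarEnv D) (SV D × Fin p → ℝ)} [IsMarkovKernel κ]
    {κ' : Kernel (Env D × Env D) (Fin 2 × Fin p → ℝ)} [IsMarkovKernel κ'] (hd : Dis β μ κ κ')
    {u : ℝ} (hu : 0 < u)
    (h : ∀ᵐ e ∂(env2 D β), ∀ y,
      Mf (PE p (m0 s E) e) (κ' e) u y = (u + Real.pi * rho D s β E)⁻¹ • y) (f : EX D p →ᵇ ℝ) :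
    ∫ q, f q ∂(edgeLaw μ) = waveInt D s β E p f := by
  have hi : ∀ k, Integrable (fun q : EX D p => q.2 k) (env2 D β ⊗ₘ κ') := fun k => by
    rw [← hd.edge, integrable_edgeLaw (f := fun q : EX D p => q.2 k) (Continuous.stronglyMeasurable (by fun_prop))]
    exact fun j => ((hμ.sq.integrable one_le_two).eval (eI j k))
  rw [hd.edge, Measure.integral_compProd (f.integrable _)]
  refine integral_congr_ae ?_
  filter_upwards [h, (gch_edge (κ' := κ') (cav_m0 hD hT)).ch,
    ae_all_iff.2 fun k => (hi k).ae_of_compProd] with e h1 h2 h3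
  have hm : Continuous fun g : Fin 2 × Fin p → ℝ =>
      (√(Real.pi * rho D s β E))⁻¹ • BE p (m0 s E) e *ᵥ g := by fun_prop
  rw [gauss_of_linear h2 h3 hu (mul_pos Real.pi_pos hT.2.2) h1, integral_map hm.aemeasurable
    (f := fun b => f (e, b)) (f.continuous.comp (Continuous.prodMk_right e)).aestronglyMeasurable]
  refine integral_congr_ae (ae_of_all _ fun g => congrArg (fun y => f (e, y)) (funext fun q => ?_))
  rw [Pi.smul_apply, BE, ten_mulVec, smul_eq_mul, div_eq_inv_mul]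
  rfl

theorem wave_of_lim {D p : ℕ} (hD : 2 ≤ D) {s E : ℝ} {β : Measure J} (hβ : Adm s β)
    (hE : E ^ 2 < 4 * D) (hT : TreeOK D s β E) {μ : Measure (SX D p)} [IsProbabilityMeasure μ]
    (hμ : Lim s E β μ) (f : EX D p →ᵇ ℝ) : ∫ q, f q ∂(edgeLaw μ) = waveInt D s β E p f := by
  have := hβ.prob
  have hD1 : 1 ≤ D := by omega
  obtain ⟨κ, κ', h1, h2, hd⟩ := exists_dis hμ.typ.fst hμ.typ.flip
  obtain ⟨u, hu, h⟩ := lim_weak hD1 hβ hT hμ hd
  have hu0 : 0 < u := by linarith [hu.1]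
  obtain ⟨A, b, hb, k1, k2, k3⟩ :=
    affine_of_ident hD hT (hd.edge ▸ hd.flip) hu0 (ident_of_lim hD1 hT hμ hd hu0 h)
  exact wave_of_homothety hD1 hT hμ hd hu0 (homothety hD hβ hE hT hμ hd hu0 hb k1 k2 k3) f

end Crest.Agent.R166.B
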