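import Crest.Agent.R166.B.Meas
import Crest.Agent.R166.B.Basic

/-! # Joint law of signal and observation -/

set_option autoImplicit false
set_option linter.unusedVariables false
set_option linter.unusedSectionVars false

open MeasureTheory ProbabilityTheory Filter Topology Matrix
open scoped ENNReal BoundedContinuousFunction Kronecker

namespace Crest.Agent.R166.B

section
variable {K N S : Type} [Fintype K] [Fintype N] [MeasurableSpace S]
  {l : Measure S} {κ : Kernel S (K → ℝ)} {P : S → Matrix K K ℝ} {B : S → Matrix K N ℝ} {u : ℝ}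

private theorem GTri_meas (hB : MeasM B) (u : ℝ) :
    Measurable fun w : (S × (K → ℝ)) × (N → ℝ) => (w.1, ob (B w.1.1) u w.1.2 w.2) :=
  measurable_fst.prodMk (measurable_ob hB u)

private theorem GTri_lint (μ : Measure (S × (K → ℝ))) (hB : MeasM B) (u : ℝ)
    {f : (S × (K → ℝ)) × (K → ℝ) → ℝ≥0∞} (hf : Measurable f) :
    ∫⁻ w, f w ∂(tri μ B u) = ∫⁻ q, ∫⁻ ξ, f (q, ob (B q.1) u q.2 ξ) ∂(gpi N) ∂μ := by
  unfold tri
  rw [lintegral_map hf (GTri_meas hB u), lintegral_prod _ (hf.fun_comp (GTri_meas hB u)).aemeasurable]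

theorem tri_prob (μ : Measure (S × (K → ℝ))) [IsProbabilityMeasure μ] (hB : MeasM B) (u : ℝ) :
    IsProbabilityMeasure (tri μ B u) := by
  exact Measure.isProbabilityMeasure_map (GTri_meas hB u).aemeasurable

theorem tri_fst (μ : Measure (S × (K → ℝ))) [SFinite μ] (hB : MeasM B) (u : ℝ) :
    (tri μ B u).map Prod.fst = μ := by
  unfold tri
  rw [Measure.map_map measurable_fst (GTri_meas hB u)]
  change (μ.prod (gpi N)).map Prod.fst = μ
  rw [Measure.map_fst_prod, measure_univ, one_smul]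

theorem noisy_eq (μ : Measure (S × (K → ℝ))) [SFinite μ] (hB : MeasM B) :
    noisy μ B = (tri μ B 1).map fun w => (w.1.1, w.2) := by
  unfold tri noisy
  rw [Measure.map_map (by fun_prop) (GTri_meas hB 1)]
  congr 1
  funext w
  simp [ob]

theorem noisy_prob (μ : Measure (S × (K → ℝ))) [IsProbabilityMeasure μ] (hB : MeasM B) :
    IsProbabilityMeasure (noisy μ B) := by
  rw [noisy_eq μ hB]
  have := tri_prob μ hB 1
  exact Measure.isProbabilityMeasure_map (Measurable.aemeasurable (by fun_prop))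

theorem noisy_fst (μ : Measure (S × (K → ℝ))) [SFinite μ] (hB : MeasM B) :
    (noisy μ B).map Prod.fst = μ.map Prod.fst := by
  rw [noisy_eq μ hB, Measure.map_map measurable_fst (by fun_prop)]
  conv_rhs => rw [← tri_fst μ hB 1, Measure.map_map measurable_fst measurable_fst]
  rfl

theorem tri_smul_sum {I : Type} [Fintype I] (c : ℝ≥0∞) (μ : I → Measure (S × (K → ℝ)))
    [∀ i, IsFiniteMeasure (μ i)] (hB : MeasM B) (u : ℝ) :
    tri (c • ∑ i, μ i) B u = c • ∑ i, tri (μ i) B u := by
  refine Measure.ext_of_lintegral _ fun f hf => ?_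
  rw [GTri_lint _ hB u hf]
  simp only [lintegral_smul_measure, lintegral_finsetSum_measure, GTri_lint _ hB u hf]

/-- restriction to sub-coordinates: only the Gram matrix matters (`gpi_map_cov` fibrewise) -/
theorem tri_map {K' N' S' : Type} [Fintype K'] [Fintype N'] [MeasurableSpace S']
    (μ : Measure (S × (K → ℝ))) [IsFiniteMeasure μ] {B' : S' → Matrix K' N' ℝ} (hB : MeasM B)
    (hB' : MeasM B') {φ : S → S'} (hφ : Measurable φ) (ι : K' → K)
    (h : ∀ᵐ q ∂μ, (B q.1 * (B q.1)ᵀ).submatrix ι ι = B' (φ q.1) * (B' (φ q.1))ᵀ) (u : ℝ) :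
    (tri μ B u).map (fun w => ((φ w.1.1, w.1.2 ∘ ι), w.2 ∘ ι)) =
      tri (μ.map fun q => (φ q.1, q.2 ∘ ι)) B' u := by
  refine Measure.ext_of_lintegral _ fun f hf => ?_
  have hι : Measurable fun x : K → ℝ => x ∘ ι := measurable_pi_lambda _ fun k => measurable_pi_apply _
  have h1 : Measurable fun q : S × (K → ℝ) => (φ q.1, q.2 ∘ ι) :=
    (hφ.comp measurable_fst).prodMk (hι.comp measurable_snd)
  have h2 : Measurable fun w : (S × (K → ℝ)) × (K → ℝ) => ((φ w.1.1, w.1.2 ∘ ι), w.2 ∘ ι) :=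
    (h1.comp measurable_fst).prodMk (hι.comp measurable_snd)
  rw [lintegral_map hf h2, GTri_lint _ hB u (hf.fun_comp h2), GTri_lint _ hB' u hf,
    lintegral_map (hf.fun_comp (GTri_meas hB' u)).lintegral_prod_right' h1]
  refine lintegral_congr_ae (h.mono fun q hq => ?_)
  have h3 := gpi_map_cov ((B q.1).submatrix ι id) (B' (φ q.1)) (by
    rw [← hq]; ext a b; simp [Matrix.mul_apply])
  have h4 : Measurable fun y : K' → ℝ => f ((φ q.1, q.2 ∘ ι), u • (q.2 ∘ ι) + √u • y) :=
    hf.comp (measurable_const.prodMk (by fun_prop))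
  have h5 := lintegral_map (μ := gpi N) h4 (g := fun g => (B q.1).submatrix ι id *ᵥ g)
    (continuous_const.matrix_mulVec continuous_id).measurable
  rw [h3, lintegral_map h4 (g := fun g => B' (φ q.1) *ᵥ g)
    (continuous_const.matrix_mulVec continuous_id).measurable] at h5
  exact h5.symm

variable [IsProbabilityMeasure l] [IsMarkovKernel κ]

/-- Fubini for `tri` -/
theorem integral_tri (hB : MeasM B) {F : (S × (K → ℝ)) × (K → ℝ) → ℝ} (hF : Measurable F)
    (hi : Integrable F (tri (l ⊗ₘ κ) B u)) :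
    (∀ᵐ σ ∂l, Integrable (fun w => F ((σ, w.1), ob (B σ) u w.1 w.2)) ((κ σ).prod (gpi N))) ∧
    Integrable (fun σ => ∫ w, F ((σ, w.1), ob (B σ) u w.1 w.2) ∂((κ σ).prod (gpi N))) l ∧
    ∫ w, F w ∂(tri (l ⊗ₘ κ) B u) =
      ∫ σ, ∫ w, F ((σ, w.1), ob (B σ) u w.1 w.2) ∂((κ σ).prod (gpi N)) ∂l := by
  have hm : Measurable fun p : S × ((K → ℝ) × (N → ℝ)) =>
      ((p.1, p.2.1), ob (B p.1) u p.2.1 p.2.2) :=
    (GTri_meas hB u).comp (f := fun p : S × ((K → ℝ) × (N → ℝ)) => ((p.1, p.2.1), p.2.2))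
      (by fun_prop)
  have e : tri (l ⊗ₘ κ) B u = (l ⊗ₘ (κ ×ₖ Kernel.const S (gpi N))).map
      fun p : S × ((K → ℝ) × (N → ℝ)) => ((p.1, p.2.1), ob (B p.1) u p.2.1 p.2.2) := by
    refine Measure.ext_of_lintegral _ fun f hf => ?_
    rw [GTri_lint _ hB u hf, lintegral_map hf hm, Measure.lintegral_compProd (hf.fun_comp hm),
      Measure.lintegral_compProd (hf.fun_comp (GTri_meas hB u)).lintegral_prod_right']
    refine lintegral_congr fun σ => ?_
    rw [Kernel.prod_apply, Kernel.const_apply, lintegral_prod _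
      ((hf.fun_comp hm).fun_comp measurable_prodMk_left).aemeasurable]
  rw [e] at hi ⊢
  rw [integrable_map_measure hF.aestronglyMeasurable hm.aemeasurable] at hi
  rw [integral_map hm.aemeasurable hF.aestronglyMeasurable]
  have h1 := (Measure.integrable_compProd_iff hi.aestronglyMeasurable).1 hi
  have h2 := Measure.integral_compProd hi
  simp only [Kernel.prod_apply, Kernel.const_apply, Function.comp_apply] at h1 h2
  refine ⟨h1.1, ?_, h2⟩
  refine h1.2.mono' ?_ (ae_of_all _ fun σ => norm_integral_le_integral_norm _)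
  exact (StronglyMeasurable.integral_kernel_prod_right' (κ := κ ×ₖ Kernel.const S (gpi N))
    (hF.comp hm).stronglyMeasurable).aestronglyMeasurable.congr (ae_of_all _ fun σ => by
      simp only [Kernel.prod_apply, Kernel.const_apply, Function.comp_apply])

theorem compProd_cmap {F : ℝ → ℝ} (hF : Measurable F) :
    (l ⊗ₘ κ).map (cmap F) = l ⊗ₘ κ.map fun x => F ∘ x := by
  rw [Measure.compProd_map (f := fun x : K → ℝ => F ∘ x)
    (measurable_pi_lambda _ fun k => hF.comp (measurable_pi_apply k))]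
  rfl

end

end Crest.Agent.R166.B
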