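import Crest.Agent.R166.B.AlgE
import Crest.Agent.R166.B.GTri

/-! # Disintegrations -/

set_option autoImplicit false
set_option linter.unusedVariables false
set_option linter.unusedSectionVars false

open MeasureTheory ProbabilityTheory Filter Topology Matrix
open scoped ENNReal BoundedContinuousFunction Kronecker

namespace Crest.Agent.R166.B

section
variable {D p : ℕ} {s : ℝ} {β : Measure J} [IsProbabilityMeasure β] {z : ℂ} {mf : Env D → ℂ}
  {μ : Measure (SX D p)} [IsProbabilityMeasure μ]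
  {κ : Kernel (StarEnv D) (SV D × Fin p → ℝ)} [IsMarkovKernel κ]
  {κ' : Kernel (Env D × Env D) (Fin 2 × Fin p → ℝ)} [IsMarkovKernel κ']

/-- uniqueness of disintegrations (`Kernel.ae_eq_of_compProd_eq` / `compProd_eq_iff`) gives
`κ' e.swap = (κ' e).map (· ∘ swI)` a.e.; `Pe_swap`, `Mf_reindex`. -/
theorem Mf_flip (hflip : (env2 D β ⊗ₘ κ').map flipE = env2 D β ⊗ₘ κ') (mf : Env D → ℂ) (u : ℝ) :
    ∀ᵐ e ∂(env2 D β), ∀ y, Mf (PE p mf e.swap) (κ' e.swap) u (y ∘ swI) =
      Mf (PE p mf e) (κ' e) u y ∘ swI := by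
  have hm : Measurable fun x : Fin 2 × Fin p → ℝ => x ∘ swI :=
    measurable_pi_lambda _ fun k => measurable_pi_apply _
  have := Kernel.IsMarkovKernel.map (κ'.comap Prod.swap measurable_swap) hm
  have h1 : env2 D β ⊗ₘ κ' =
      env2 D β ⊗ₘ (κ'.comap Prod.swap measurable_swap).map fun x => x ∘ swI := by
    rw [← hflip]
    ext t ht
    rw [Measure.map_apply continuous_flipE.measurable ht,
      Measure.compProd_apply (continuous_flipE.measurable ht), Measure.compProd_apply ht,
      ← lintegral_prod_swap]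
    refine lintegral_congr fun e => ?_
    rw [Kernel.map_apply' _ hm _ (measurable_prodMk_left ht), Kernel.comap_apply]
    rfl
  have hs : ∀ k : Fin 2 × Fin p, swI (swI k) = k := fun k => by simp [swI]
  filter_upwards [Kernel.ae_eq_of_compProd_eq h1] with e he y
  have h2 := Mf_reindex (⟨swI, swI, hs, hs⟩ : Fin 2 × Fin p ≃ Fin 2 × Fin p) (PE p mf e.swap)
    (κ' e.swap) u (y ∘ swI)
  have h3 : (PE p mf e.swap).submatrix swI swI = PE p mf e := by
    rw [PE, PE, Pe_swap (mf e.2) (mf e.1), ← ten_submatrix]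
    rfl
  have h4 : ∀ v : Fin 2 × Fin p → ℝ, (v ∘ swI) ∘ swI = v := fun v =>
    funext fun k => congrArg v (hs k)
  simp only [Equiv.coe_fn_mk, h3, h4] at h2
  rw [he, Kernel.map_apply _ hm, Kernel.comap_apply, h2, h4]

theorem exists_dis (hfst : μ.map Prod.fst = starLaw D β) (hflip : (edgeLaw μ).map flipE = edgeLaw μ) :
    ∃ (κ : Kernel (StarEnv D) (SV D × Fin p → ℝ)) (κ' : Kernel (Env D × Env D) (Fin 2 × Fin p → ℝ)),
      IsMarkovKernel κ ∧ IsMarkovKernel κ' ∧ Dis β μ κ κ' := by
  have h : (edgeLaw μ).fst = env2 D β := by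
    have h1 : ∀ j, (μ.map (edgeJ j)).map Prod.fst = env2 D β := fun j => by
      rw [← map_eEnv β j, ← hfst, Measure.map_map measurable_fst (continuous_edgeJ j).measurable,
        Measure.map_map (continuous_eEnv j).measurable measurable_fst]
      rfl
    rw [Measure.fst, edgeLaw, Measure.map_smul, Measure.map_finset_sum' measurable_fst.aemeasurable]
    simp only [h1, Finset.sum_const, Finset.card_univ, Fintype.card_fin]
    rw [← Nat.cast_smul_eq_nsmul ℝ≥0∞, smul_smul, ENNReal.inv_mul_cancel (by simp) (by simp),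
      one_smul]
  refine ⟨μ.condKernel, (edgeLaw μ).condKernel, inferInstance, inferInstance, ?_, ?_, hflip⟩
  · rw [← hfst]
    exact (μ.disintegrate μ.condKernel).symm
  · rw [← h]
    exact ((edgeLaw μ).disintegrate _).symm

theorem Dis.fst (hd : Dis β μ κ κ') : μ.map Prod.fst = starLaw D β ∧
    (edgeLaw μ).map Prod.fst = env2 D β := by
  refine ⟨?_, ?_⟩
  · rw [hd.star]
    exact Measure.fst_compProd _ _
  · rw [hd.edge]
    exact Measure.fst_compProd _ _

theorem Dis.cmap (hd : Dis β μ κ κ') {F : ℝ → ℝ} (hF : Measurable F) :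
    Dis β (μ.map (cmap F)) (κ.map fun x => F ∘ x) (κ'.map fun x => F ∘ x) := by
  refine ⟨?_, ?_, ?_⟩
  · rw [← compProd_cmap hF, ← hd.star]
  · rw [edgeLaw_cmap μ hF, ← compProd_cmap hF, ← hd.edge]
  · rw [edgeLaw_cmap μ hF]
    conv_rhs => rw [← hd.flip]
    rw [Measure.map_map continuous_flipE.measurable (measurable_cmap hF),
      Measure.map_map (measurable_cmap hF) continuous_flipE.measurable]
    rfl

end

end Crest.Agent.R166.B
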