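import Crest.Agent.R166.B.GapAux

/-! # The one-line Fisher inequality -/

set_option autoImplicit false
set_option linter.unusedVariables false
set_option linter.unusedSectionVars false

open MeasureTheory ProbabilityTheory Filter Topology Matrix
open scoped ENNReal BoundedContinuousFunction Kronecker

namespace Crest.Agent.R166.B

section
variable {D p : ℕ} {s : ℝ} {β : Measure J} [IsProbabilityMeasure β] {z : ℂ} {L : ℝ}
  {μ : Measure (SX D p)} [IsProbabilityMeasure μ]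
  {κ : Kernel (StarEnv D) (SV D × Fin p → ℝ)} [IsMarkovKernel κ]
  {κ' : Kernel (Env D × Env D) (Fin 2 × Fin p → ℝ)} [IsMarkovKernel κ']

theorem Del_nonneg (hz : 0 < z.im) (u : ℝ) : 0 ≤ Del s z (mT s z) μ κ κ' u := by
  exact Finset.sum_nonneg fun j _ => Finset.sum_nonneg fun a _ => integral_nonneg fun w =>
    div_nonneg (sq_nonneg _) (mT_im_pos hz _).le

/-- Everything is bounded (`abs_Mf_le`, `bound_mats`, `mT_im_ge`).  `M` = star posterior mean,
`φ_j = phi ..`, `q_j` the form `Σ_a qB (m_j)`.  `tri_mm`, `Ps_form`: `Mm_star ≥ Σ_j E q_j (M, M)` and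
`q_j (M,M) = q_j (M - φ_j) + 2 q_j (M, φ_j) - q_j (φ_j)`.  `tri_ce` (star): `E q_j (M, φ_j) = E q_j (x, φ_j)`;
`tri_edge` and `tri_ce` (edge): `Σ_j E q_j (x, φ_j) = (D+1) E_e q (x, φ) = (D+1) E_e q (φ, φ) = Σ_j E q_j (φ_j)`;
`Pe_form`, `tri_flip`, `Mf_flip`: `Mm_edge = 2 E_e q (φ, φ)`. -/
theorem gap (hD : 1 ≤ D) (hz : 0 < z.im) (hb : ∀ᵐ q ∂μ, ∀ k, |q.2 k| ≤ L) (hd : Dis β μ κ κ')
    {u : ℝ} (hu : 0 ≤ u) :
    Del s z (mT s z) μ κ κ' u ≤
      Mm (starLaw D β) κ (PS p s z (mT s z)) (BS p s z (mT s z)) u -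
        (D + 1 : ℝ) / 2 * Mm (env2 D β) κ' (PE p (mT s z)) (BE p (mT s z)) u := by
  have hc : Cav D s β z (mT s z) := cav_mT s β hz
  have hS : GCh (starLaw D β) κ (PS p s z (mT s z)) (BS p s z (mT s z)) :=
    gch_star hc hd.star (Or.inl hz)
  have hE : GCh (env2 D β) κ' (PE p (mT s z)) (BE p (mT s z)) := gch_edge hc
  obtain ⟨C, -, hC1, -, -, hC2, -⟩ := bound_mats (D := D) p s hz
  have hbe : ∀ᵐ q ∂(edgeLaw μ), ∀ k, |q.2 k| ≤ L := by
    refine ae_edgeLaw_of ?_ fun j => hb.mono fun q hq k => hq _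
    simp only [Set.ofPred_forall]
    exact MeasurableSet.iInter fun k => measurableSet_le
      (((measurable_pi_apply k).comp measurable_snd).abs) measurable_const
  have hTe := tri_edge (p := p) hD hc hd.fst.1 u
  have hfl := tri_flip hc hd.fst.2 hd.flip u
  have hxS := gap_x (u := u) hd.star hS.mB hb
  have hMS := gap_M (u := u) hd.star hS.mP hS.mB hb
  have hxE := gap_x (u := u) hd.edge hE.mB hbe
  have hME := gap_M (u := u) hd.edge hE.mP hE.mB hbe
  have hmS := gap_mm hd.star hS hu hb hC1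
  have hmE := gap_mm hd.edge hE hu hbe hC2
  have pS := tri_prob μ hS.mB u
  have pE := tri_prob (edgeLaw μ) hE.mB u
  have hflipM := gap_ae (u := u) hd.edge hE.mB
    (Mf_flip (by rw [← hd.edge]; exact hd.flip) (mT s z) u)
  have hφm : Measurable fun q : EX D p => Mf (PE p (mT s z) q.1) (κ' q.1) u q.2 :=
    measurable_Mf hE.mP κ' u
  have hQm : ∀ i j, Measurable fun e : Env D => ten p (gapQ (mT s z e)) i j :=
    MeasM.ten fun i j => (gapQ_bdd s hz i j).1.measurable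
  have hQφ : ∀ k, Measurable fun q : EX D p =>
      (ten p (gapQ (mT s z q.1.2)) *ᵥ Mf (PE p (mT s z) q.1) (κ' q.1) u q.2) k := fun k =>
    Finset.measurable_sum Finset.univ fun i _ =>
      ((hQm k i).comp measurable_fst.snd).mul ((measurable_pi_apply i).comp hφm)
  have hQ0 : ∀ {X : Type} [MeasurableSpace X] (ν : Measure X) {f : X → Env D}, Measurable f →
      ∀ i j, GapBM ν fun w => gapQ (mT s z (f w)) i j := fun ν f hf i j =>
    ⟨(gapQ_bdd s hz i j).1.measurable.comp hf, (gapQ_bdd s hz i j).2.choose,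
      ae_of_all _ fun w => (gapQ_bdd s hz i j).2.choose_spec _⟩
  have hQ : ∀ {X : Type} [MeasurableSpace X] (ν : Measure X) {f : X → Env D}, Measurable f →
      ∀ i j, GapBM ν fun w => ten p (gapQ (mT s z (f w))) i j := by
    intro X _ ν f hf i j
    simp only [ten_apply]
    split_ifs
    · exact hQ0 ν hf _ _
    · exact ⟨measurable_const, 0, by simp⟩
  have ceS := fun j => gap_ce hd.star hS hu hb (eI j)
    (h := fun q => ten p (gapQ (mT s z (q.1.2 j))) *ᵥ phi (mT s z) κ' u j q.1 q.2)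
    fun k => by
      have h := (hQφ k).comp (continuous_edgeJ j).measurable
      exact h
  have ceE := gap_ce hd.edge hE hu hbe id
    (h := fun q => ten p (gapQ (mT s z q.1.2)) *ᵥ Mf (PE p (mT s z) q.1) (κ' q.1) u q.2) hQφ
  rw [hmS, hmE, Del]
  generalize tri μ (BS p s z (mT s z)) u = T at *
  generalize tri (edgeLaw μ) (BE p (mT s z)) u = Te at *
  have hr : ∀ j, Measurable fun w : SX D p × (SV D × Fin p → ℝ) =>
      ((edgeJ j w.1, w.2 ∘ eI j) : EX D p × (Fin 2 × Fin p → ℝ)) := fun j =>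
    ((continuous_edgeJ j).measurable.comp measurable_fst).prodMk
      (measurable_pi_lambda _ fun k => (measurable_pi_apply _).comp measurable_snd)
  have hac : ∀ j, T.map (fun w => (edgeJ j w.1, w.2 ∘ eI j)) ≪ Te := by
    intro j
    rw [hTe]
    refine Measure.AbsolutelyContinuous.trans (Measure.absolutelyContinuous_of_le ?_)
      (Measure.absolutelyContinuous_smul (by simp))
    exact Finset.single_le_sum (f := fun j => T.map fun w => (edgeJ j w.1, w.2 ∘ eI j))
      (fun _ _ => Measure.zero_le _) (Finset.mem_univ j)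
  have hsum : ∀ {f : EX D p × (Fin 2 × Fin p → ℝ) → ℝ}, GapBM Te f →
      ∑ j, ∫ w, f (edgeJ j w.1, w.2 ∘ eI j) ∂T = (D + 1 : ℝ) * ∫ w, f w ∂Te := by
    intro f hf
    have h1 : ∀ j, Integrable f (T.map fun w => (edgeJ j w.1, w.2 ∘ eI j)) := fun j =>
      (integrable_map_measure hf.1.aestronglyMeasurable (hr j).aemeasurable).2
        (hf.comp (hr j) (hac j)).integrable
    rw [hTe, integral_smul_measure, integral_finsetSum_measure fun j _ => h1 j]
    simp only [integral_map (hr _).aemeasurable hf.1.aestronglyMeasurable]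
    rw [ENNReal.toReal_inv, ENNReal.toReal_natCast, smul_eq_mul, ← mul_assoc, Nat.cast_add,
      Nat.cast_one, mul_inv_cancel₀ (by positivity), one_mul]
  have hφ : ∀ j k, GapBM T fun w => phi (mT s z) κ' u j w.1.1 w.2 k := fun j k => by
    have h := (hME k).comp (hr j) (hac j)
    exact h
  have hQE := hQ Te (f := fun w => w.1.1.2) measurable_fst.fst.snd
  have hej : ∀ j, Measurable fun w : SX D p × (SV D × Fin p → ℝ) => w.1.1.2 j := fun j =>
    (measurable_pi_apply j).comp measurable_fst.fst.snd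
  have hQS := fun j => hQ T (hej j)
  have hg := GapBM.form hME hQE hME
  have s1 := hsum hg
  have s2 := hsum (GapBM.form hxE hQE hME)
  have c1 := ceE (GapBM.mulVec hQE hME)
  have c2 := fun j => ceS j (GapBM.mulVec (hQS j) (hφ j))
  dsimp only at c2
  set A := ∫ w, Mf (PE p (mT s z) w.1.1) (κ' w.1.1) u w.2 ⬝ᵥ ten p (gapQ (mT s z w.1.1.2)) *ᵥ
    Mf (PE p (mT s z) w.1.1) (κ' w.1.1) u w.2 ∂Te with hA
  have e4 : ∫ w, Mf (PE p (mT s z) w.1.1) (κ' w.1.1) u w.2 ⬝ᵥ PE p (mT s z) w.1.1 *ᵥ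
      Mf (PE p (mT s z) w.1.1) (κ' w.1.1) u w.2 ∂Te = 2 * A := by
    have hfm : Measurable fun w : EX D p × (Fin 2 × Fin p → ℝ) =>
        ((flipE w.1, w.2 ∘ swI) : EX D p × (Fin 2 × Fin p → ℝ)) :=
      (continuous_flipE.measurable.comp measurable_fst).prodMk
        (measurable_pi_lambda _ fun k => (measurable_pi_apply _).comp measurable_snd)
    have hsw : ∀ k, GapBM Te fun w =>
        (Mf (PE p (mT s z) w.1.1) (κ' w.1.1) u w.2 ∘ swI) k := fun k => hME _
    simp only [gap_PE]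
    rw [integral_add hg.integrable (GapBM.form hsw
      (hQ Te (f := fun w => w.1.1.1) measurable_fst.fst.fst) hsw).integrable, two_mul]
    congr 1
    rw [hA]
    conv_rhs => rw [← hfl, integral_map hfm.aemeasurable hg.1.aestronglyMeasurable]
    refine integral_congr_ae (hflipM.mono fun w hw => ?_)
    simp only [← hw w.2]
    rfl
  have hMj : ∀ j k, GapBM T fun w =>
      (Mf (PS p s z (mT s z) w.1.1) (κ w.1.1) u w.2 ∘ eI j) k := fun j k => hMS _
  have e6 : ∀ j, ∑ a, ∫ w, ‖resid (mT s z) κ' u j a w.1.1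
      (Mf (PS p s z (mT s z) w.1.1) (κ w.1.1) u w.2) w.2‖ ^ 2 / (mT s z (w.1.1.2 j)).im ∂T =
      ∫ w, (Mf (PS p s z (mT s z) w.1.1) (κ w.1.1) u w.2 ∘ eI j) ⬝ᵥ
          ten p (gapQ (mT s z (w.1.1.2 j))) *ᵥ
            (Mf (PS p s z (mT s z) w.1.1) (κ w.1.1) u w.2 ∘ eI j) ∂T -
        2 * ∫ w, (w.1.2 ∘ eI j) ⬝ᵥ ten p (gapQ (mT s z (w.1.1.2 j))) *ᵥ
          phi (mT s z) κ' u j w.1.1 w.2 ∂T +
        ∫ w, phi (mT s z) κ' u j w.1.1 w.2 ⬝ᵥ ten p (gapQ (mT s z (w.1.1.2 j))) *ᵥ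
          phi (mT s z) κ' u j w.1.1 w.2 ∂T := by
    intro j
    have i1 := (GapBM.form (hMj j) (hQS j) (hMj j)).integrable
    have i2 := (GapBM.form (hMj j) (hQS j) (hφ j)).integrable
    have i3 := (GapBM.form (hφ j) (hQS j) (hφ j)).integrable
    have i4 := integral_add (i1.sub (i2.const_mul 2)) i3
    simp only [Pi.sub_apply] at i4
    rw [← c2 j, ← integral_const_mul, ← integral_sub i1 (i2.const_mul 2), ← i4,
      ← integral_finsetSum]
    · refine integral_congr_ae (ae_of_all _ fun w => ?_)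
      dsimp only
      rw [← gapQ_expand, gapQ_ten]
      exact Finset.sum_congr rfl fun a _ => (qB_self _ _ _).symm
    · intro a _
      have hd' : ∀ b : Fin 2, GapBM T fun w => (fun b =>
          (Mf (PS p s z (mT s z) w.1.1) (κ w.1.1) u w.2 ∘ eI j) (b, a) -
            phi (mT s z) κ' u j w.1.1 w.2 (b, a)) b := fun b => (hMj j _).sub (hφ j _)
      refine (GapBM.form hd' (hQ0 T (hej j)) hd').integrable.congr (ae_of_all _ fun w => ?_)
      simp only [gapQ_form, qB_self]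
      rfl
  have e5 : ∑ j, ∫ w, (Mf (PS p s z (mT s z) w.1.1) (κ w.1.1) u w.2 ∘ eI j) ⬝ᵥ
        ten p (gapQ (mT s z (w.1.1.2 j))) *ᵥ
          (Mf (PS p s z (mT s z) w.1.1) (κ w.1.1) u w.2 ∘ eI j) ∂T ≤
      ∫ w, Mf (PS p s z (mT s z) w.1.1) (κ w.1.1) u w.2 ⬝ᵥ PS p s z (mT s z) w.1.1 *ᵥ
        Mf (PS p s z (mT s z) w.1.1) (κ w.1.1) u w.2 ∂T := by
    rw [← integral_finsetSum _ fun j _ => (GapBM.form (hMj j) (hQS j) (hMj j)).integrable]
    exact integral_mono (GapBM.sum _ fun j => GapBM.form (hMj j) (hQS j) (hMj j)).integrable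
      (GapBM.form hMS (fun i j => ⟨(hS.mP i j).comp measurable_fst.fst, C,
        ae_of_all _ fun w => hC1 _ i j⟩) hMS).integrable fun w => gap_PS s hz _ _
  have s1' : ∑ j, ∫ w, phi (mT s z) κ' u j w.1.1 w.2 ⬝ᵥ ten p (gapQ (mT s z (w.1.1.2 j))) *ᵥ
      phi (mT s z) κ' u j w.1.1 w.2 ∂T = (D + 1 : ℝ) * A := s1
  have s2' : ∑ j, ∫ w, (w.1.2 ∘ eI j) ⬝ᵥ ten p (gapQ (mT s z (w.1.1.2 j))) *ᵥ
      phi (mT s z) κ' u j w.1.1 w.2 ∂T = (D + 1 : ℝ) * A := s2.trans (congrArg _ c1.symm)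
  simp only [e6]
  rw [Finset.sum_add_distrib, Finset.sum_sub_distrib, ← Finset.mul_sum, s1', s2', e4]
  linarith

end

end Crest.Agent.R166.B
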