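import Crest.Agent.R166.B.Flip

/-! # Bounded measurable functions, conditional expectations of forms -/

set_option autoImplicit false
set_option linter.unusedVariables false
set_option linter.unusedSectionVars false

open MeasureTheory ProbabilityTheory Filter Topology Matrix
open scoped ENNReal BoundedContinuousFunction Kronecker

namespace Crest.Agent.R166.B

noncomputable section

/-- bounded measurable -/
def GapBM {X : Type} [MeasurableSpace X] (ν : Measure X) (f : X → ℝ) : Prop :=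
  Measurable f ∧ ∃ C, ∀ᵐ w ∂ν, |f w| ≤ C

section
variable {X : Type} [MeasurableSpace X] {ν : Measure X} {f g : X → ℝ}

theorem GapBM.mul (hf : GapBM ν f) (hg : GapBM ν g) : GapBM ν fun w => f w * g w := by
  obtain ⟨m1, C, h1⟩ := hf
  obtain ⟨m2, C', h2⟩ := hg
  refine ⟨m1.mul m2, C * C', ?_⟩
  filter_upwards [h1, h2] with w a b
  rw [abs_mul]
  exact mul_le_mul a b (abs_nonneg _) ((abs_nonneg _).trans a)

theorem GapBM.add (hf : GapBM ν f) (hg : GapBM ν g) : GapBM ν fun w => f w + g w := by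
  obtain ⟨m1, C, h1⟩ := hf
  obtain ⟨m2, C', h2⟩ := hg
  refine ⟨m1.add m2, C + C', ?_⟩
  filter_upwards [h1, h2] with w a b
  exact (abs_add_le _ _).trans (add_le_add a b)

theorem GapBM.sub (hf : GapBM ν f) (hg : GapBM ν g) : GapBM ν fun w => f w - g w := by
  obtain ⟨m1, C, h1⟩ := hf
  obtain ⟨m2, C', h2⟩ := hg
  refine ⟨m1.sub m2, C + C', ?_⟩
  filter_upwards [h1, h2] with w a b
  exact (abs_sub _ _).trans (add_le_add a b)

theorem GapBM.sum {I : Type} (s : Finset I) {f : I → X → ℝ} (hf : ∀ i, GapBM ν (f i)) :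
    GapBM ν fun w => ∑ i ∈ s, f i w := by
  classical
  induction s using Finset.induction_on with
  | empty => exact ⟨by simp, 0, by simp⟩
  | insert i s hi ih =>
    simp only [Finset.sum_insert hi]
    exact (hf i).add ih

theorem GapBM.integrable [IsFiniteMeasure ν] (hf : GapBM ν f) : Integrable f ν := by
  obtain ⟨m1, C, h1⟩ := hf
  exact Integrable.of_bound m1.aestronglyMeasurable C h1

theorem GapBM.mulVec {K N : Type} [Fintype N] {A : X → Matrix K N ℝ} {y : X → N → ℝ}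
    (hA : ∀ i j, GapBM ν fun w => A w i j) (hy : ∀ j, GapBM ν fun w => y w j) (i : K) :
    GapBM ν fun w => (A w *ᵥ y w) i :=
  GapBM.sum Finset.univ fun j => (hA i j).mul (hy j)

theorem GapBM.dot {K : Type} [Fintype K] {x y : X → K → ℝ}
    (hx : ∀ j, GapBM ν fun w => x w j) (hy : ∀ j, GapBM ν fun w => y w j) :
    GapBM ν fun w => x w ⬝ᵥ y w :=
  GapBM.sum Finset.univ fun j => (hx j).mul (hy j)

theorem GapBM.form {K N : Type} [Fintype K] [Fintype N] {x : X → K → ℝ} {A : X → Matrix K N ℝ}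
    {y : X → N → ℝ} (hx : ∀ j, GapBM ν fun w => x w j) (hA : ∀ i j, GapBM ν fun w => A w i j)
    (hy : ∀ j, GapBM ν fun w => y w j) : GapBM ν fun w => x w ⬝ᵥ A w *ᵥ y w :=
  GapBM.dot hx (GapBM.mulVec hA hy)

theorem GapBM.comp {Y : Type} [MeasurableSpace Y] {ν' : Measure Y} {r : Y → X} (hf : GapBM ν f)
    (hr : Measurable r) (h : ν'.map r ≪ ν) : GapBM ν' fun w => f (r w) := by
  obtain ⟨m1, C, h1⟩ := hf
  exact ⟨m1.comp hr, C, ae_of_ae_map hr.aemeasurable (h.ae_le h1)⟩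

end

section
variable {K N S : Type} [Fintype K] [Fintype N] [MeasurableSpace S]
  {l : Measure S} {κ : Kernel S (K → ℝ)} {P : S → Matrix K K ℝ} {B : S → Matrix K N ℝ} {u L : ℝ}
  [IsProbabilityMeasure l] [IsMarkovKernel κ] {ν : Measure (S × (K → ℝ))}

theorem gap_ae (hν : ν = l ⊗ₘ κ) (hB : MeasM B) {R : S → Prop} (h : ∀ᵐ σ ∂l, R σ) :
    ∀ᵐ w ∂(tri ν B u), R w.1.1 := by
  subst hν
  have h1 : ∀ᵐ q ∂(l ⊗ₘ κ), R q.1 := by
    refine ae_of_ae_map measurable_fst.aemeasurable ?_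
    rwa [show (l ⊗ₘ κ).map Prod.fst = l from Measure.fst_compProd l κ]
  refine ae_of_ae_map (p := fun q : S × (K → ℝ) => R q.1) measurable_fst.aemeasurable ?_
  rwa [tri_fst _ hB]

theorem gap_x (hν : ν = l ⊗ₘ κ) (hB : MeasM B) (hL : ∀ᵐ q ∂ν, ∀ k, |q.2 k| ≤ L) (k : K) :
    GapBM (tri ν B u) fun w => w.1.2 k := by
  subst hν
  refine ⟨(measurable_pi_apply k).comp measurable_fst.snd, L, ?_⟩
  refine ae_of_ae_map (p := fun q : S × (K → ℝ) => |q.2 k| ≤ L) measurable_fst.aemeasurable ?_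
  rw [tri_fst _ hB]
  exact hL.mono fun q hq => hq k

theorem gap_M (hν : ν = l ⊗ₘ κ) (hP : MeasM P) (hB : MeasM B) (hL : ∀ᵐ q ∂ν, ∀ k, |q.2 k| ≤ L)
    (k : K) : GapBM (tri ν B u) fun w => Mf (P w.1.1) (κ w.1.1) u w.2 k := by
  refine ⟨(measurable_pi_apply k).comp ((measurable_Mf hP κ u).comp
    (measurable_fst.fst.prodMk measurable_snd)), L, ?_⟩
  rw [hν] at hL
  exact (gap_ae hν hB (Measure.ae_ae_of_ae_compProd hL)).mono fun w hw => abs_Mf_le hw _ k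

theorem gap_ce (hν : ν = l ⊗ₘ κ) (hc : GCh l κ P B) (hu : 0 ≤ u) (hL : ∀ᵐ q ∂ν, ∀ k, |q.2 k| ≤ L)
    {K' : Type} [Fintype K'] (ι : K' → K) {h : S × (K → ℝ) → K' → ℝ}
    (hm : ∀ k, Measurable fun q => h q k) (hh : ∀ k, GapBM (tri ν B u) fun w => h (w.1.1, w.2) k) :
    ∫ w, (Mf (P w.1.1) (κ w.1.1) u w.2 ∘ ι) ⬝ᵥ h (w.1.1, w.2) ∂(tri ν B u) =
      ∫ w, (w.1.2 ∘ ι) ⬝ᵥ h (w.1.1, w.2) ∂(tri ν B u) := by
  have hx := gap_x (u := u) hν hc.mB hL
  have hM := gap_M (u := u) hν hc.mP hc.mB hL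
  subst hν
  have := tri_prob (l ⊗ₘ κ) hc.mB u
  simp only [dotProduct, Function.comp]
  rw [integral_finsetSum _ fun k _ => ((hM _).mul (hh k)).integrable,
    integral_finsetSum _ fun k _ => ((hx _).mul (hh k)).integrable]
  refine Finset.sum_congr rfl fun k _ => (tri_ce hc hu (ι k) ?_ (hm k)
    ((hx _).mul (hh k)).integrable).2
  exact Integrable.of_bound ((measurable_pi_apply _).comp measurable_snd).aestronglyMeasurable L
    (hL.mono fun q hq => hq _)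

theorem gap_mm (hν : ν = l ⊗ₘ κ) (hc : GCh l κ P B) (hu : 0 ≤ u) (hL : ∀ᵐ q ∂ν, ∀ k, |q.2 k| ≤ L)
    {C : ℝ} (hC : ∀ σ i j, |P σ i j| ≤ C) :
    Mm l κ P B u = ∫ w, Mf (P w.1.1) (κ w.1.1) u w.2 ⬝ᵥ P w.1.1 *ᵥ Mf (P w.1.1) (κ w.1.1) u w.2
      ∂(tri ν B u) := by
  subst hν
  have hx : ∀ k, GapBM (l ⊗ₘ κ) fun q => q.2 k := fun k =>
    ⟨(measurable_pi_apply _).comp measurable_snd, L, hL.mono fun q hq => hq k⟩
  obtain ⟨-, Λ, hΛ⟩ := GapBM.form (A := fun q : S × (K → ℝ) => P q.1) hx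
    (fun i j => ⟨(hc.mP i j).comp measurable_fst, C, ae_of_all _ fun q => hC _ i j⟩) hx
  exact tri_mm hc hu hL (hΛ.mono fun q hq => (le_abs_self _).trans hq)

end

/-- matrix of `qB` -/
def gapQ (m : ℂ) : Matrix (Fin 2) (Fin 2) ℝ :=
  !![‖m‖ ^ 2 / m.im, m.re / m.im; m.re / m.im, 1 / m.im]

theorem gapQ_form (m : ℂ) (x y : Fin 2 → ℝ) :
    x ⬝ᵥ gapQ m *ᵥ y = qB m (x 0) (x 1) (y 0) (y 1) := by
  simp [gapQ, qB, dotProduct, Matrix.mulVec, Fin.sum_univ_two, Complex.sq_norm,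
    Complex.normSq_apply]
  ring

theorem gapQ_ten {p : ℕ} (m : ℂ) (x y : Fin 2 × Fin p → ℝ) :
    x ⬝ᵥ ten p (gapQ m) *ᵥ y = ∑ a, qB m (x (0, a)) (x (1, a)) (y (0, a)) (y (1, a)) := by
  simp only [ten_form, gapQ_form]

theorem gapQ_expand {p : ℕ} (m : ℂ) (x y : Fin 2 × Fin p → ℝ) :
    (x - y) ⬝ᵥ ten p (gapQ m) *ᵥ (x - y) = x ⬝ᵥ ten p (gapQ m) *ᵥ x -
      2 * (x ⬝ᵥ ten p (gapQ m) *ᵥ y) + y ⬝ᵥ ten p (gapQ m) *ᵥ y := by
  have h : y ⬝ᵥ ten p (gapQ m) *ᵥ x = x ⬝ᵥ ten p (gapQ m) *ᵥ y := by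
    simp only [ten_form]
    refine Finset.sum_congr rfl fun a _ => ?_
    simp [gapQ, dotProduct, Matrix.mulVec, Fin.sum_univ_two]
    ring
  rw [sub_dotProduct, mulVec_sub, dotProduct_sub, dotProduct_sub, h]
  ring

theorem gapQ_bdd {D : ℕ} (s : ℝ) {z : ℂ} (hz : 0 < z.im) (i j : Fin 2) :
    Continuous (fun e : Env D => gapQ (mT s z e) i j) ∧
      ∃ C, ∀ e : Env D, |gapQ (mT s z e) i j| ≤ C := by
  have hm := continuous_mT (D := D) (s := s) hz
  have hi : Continuous fun e : Env D => (mT s z e).im := Complex.continuous_im.comp hm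
  have h0 : ∀ e : Env D, (mT s z e).im ≠ 0 := fun e => (mT_im_pos hz e).ne'
  have hc : Continuous (fun e : Env D => gapQ (mT s z e) i j) := by
    fin_cases i <;> fin_cases j
    · exact (hm.norm.pow 2).div hi h0
    · exact (Complex.continuous_re.comp hm).div hi h0
    · exact (Complex.continuous_re.comp hm).div hi h0
    · exact continuous_const.div hi h0
  obtain ⟨C, hC⟩ := isCompact_univ.exists_bound_of_continuousOn hc.continuousOn
  exact ⟨hc, C, fun e => hC e (Set.mem_univ e)⟩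

theorem gap_PE {D p : ℕ} (mf : Env D → ℂ) (e : Env D × Env D) (x : Fin 2 × Fin p → ℝ) :
    x ⬝ᵥ PE p mf e *ᵥ x = x ⬝ᵥ ten p (gapQ (mf e.2)) *ᵥ x +
      (x ∘ swI) ⬝ᵥ ten p (gapQ (mf e.1)) *ᵥ (x ∘ swI) := by
  rw [PE, ten_form, gapQ_ten, gapQ_ten, ← Finset.sum_add_distrib]
  exact Finset.sum_congr rfl fun a _ => Pe_form _ _

theorem gap_PS {D p : ℕ} (s : ℝ) {z : ℂ} (hz : 0 < z.im) (σ : StarEnv D) (x : SV D × Fin p → ℝ) :
    ∑ j, (x ∘ eI j) ⬝ᵥ ten p (gapQ (mT s z (σ.2 j))) *ᵥ (x ∘ eI j) ≤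
      x ⬝ᵥ PS p s z (mT s z) σ *ᵥ x := by
  simp only [gapQ_ten]
  rw [PS, ten_form, Finset.sum_comm]
  refine Finset.sum_le_sum fun a _ => ?_
  rw [Ps_form hz.le fun j => mT_im_pos hz _, Complex.mul_conj, Complex.ofReal_re]
  exact le_add_of_nonneg_left (div_nonneg (Complex.normSq_nonneg _) hz.le)

end

end Crest.Agent.R166.B
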