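import Crest.Agent.R166.B.Basic
import Crest.Agent.R166.B.Gibbs
import Crest.Agent.R166.B.GInt2

/-! # Cell frequencies -/

set_option autoImplicit false
set_option linter.unusedVariables false
set_option linter.unusedSectionVars false

open MeasureTheory ProbabilityTheory Filter Topology Matrix
open scoped ENNReal BoundedContinuousFunction Kronecker

namespace Crest.Agent.R166.B

theorem fr_lamS {D p : ℕ} (Q : Part D p) (β : Measure J) [IsProbabilityMeasure β] (t : Q.ST) :
    fr (lamS D p β) Q.τ t = fr β Q.a t.1 * (∏ j, fr (envLaw D β) Q.t (t.2.1 j)) *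
      ∏ v, Q.rk (t.2.2 v) := by
  have e : Q.τ ⁻¹' {t} = ((Q.a ⁻¹' {t.1}) ×ˢ (Set.univ.pi fun j => Q.t ⁻¹' {t.2.1 j})) ×ˢ
      {y : SV D × Fin p → ℝ | ∀ v, Q.k (fun a => y (v, a)) = t.2.2 v} := by
    ext q
    simp [Part.τ, Prod.ext_iff, funext_iff, and_assoc]
  unfold fr lamS starLaw
  rw [e, measureReal_prod_prod, measureReal_prod_prod, gpi_cells Q.mk']
  congr 2
  simp only [Measure.real, Measure.pi_pi, ENNReal.toReal_prod]

theorem fr_lamE {D p : ℕ} (Q : Part D p) (β : Measure J) [IsProbabilityMeasure β] (h : Q.HT) :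
    fr (lamE D p β) Q.τe h = fr (envLaw D β) Q.t h.1.1 * fr (envLaw D β) Q.t h.2.1 *
      (Q.rk h.1.2 * Q.rk h.2.2) := by
  have e : Q.τe ⁻¹' {h} = ((Q.t ⁻¹' {h.1.1}) ×ˢ (Q.t ⁻¹' {h.2.1})) ×ˢ
      {y : Fin 2 × Fin p → ℝ | ∀ v, Q.k (fun a => y (v, a)) = ![h.1.2, h.2.2] v} := by
    ext q
    simp only [Part.τe, Prod.ext_iff, Set.mem_preimage, Set.mem_singleton_iff, Set.mem_prod,
      Set.mem_ofPred_eq, Fin.forall_fin_two, Matrix.cons_val_zero, Matrix.cons_val_one]
    tauto
  unfold fr lamE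
  rw [e, measureReal_prod_prod, measureReal_prod_prod, gpi_cells Q.mk', Fin.prod_univ_two]
  rfl

theorem fr_edgeLaw {D p : ℕ} (Q : Part D p) (μ : Measure (SX D p)) [IsProbabilityMeasure μ]
    (h : Q.HT) :
    fr (edgeLaw μ) Q.τe h = avg fun j => ∑ t, if Q.he t j = h then fr μ Q.τ t else 0 := by
  have hm : MeasurableSet (Q.τe ⁻¹' {h}) := Q.measurable_τe (measurableSet_singleton h)
  have h1 : ∀ j, μ.real (edgeJ j ⁻¹' (Q.τe ⁻¹' {h})) =
      ∑ t, if Q.he t j = h then fr μ Q.τ t else 0 := fun j => by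
    rw [← Finset.sum_filter]
    unfold fr
    rw [sum_measureReal_preimage_singleton _ (fun t _ => Q.measurable_τ (measurableSet_singleton t))]
    congr 1
    ext q
    simp [Q.τe_edgeJ]
  simp only [← h1]
  unfold fr
  rw [← integral_indicator_one hm, integral_edgeLaw
    ((measurable_one.indicator hm).stronglyMeasurable) fun j =>
      (integrable_const (1 : ℝ)).indicator ((continuous_edgeJ j).measurable hm)]
  congr 1
  funext j
  exact integral_indicator_one ((continuous_edgeJ j).measurable hm)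

end Crest.Agent.R166.B
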