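import Crest.Agent.R166.B.Basic
import Crest.Agent.R166.G8

/-! # Properties of typical laws -/

set_option autoImplicit false
set_option linter.unusedVariables false
set_option linter.unusedSectionVars false

open MeasureTheory ProbabilityTheory Filter Topology Matrix
open scoped ENNReal BoundedContinuousFunction Kronecker

namespace Crest.Agent.R166.B

section
variable {D p : ℕ} {β : Measure J} [IsProbabilityMeasure β] {μ : Measure (SX D p)}
  [IsProbabilityMeasure μ]

theorem TypB.typ {L : ℝ} (h : TypB β L μ) : Typ β μ := by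
  intro Φ ε hε
  obtain ⟨c, hc, hf⟩ := h Φ ε hε
  refine ⟨c, hc, hf.mono fun n hn => hn.trans (measure_mono ?_)⟩
  rintro o ⟨x, -, hx⟩
  exact ⟨x, hx⟩

/-- test with `f ∘ fst`; `env_lln` with `ε < c`; `ext_of_forall_integral_eq_of_IsFiniteMeasure` -/
theorem Typ.fst (h : Typ β μ) : μ.map Prod.fst = starLaw D β := by
  have : IsProbabilityMeasure (μ.map Prod.fst) :=
    Measure.isProbabilityMeasure_map measurable_fst.aemeasurable
  refine ext_of_forall_integral_eq_of_IsFiniteMeasure fun f => ?_
  rw [integral_map measurable_fst.aemeasurable f.continuous.aestronglyMeasurable]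
  refine eq_of_forall_dist_le fun ε hε => ?_
  obtain ⟨c, hc, hf⟩ := h {f.compContinuous ⟨Prod.fst, continuous_fst⟩} (ε / 2) (half_pos hε)
  have hε' : 0 < min (ε / 2) (c / 2) := lt_min (half_pos hε) (half_pos hc)
  obtain ⟨n, h1, h2⟩ := (hf.and_eventually (env_lln D β f.toContinuousMap hε')).exists
  by_contra hcon
  have h3 := h1.trans ((measure_mono ?_).trans h2)
  · rw [ENNReal.ofReal_le_ofReal_iff hε'.le] at h3
    linarith [min_le_right (ε / 2) (c / 2)]
  · rintro o ⟨x, hx⟩
    have h4 : |(avg fun v => f (starH o.1.1 o.2 v)) - ∫ q, f q.1 ∂μ| ≤ ε / 2 :=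
      hx _ (Finset.mem_singleton_self _)
    show min (ε / 2) (c / 2) < |(avg fun v => f (starH o.1.1 o.2 v)) - ∫ σ, f σ ∂(starLaw D β)|
    rw [Real.dist_eq, not_le] at hcon
    have h5 := abs_sub_le (∫ q, f q.1 ∂μ) (avg fun v => f (starH o.1.1 o.2 v))
      (∫ σ, f σ ∂(starLaw D β))
    rw [abs_sub_comm] at h4
    linarith [min_le_left (ε / 2) (c / 2)]

/-- exact symmetry on graphs: `flipE_edgeJ_starS`, `avg_prod`, `avg_equiv` with `π` -/
theorem Typ.flip (h : Typ β μ) : (edgeLaw μ).map flipE = edgeLaw μ := by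
  have : IsProbabilityMeasure ((edgeLaw μ).map flipE) :=
    Measure.isProbabilityMeasure_map continuous_flipE.measurable.aemeasurable
  refine ext_of_forall_integral_eq_of_IsFiniteMeasure fun f => ?_
  rw [integral_map continuous_flipE.measurable.aemeasurable f.continuous.aestronglyMeasurable]
  let a : Fin (D + 1) → SX D p →ᵇ ℝ := fun j =>
    f.compContinuous ⟨fun q => flipE (edgeJ j q), continuous_flipE.comp (continuous_edgeJ j)⟩
  let b : Fin (D + 1) → SX D p →ᵇ ℝ := fun j => f.compContinuous ⟨edgeJ j, continuous_edgeJ j⟩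
  have h0 : ∫ q, (∑ j, (a j - b j)) q ∂μ = 0 := by
    refine eq_of_forall_dist_le fun ε hε => ?_
    obtain ⟨c, hc, hf⟩ := h {∑ j, (a j - b j)} ε hε
    obtain ⟨n, h1⟩ := hf.exists
    obtain ⟨o, x, hx⟩ := nonempty_of_measure_ne_zero
      ((ENNReal.ofReal_pos.2 hc).trans_le h1).ne'
    have h2 := hx _ (Finset.mem_singleton_self _)
    have h3 : (avg fun v => (∑ j, (a j - b j)) (starS o.1.1 o.2 x v)) = 0 := by
      have h4 := Equiv.sum_comp o.1.1 fun h : HE n D => f (edgeJ h.2 (starS o.1.1 o.2 x h.1))
      simp only [← flipE_edgeJ_starS, Fintype.sum_prod_type] at h4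
      simp only [avg, BoundedContinuousFunction.sum_apply, BoundedContinuousFunction.sub_apply,
        Finset.sum_sub_distrib, a, b, BoundedContinuousFunction.compContinuous_apply,
        ContinuousMap.coe_mk]
      rw [h4, sub_self, zero_div]
    rwa [h3, abs_sub_comm, ← Real.dist_eq] at h2
  simp only [BoundedContinuousFunction.sum_apply, BoundedContinuousFunction.sub_apply] at h0
  rw [integral_finsetSum (f := fun j q => a j q - b j q) _ fun j _ =>
    ((a j).integrable μ).sub ((b j).integrable μ)] at h0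
  simp only [integral_sub ((a _).integrable μ) ((b _).integrable μ), Finset.sum_sub_distrib,
    sub_eq_zero] at h0
  rw [integral_edgeLaw (f := fun q => f (flipE q))
      (f.continuous.comp continuous_flipE).stronglyMeasurable fun j => (a j).integrable μ,
    integral_edgeLaw f.continuous.stronglyMeasurable fun j => (b j).integrable μ]
  exact congrArg (· / (Fintype.card (Fin (D + 1)) : ℝ)) h0

theorem Typ.cmap (h : Typ β μ) {F : ℝ → ℝ} (hF : Continuous F) {L : ℝ} (hL : ∀ t, |F t| ≤ L) :
    TypB β L (μ.map (cmap F)) := by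
  classical
  intro Φ ε hε
  have hc : Continuous (B.cmap F : SX D p → SX D p) :=
    continuous_fst.prodMk (continuous_pi fun k => hF.comp ((continuous_apply k).comp continuous_snd))
  obtain ⟨c, hc0, hf⟩ := h (Φ.image fun f => f.compContinuous ⟨B.cmap F, hc⟩) ε hε
  refine ⟨c, hc0, hf.mono fun n hn => hn.trans (measure_mono ?_)⟩
  rintro o ⟨x, hx⟩
  refine ⟨F ∘ x, fun k => hL _, fun f hf => ?_⟩
  rw [integral_map hc.measurable.aemeasurable f.continuous.aestronglyMeasurable]
  exact hx _ (Finset.mem_image_of_mem _ hf)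

end

end Crest.Agent.R166.B
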