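import Crest.Agent.R166.B.Defi
import Crest.Agent.R166.B.CT3
import Crest.Agent.R166.B.Typ

/-! # Choice of the truncation levels -/

set_option autoImplicit false
set_option linter.unusedVariables false
set_option linter.unusedSectionVars false

open MeasureTheory ProbabilityTheory Filter Topology Matrix
open scoped ENNReal BoundedContinuousFunction Kronecker

namespace Crest.Agent.R166.B

section aux
variable {D p : ℕ} {s E : ℝ} {β : Measure J} [IsProbabilityMeasure β]
  {μ : Measure (SX D p)} [IsProbabilityMeasure μ]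

private theorem measurable_cen (s : ℝ) (z : ℂ) : Measurable (cen s z : SX D p → ℝ) := by
  unfold cen
  fun_prop

private theorem cen_scale (s : ℝ) (z : ℂ) (F : ℝ → ℝ) (q : SX D p) :
    cen s z (cmap (fun t => √2 * F t) q) = 2 * cen s z (cmap F q) := by
  unfold cen
  rw [Finset.mul_sum]
  refine Finset.sum_congr rfl fun a _ => ?_
  simp only [cmap, Function.comp_apply]
  rw [← Finset.mul_sum, ← mul_div_assoc]
  congr 1
  have h2 : ‖((√2 : ℝ) : ℂ)‖ ^ 2 = 2 := by
    rw [Complex.norm_real, Real.norm_eq_abs, sq_abs, Real.sq_sqrt zero_le_two]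
  have h3 : ∀ w : ℂ, ‖((√2 : ℝ) : ℂ) * w‖ ^ 2 = 2 * ‖w‖ ^ 2 := fun w => by
    rw [norm_mul, mul_pow, h2]
  rw [← h3]
  congr 2
  push_cast
  ring

private theorem cen_le (s : ℝ) {z : ℂ} (hz : 0 < z.im) {L : ℝ} (hL : 0 ≤ L) (q : SX D p) :
    ‖cen s z (cmap (clip L) q)‖ ≤ p * (|s| + ‖z‖ + (D + 1)) ^ 2 / z.im * ‖q.2‖ ^ 2 := by
  have hx : ∀ k, |clip L (q.2 k)| ≤ ‖q.2‖ := fun k =>
    (abs_clip_le hL _).2.trans (norm_le_pi_norm q.2 k)
  unfold cen
  rw [Real.norm_of_nonneg (Finset.sum_nonneg fun a _ => div_nonneg (sq_nonneg _) hz.le)]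
  refine (Finset.sum_le_card_nsmul _ _ (((|s| + ‖z‖ + (D + 1)) * ‖q.2‖) ^ 2 / z.im)
    fun a _ => ?_).trans (le_of_eq ?_)
  · refine div_le_div_of_nonneg_right (pow_le_pow_left₀ (norm_nonneg _) ?_ 2) hz.le
    simp only [cmap, Function.comp_apply]
    refine (norm_add_le _ _).trans ?_
    rw [norm_mul, Complex.norm_real, Complex.norm_real, Real.norm_eq_abs, Real.norm_eq_abs]
    have h1 : ‖((s * (q.1.1 : ℝ) : ℝ) : ℂ) - z‖ ≤ |s| + ‖z‖ := by
      refine (norm_sub_le _ _).trans (add_le_add ?_ le_rfl)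
      rw [Complex.norm_real, Real.norm_eq_abs, abs_mul]
      exact mul_le_of_le_one_right (abs_nonneg s) (abs_le.2 q.1.1.2)
    have h2 : |∑ j, clip L (q.2 (some j, a))| ≤ (D + 1) * ‖q.2‖ := by
      refine (Finset.abs_sum_le_sum_abs _ _).trans
        ((Finset.sum_le_card_nsmul _ _ _ fun j _ => hx _).trans (le_of_eq ?_))
      simp
    have h3 := mul_le_mul h1 (hx (none, a)) (abs_nonneg _) (by positivity)
    linarith
  · rw [Finset.card_univ, Fintype.card_fin, nsmul_eq_mul]
    ring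

private theorem integral_cen (hμ : Lim s E β μ) {z : ℂ} (hz : 0 < z.im) (hE : z.re = E) :
    ∫ q, cen s z q ∂μ = z.im * p := by
  have h1 : ∀ᵐ q ∂μ, cen s z q = ∑ a, z.im * (q.2 (none, a) * q.2 (none, a)) := by
    filter_upwards [hμ.eig] with q hq
    refine Finset.sum_congr rfl fun a _ => ?_
    rw [hq a, div_eq_iff hz.ne', Complex.sq_norm, Complex.normSq_apply, ← hE]
    simp only [Complex.add_re, Complex.mul_re, Complex.sub_re, Complex.ofReal_re, Complex.sub_im,
      Complex.ofReal_im, Complex.add_im, Complex.mul_im]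
    ring
  have h2 : ∀ a, MemLp (fun q : SX D p => q.2 (none, a)) 2 μ := fun a => hμ.sq.eval _
  have h3 : ∀ a, Integrable (fun q : SX D p => z.im * (q.2 (none, a) * q.2 (none, a))) μ :=
    fun a => ((h2 a).integrable_mul (h2 a)).const_mul _
  rw [integral_congr_ae h1, integral_finsetSum _ fun a _ => h3 a]
  simp only [integral_const_mul, hμ.cov, if_true, Finset.sum_const, Finset.card_univ,
    Fintype.card_fin, nsmul_eq_mul]
  ring

private theorem tendsto_cen (hμ : Lim s E β μ) {z : ℂ} (hz : 0 < z.im) :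
    Tendsto (fun L : ℕ => ∫ q, cen s z (cmap (clip L) q) ∂μ) atTop (𝓝 (∫ q, cen s z q ∂μ)) := by
  refine tendsto_integral_of_dominated_convergence
    (fun q => p * (|s| + ‖z‖ + (D + 1)) ^ 2 / z.im * ‖q.2‖ ^ 2)
    (fun L => ((measurable_cen s z).comp
      (measurable_cmap (continuous_clip _).measurable)).aestronglyMeasurable)
    (((memLp_two_iff_integrable_sq_norm hμ.sq.1).1 hμ.sq).const_mul _)
    (fun L => Eventually.of_forall fun q => cen_le s hz (Nat.cast_nonneg L) q)
    (Eventually.of_forall fun q => tendsto_const_nhds.congr' ?_)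
  filter_upwards [tendsto_natCast_atTop_atTop.eventually_ge_atTop ‖q.2‖] with L hL
  congr 1
  exact Prod.ext rfl (funext fun k => (clip_eq ((norm_le_pi_norm q.2 k).trans hL)).symm)

private theorem ae_cmap_le {F : ℝ → ℝ} (hF : Measurable F) {L : ℝ} (h : ∀ t, |F t| ≤ L) :
    ∀ᵐ q ∂(μ.map (cmap F)), ∀ k, |q.2 k| ≤ L := by
  rw [ae_all_iff]
  intro k
  refine (ae_map_iff (measurable_cmap hF).aemeasurable ?_).2 (Eventually.of_forall fun q => h _)
  exact measurableSet_le (by fun_prop) measurable_const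

private theorem weak_at (hD : 1 ≤ D) (hβ : Adm s β) (hμ : Lim s E β μ)
    {κ : Kernel (StarEnv D) (SV D × Fin p → ℝ)} [IsMarkovKernel κ]
    {κ' : Kernel (Env D × Env D) (Fin 2 × Fin p → ℝ)} [IsMarkovKernel κ'] (hd : Dis β μ κ κ')
    {z : ℂ} (hz : 0 < z.im) {L r ε : ℝ} (hL : 0 ≤ L) (hε : 0 < ε)
    (hr : ∫ q, cen s z (cmap (clip L) q) ∂μ ≤ r) :
    ∃ u ∈ Set.Icc (1 : ℝ) 2, Weak s z (μ.map (cmap (clip L))) (κ'.map fun x => clip L ∘ x) u
      (2 * r + ε) := by
  have hc : Continuous fun t => √2 * clip L t := continuous_const.mul (continuous_clip L)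
  have hm : Measurable (clip L) := (continuous_clip L).measurable
  have hb : ∀ t, |√2 * clip L t| ≤ √2 * L := fun t => by
    rw [abs_mul, abs_of_nonneg (Real.sqrt_nonneg 2)]
    exact mul_le_mul_of_nonneg_left (abs_clip_le hL t).1 (Real.sqrt_nonneg 2)
  have hpi : ∀ {K : Type} {F : ℝ → ℝ}, Measurable F → Measurable fun x : K → ℝ => F ∘ x :=
    fun hF => measurable_pi_lambda _ fun k => hF.comp (measurable_pi_apply k)
  have := Measure.isProbabilityMeasure_map (μ := μ) (measurable_cmap hc.measurable).aemeasurable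
  have := Measure.isProbabilityMeasure_map (μ := μ) (measurable_cmap hm).aemeasurable
  have := Kernel.IsMarkovKernel.map κ (hpi hc.measurable)
  have := Kernel.IsMarkovKernel.map κ' (hpi hc.measurable)
  have := Kernel.IsMarkovKernel.map κ (hpi hm)
  have := Kernel.IsMarkovKernel.map κ' (hpi hm)
  have h1 := psi_ineq hD hβ hz (hμ.typ.cmap hc hb) (ae_cmap_le hc.measurable hb)
    (hd.cmap hc.measurable)
  have hs : Measurable fun t : ℝ => √2 * t := by fun_prop
  have e1 : (κ.map fun x => (fun t => √2 * clip L t) ∘ x) =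
      (κ.map fun x => clip L ∘ x).map fun x => (fun t => √2 * t) ∘ x :=
    Kernel.map_comp_right κ (hpi hm) (hpi hs)
  have e2 : (κ'.map fun x => (fun t => √2 * clip L t) ∘ x) =
      (κ'.map fun x => clip L ∘ x).map fun x => (fun t => √2 * t) ∘ x :=
    Kernel.map_comp_right κ' (hpi hm) (hpi hs)
  rw [e1, e2, Psi_scale zero_le_two, Psi_scale zero_le_two,
    integral_map (measurable_cmap hc.measurable).aemeasurable
      (measurable_cen s z).aestronglyMeasurable] at h1
  simp only [cen_scale, integral_const_mul] at h1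
  have hb' := ae_cmap_le (μ := μ) hm fun t => (abs_clip_le hL t).1
  obtain ⟨u, hu, hu'⟩ := exists_Del_le (s := s) hD hz hb' (hd.cmap hm) (r := r) hε (by linarith)
  exact ⟨u, hu, weak_of_Del hz hb' (hd.cmap hm) (by linarith [hu.1]) hu'⟩

end aux

/-- For each `k`, `z = zj E k`, `η = 2^{-k}`: `cen s z (cmap (clip L) q) =
Σ_a (res_a (clip x))² / η + η Σ_a (clip x (none, a))²`; the first term tends to `0` in mean as
`L → ∞` (dominated by `C ‖x‖²`, eventually `0` pointwise by `Lim.eig`), the second is `≤ η p`.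
Apply `psi_ineq` to `μ.map (cmap (√2 * clip L ·))` (`Typ.cmap`, `Dis.cmap`, `Psi_scale`,
`Kernel.map_comp_right`), then `exists_Del_le`, `weak_of_Del` to `μ.map (cmap (clip L))`. -/
theorem exists_weak {D p : ℕ} (hD : 1 ≤ D) {s E : ℝ} {β : Measure J} [IsProbabilityMeasure β]
    (hβ : Adm s β) {μ : Measure (SX D p)} [IsProbabilityMeasure μ] (hμ : Lim s E β μ)
    {κ : Kernel (StarEnv D) (SV D × Fin p → ℝ)} [IsMarkovKernel κ]
    {κ' : Kernel (Env D × Env D) (Fin 2 × Fin p → ℝ)} [IsMarkovKernel κ'] (hd : Dis β μ κ κ') :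
    ∃ L u r : ℕ → ℝ, Tendsto L atTop atTop ∧ (∀ k, 0 ≤ L k) ∧ (∀ k, u k ∈ Set.Icc (1 : ℝ) 2) ∧
      Tendsto r atTop (𝓝 0) ∧ ∀ k, Weak s (zj E k) (μ.map (cmap (clip (L k))))
        (κ'.map fun x => clip (L k) ∘ x) (u k) (r k) := by
  have him : ∀ k, (zj E k).im = (2⁻¹ : ℝ) ^ k := fun k => by
    simp only [zj, Complex.add_im, Complex.ofReal_im, Complex.mul_im, Complex.ofReal_re,
      Complex.I_im, Complex.I_re, mul_one, mul_zero, zero_add, add_zero]
  have hre : ∀ k, (zj E k).re = E := fun k => by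
    simp only [zj, Complex.add_re, Complex.ofReal_im, Complex.mul_re, Complex.ofReal_re,
      Complex.I_im, Complex.I_re, mul_one, mul_zero, sub_zero, add_zero]
  have hz : ∀ k, 0 < (zj E k).im := fun k => by rw [him]; positivity
  have h1 : ∀ k : ℕ, ∃ L : ℕ, k ≤ L ∧ ∫ q, cen s (zj E k) (cmap (clip L) q) ∂μ ≤
      (2⁻¹ : ℝ) ^ k * (p + 1) := by
    intro k
    have h := tendsto_cen hμ (hz k)
    rw [integral_cen hμ (hz k) (hre k), him] at h
    have hlt : (2⁻¹ : ℝ) ^ k * p < (2⁻¹ : ℝ) ^ k * (p + 1) :=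
      mul_lt_mul_of_pos_left (lt_add_one _) (by positivity)
    obtain ⟨L, a1, a2⟩ := ((eventually_ge_atTop k).and (h.eventually (gt_mem_nhds hlt))).exists
    exact ⟨L, a1, a2.le⟩
  choose L hL hL' using h1
  choose u hu hu' using fun k => weak_at hD hβ hμ hd (hz k) (Nat.cast_nonneg (L k))
    (show (0 : ℝ) < (2⁻¹ : ℝ) ^ k by positivity) (hL' k)
  refine ⟨fun k => L k, u, _, tendsto_natCast_atTop_atTop.comp (tendsto_atTop_mono hL tendsto_id),
    fun k => Nat.cast_nonneg _, hu, ?_, hu'⟩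
  have h0 : Tendsto (fun k : ℕ => (2⁻¹ : ℝ) ^ k) atTop (𝓝 0) :=
    tendsto_pow_atTop_nhds_zero_of_lt_one (by norm_num) (by norm_num)
  simpa using ((h0.mul_const ((p : ℝ) + 1)).const_mul 2).add h0

end Crest.Agent.R166.B
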