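import Crest.Agent.R166.B.Lim0
import Crest.Agent.R166.T0f

/-! # The limit `η → 0` -/

set_option autoImplicit false
set_option linter.unusedVariables false
set_option linter.unusedSectionVars false

open MeasureTheory ProbabilityTheory Filter Topology Matrix
open scoped ENNReal BoundedContinuousFunction Kronecker

namespace Crest.Agent.R166.B

section aux
variable {D p : ℕ}

theorem Lim1_meas_phi {mf : Env D → ℂ} (hm : Measurable mf)
    (κ' : Kernel (Env D × Env D) (Fin 2 × Fin p → ℝ)) [IsMarkovKernel κ'] (u : ℝ)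
    (j : Fin (D + 1)) : Measurable fun q : SX D p => phi mf κ' u j q.1 q.2 := by
  have h := (measurable_Mf (measM_PE p hm) κ' u).comp (continuous_edgeJ j).measurable
  simp only [Function.comp_def, edgeJ] at h
  simp only [phi, Function.comp_def]
  exact h

theorem Lim1_meas_damp {mf : Env D → ℂ} (hm : Measurable mf)
    (κ' : Kernel (Env D × Env D) (Fin 2 × Fin p → ℝ)) [IsMarkovKernel κ'] (u : ℝ)
    (j : Fin (D + 1)) : Measurable fun q : SX D p => damp mf κ' u j q.1 q.2 := by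
  have h1 := Lim1_meas_phi hm κ' u j
  have h2 : Measurable fun q : SX D p => mf (q.1.2 j) :=
    hm.comp ((measurable_pi_apply j).comp (measurable_snd.comp measurable_fst))
  exact measurable_const.div ((measurable_const.add h2.norm).mul (measurable_const.add h1.norm))

theorem Lim1_meas {mf : Env D → ℂ} (hm : Measurable mf)
    (κ' : Kernel (Env D × Env D) (Fin 2 × Fin p → ℝ)) [IsMarkovKernel κ'] (u : ℝ)
    (j : Fin (D + 1)) (a : Fin p) {h : SX D p → ℝ} (hh : Measurable h) :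
    Measurable fun w : SX D p × (SV D × Fin p → ℝ) =>
      resid mf κ' u j a w.1.1 w.1.2 w.2 * ((h (w.1.1, w.2) : ℝ) : ℂ) := by
  have h0 : Measurable fun w : SX D p × (SV D × Fin p → ℝ) => ((w.1.1, w.2) : SX D p) :=
    (measurable_fst.comp measurable_fst).prodMk measurable_snd
  have h1 := (Lim1_meas_phi hm κ' u j).comp h0
  have h2 : Measurable fun w : SX D p × (SV D × Fin p → ℝ) => mf (w.1.1.2 j) :=
    hm.comp ((measurable_pi_apply j).comp
      (measurable_snd.comp (measurable_fst.comp measurable_fst)))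
  have h3 : ∀ k, Measurable fun w : SX D p × (SV D × Fin p → ℝ) => w.1.2 k := fun k =>
    (measurable_pi_apply k).comp (measurable_snd.comp measurable_fst)
  refine Measurable.mul (Measurable.add ?_ (h2.mul ?_)) (Complex.measurable_ofReal.comp (hh.comp h0))
  · exact Complex.measurable_ofReal.comp ((h3 _).sub ((measurable_pi_apply _).comp h1))
  · exact Complex.measurable_ofReal.comp ((h3 _).sub ((measurable_pi_apply _).comp h1))

theorem Lim1_damp_le (mf : Env D → ℂ) (κ' : Kernel (Env D × Env D) (Fin 2 × Fin p → ℝ)) (u : ℝ)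
    (j : Fin (D + 1)) (σ : StarEnv D) (y : SV D × Fin p → ℝ) :
    0 ≤ damp mf κ' u j σ y ∧ (1 + ‖mf (σ.2 j)‖) * damp mf κ' u j σ y ≤ 1 ∧
      damp mf κ' u j σ y ≤ 1 := by
  have h1 := norm_nonneg (mf (σ.2 j))
  have h2 := norm_nonneg (phi mf κ' u j σ y)
  have h0 : 0 ≤ damp mf κ' u j σ y := by unfold damp; positivity
  have h3 : (1 + ‖mf (σ.2 j)‖) * damp mf κ' u j σ y ≤ 1 := by
    unfold damp
    rw [mul_one_div, div_le_one (by positivity)]
    nlinarith
  exact ⟨h0, h3, by nlinarith⟩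

theorem Lim1_bound (mf : Env D → ℂ) (κ' : Kernel (Env D × Env D) (Fin 2 × Fin p → ℝ)) (u : ℝ)
    (j : Fin (D + 1)) (a : Fin p) (σ : StarEnv D) (x y : SV D × Fin p → ℝ) {c : ℝ}
    (hc : |c| ≤ 1) :
    ‖resid mf κ' u j a σ x y * ((damp mf κ' u j σ y * c : ℝ) : ℂ)‖ ≤ ‖x‖ + 1 := by
  have h1 := norm_nonneg (mf (σ.2 j))
  have h2 := norm_nonneg (phi mf κ' u j σ y)
  have h3 := norm_nonneg x
  have h4 : ∀ k l, ‖((x k - phi mf κ' u j σ y l : ℝ) : ℂ)‖ ≤ ‖x‖ + ‖phi mf κ' u j σ y‖ := by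
    intro k l
    rw [Complex.norm_real]
    exact (norm_sub_le _ _).trans (add_le_add (norm_le_pi_norm x k) (norm_le_pi_norm _ l))
  have h5 : ‖resid mf κ' u j a σ x y‖ ≤ (1 + ‖mf (σ.2 j)‖) * (‖x‖ + ‖phi mf κ' u j σ y‖) := by
    unfold resid
    refine (norm_add_le _ _).trans ?_
    rw [norm_mul, add_mul, one_mul]
    exact add_le_add (h4 _ _) (mul_le_mul_of_nonneg_left (h4 _ _) h1)
  have h0 := (Lim1_damp_le mf κ' u j σ y).1
  rw [norm_mul, Complex.norm_real, Real.norm_eq_abs, abs_mul, abs_of_nonneg h0]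
  calc ‖resid mf κ' u j a σ x y‖ * (damp mf κ' u j σ y * |c|)
      ≤ (1 + ‖mf (σ.2 j)‖) * (‖x‖ + ‖phi mf κ' u j σ y‖) * damp mf κ' u j σ y :=
        mul_le_mul h5 (mul_le_of_le_one_right h0 hc) (by positivity) (by positivity)
    _ = (‖x‖ + ‖phi mf κ' u j σ y‖) / (1 + ‖phi mf κ' u j σ y‖) := by
        unfold damp; field_simp
    _ ≤ ‖x‖ + 1 := by
        rw [div_le_iff₀ (by positivity)]
        nlinarith [mul_nonneg h3 h2]

theorem Lim1_tri {K N S : Type} [Fintype K] [Fintype N] [MeasurableSpace S]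
    (μ : Measure (S × (K → ℝ))) [IsProbabilityMeasure μ] {B : S → Matrix K N ℝ} (hB : MeasM B)
    (u : ℝ) {c : ℝ → ℝ} (hc : Measurable c) {F : (S × (K → ℝ)) × (K → ℝ) → ℂ}
    (hF : Measurable F) :
    Measurable (fun w : (S × (K → ℝ)) × (N → ℝ) =>
      F (cmap c w.1, ob (B w.1.1) u (c ∘ w.1.2) w.2)) ∧
    ∫ w, F w ∂(tri (μ.map (cmap c)) B u) =
      ∫ w, F (cmap c w.1, ob (B w.1.1) u (c ∘ w.1.2) w.2) ∂(μ.prod (gpi N)) := by
  have h1 : Measurable fun w : (S × (K → ℝ)) × (N → ℝ) => (w.1, ob (B w.1.1) u w.1.2 w.2) :=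
    measurable_fst.prodMk (measurable_ob hB u)
  have h2 : Measurable (Prod.map (cmap c) id : (S × (K → ℝ)) × (N → ℝ) → _) :=
    (measurable_cmap hc).prodMap measurable_id
  refine ⟨hF.comp (h1.comp h2), ?_⟩
  have e : (μ.map (cmap c)).prod (gpi N) = (μ.prod (gpi N)).map (Prod.map (cmap c) id) := by
    rw [← Measure.map_prod_map _ _ (measurable_cmap hc) measurable_id, Measure.map_id]
  rw [tri, e, Measure.map_map h1 h2, integral_map (h1.comp h2).aemeasurable hF.aestronglyMeasurable]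
  rfl

theorem Lim1_clip {L : ℕ → ℝ} (hL : Tendsto L atTop atTop) (t : ℝ) :
    Tendsto (fun k => clip (L k) t) atTop (𝓝 t) :=
  tendsto_const_nhds.congr' ((hL.eventually_ge_atTop |t|).mono fun _ h => (clip_eq h).symm)

theorem Lim1_alg {K N : Type} [Fintype N] {xs : ℕ → K → ℝ} {x : K → ℝ} {fs : ℕ → N → ℝ}
    {f : N → ℝ} {ms : ℕ → ℂ} {m : ℂ} {gs : ℕ → ℝ} {g : ℝ} (hx : Tendsto xs atTop (𝓝 x))
    (hf : Tendsto fs atTop (𝓝 f)) (hm : Tendsto ms atTop (𝓝 m)) (hg : Tendsto gs atTop (𝓝 g))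
    (k k' : K) (l l' : N) :
    Tendsto (fun n => (((xs n k - fs n l : ℝ) : ℂ) + ms n * ((xs n k' - fs n l' : ℝ) : ℂ)) *
      ((1 / ((1 + ‖ms n‖) * (1 + ‖fs n‖)) * gs n : ℝ) : ℂ)) atTop
      (𝓝 ((((x k - f l : ℝ) : ℂ) + m * ((x k' - f l' : ℝ) : ℂ)) *
        ((1 / ((1 + ‖m‖) * (1 + ‖f‖)) * g : ℝ) : ℂ))) := by
  have hr : ∀ k l, Tendsto (fun n => ((xs n k - fs n l : ℝ) : ℂ)) atTop
      (𝓝 ((x k - f l : ℝ) : ℂ)) := fun k l =>
    ((tendsto_pi_nhds.1 hx k).sub (tendsto_pi_nhds.1 hf l)).ofReal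
  refine ((hr _ _).add (hm.mul (hr _ _))).mul (Tendsto.ofReal (Tendsto.mul ?_ hg))
  exact tendsto_const_nhds.div ((tendsto_const_nhds.add hm.norm).mul
    (tendsto_const_nhds.add hf.norm)) (by positivity)

theorem Lim1_pt {s E : ℝ} (κ' : Kernel (Env D × Env D) (Fin 2 × Fin p → ℝ)) [IsMarkovKernel κ']
    {z : ℕ → ℂ} {mf : ℕ → Env D → ℂ} {m : Env D → ℂ} {L u' : ℕ → ℝ} {u : ℝ}
    (hz : Tendsto z atTop (𝓝 (E : ℂ))) (hL : Tendsto L atTop atTop)
    (hu' : Tendsto u' atTop (𝓝 u)) (hu : 0 < u) (j : Fin (D + 1)) (a : Fin p) (σ : StarEnv D)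
    (h1 : ∀ i, Tendsto (fun k => mf k (σ.2 i)) atTop (𝓝 (m (σ.2 i))) ∧ 0 < (m (σ.2 i)).im)
    (h2 : Tendsto (fun k => mf k (outEnv σ j)) atTop (𝓝 (m (outEnv σ j))) ∧
      0 < (m (outEnv σ j)).im) {g : SX D p → ℝ} (hg : Continuous fun y => g (σ, y))
    (x : SV D × Fin p → ℝ) (ξ : (SV D ⊕ SV D) × Fin p → ℝ) :
    Tendsto (fun k => resid (mf k) (κ'.map fun x => clip (L k) ∘ x) (u' k) j a σ (clip (L k) ∘ x)
        (ob (BS p s (z k) (mf k) σ) (u' k) (clip (L k) ∘ x) ξ) *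
      ((damp (mf k) (κ'.map fun x => clip (L k) ∘ x) (u' k) j σ
          (ob (BS p s (z k) (mf k) σ) (u' k) (clip (L k) ∘ x) ξ) *
        g (σ, ob (BS p s (z k) (mf k) σ) (u' k) (clip (L k) ∘ x) ξ) : ℝ) : ℂ)) atTop
      (𝓝 (resid m κ' u j a σ x (ob (BS p s E m σ) u x ξ) *
        ((damp m κ' u j σ (ob (BS p s E m σ) u x ξ) * g (σ, ob (BS p s E m σ) u x ξ) : ℝ) : ℂ))) := by
  have hx : Tendsto (fun k => clip (L k) ∘ x) atTop (𝓝 x) :=
    tendsto_pi_nhds.2 fun i => Lim1_clip hL (x i)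
  have hB : Tendsto (fun k => BS p s (z k) (mf k) σ) atTop (𝓝 (BS p s E m σ)) := by
    have a1 := (continuousAt_Bs (t := s * (σ.1 : ℝ)) (z := E) (m := fun i => m (σ.2 i)) (by simp)
      fun i => (h1 i).2).tendsto.comp (tendsto_const_nhds.prodMk_nhds
        (hz.prodMk_nhds (tendsto_pi_nhds.2 fun i => (h1 i).1)))
    exact (continuous_ten.tendsto _).comp a1
  have hy : Tendsto (fun k => ob (BS p s (z k) (mf k) σ) (u' k) (clip (L k) ∘ x) ξ) atTop
      (𝓝 (ob (BS p s E m σ) u x ξ)) := by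
    have a1 : Continuous fun M : Matrix (SV D × Fin p) ((SV D ⊕ SV D) × Fin p) ℝ => M *ᵥ ξ :=
      continuous_id.matrix_mulVec continuous_const
    exact (hu'.smul hx).add (hu'.sqrt.smul ((a1.tendsto _).comp hB))
  have hP : Tendsto (fun k => PE p (mf k) (eEnv j σ)) atTop (𝓝 (PE p m (eEnv j σ))) := by
    have a1 := ((continuous_ten (p := p)).tendsto _).comp
      ((continuousAt_Pe h2.2 (h1 j).2).tendsto.comp (h2.1.prodMk_nhds (h1 j).1))
    simp only [Function.comp_def] at a1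
    simp only [PE, eEnv]
    exact a1
  have hφ : Tendsto (fun k => phi (mf k) (κ'.map fun x => clip (L k) ∘ x) (u' k) j σ
      (ob (BS p s (z k) (mf k) σ) (u' k) (clip (L k) ∘ x) ξ)) atTop
      (𝓝 (phi m κ' u j σ (ob (BS p s E m σ) u x ξ))) := by
    have a1 := tendsto_Mf (κ' (eEnv j σ)) (P := PE p m (eEnv j σ))
      (ten_posDef (Pe_posDef h2.2 (h1 j).2)) hu hP hu'
      (y' := fun k => ob (BS p s (z k) (mf k) σ) (u' k) (clip (L k) ∘ x) ξ ∘ eI j)
      (y := ob (BS p s E m σ) u x ξ ∘ eI j)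
      (tendsto_pi_nhds.2 fun i => tendsto_pi_nhds.1 hy _)
      (fun k => (continuous_clip (L k)).measurable) (Lim1_clip hL)
    have a2 : ∀ k, Measurable fun x : Fin 2 × Fin p → ℝ => clip (L k) ∘ x := fun k =>
      measurable_pi_lambda _ fun i =>
        (continuous_clip (L k)).measurable.comp (measurable_pi_apply i)
    simp only [phi, Kernel.map_apply _ (a2 _)]
    exact a1
  have hg' : Tendsto (fun k => g (σ, ob (BS p s (z k) (mf k) σ) (u' k) (clip (L k) ∘ x) ξ)) atTop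
      (𝓝 (g (σ, ob (BS p s E m σ) u x ξ))) := (hg.tendsto _).comp hy
  simp only [resid, damp]
  exact Lim1_alg hx hφ (h1 j).1 hg' _ _ _ _

end aux

/-- Subsequence `u_k → u` (`IsCompact.tendsto_subseq`).  Test `Weak` with `h = damp_k * g`
(`Im m * h² ≤ 1`), write everything on `μ.prod (gpi _)`; the integrands are bounded by
`2 ‖x‖ + 2` and converge a.e.: `TreeOK` (through `map_eEnv`, `map_star_snd`), `continuousAt_Bs`,
`continuousAt_Pe`, `continuous_ten`, `tendsto_Mf`, `Kernel.map_apply`. -/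
theorem lim_weak {D p : ℕ} (hD : 1 ≤ D) {s E : ℝ} {β : Measure J} [IsProbabilityMeasure β]
    (hβ : Adm s β) (hT : TreeOK D s β E) {μ : Measure (SX D p)} [IsProbabilityMeasure μ]
    (hμ : Lim s E β μ) {κ : Kernel (StarEnv D) (SV D × Fin p → ℝ)} [IsMarkovKernel κ]
    {κ' : Kernel (Env D × Env D) (Fin 2 × Fin p → ℝ)} [IsMarkovKernel κ'] (hd : Dis β μ κ κ') :
    ∃ u ∈ Set.Icc (1 : ℝ) 2, ∀ j a (g : SX D p → ℝ), Measurable g → (∀ q, |g q| ≤ 1) →
      (∀ᵐ σ ∂(starLaw D β), Continuous fun y => g (σ, y)) →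
      ∫ w, resid (m0 s E) κ' u j a w.1.1 w.1.2 w.2 *
        ((damp (m0 s E) κ' u j w.1.1 w.2 * g (w.1.1, w.2) : ℝ) : ℂ)
          ∂(tri μ (BS p s E (m0 s E)) u) = 0 := by
  obtain ⟨L, u', r, hL, hL0, hu', hr, hW⟩ := exists_weak hD hβ hμ hd
  obtain ⟨u, hu, φ, hφ, hlim⟩ := isCompact_Icc.tendsto_subseq hu'
  refine ⟨u, hu, fun j a g hg hg1 hgc => ?_⟩
  have hφ' := hφ.tendsto_atTop
  have hm0 := (cav_m0 hD hT).meas
  have hmk : ∀ k, Measurable (mT (D := D) s (zj E k)) := fun k =>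
    (cav_mT s β (zj_im_pos E k)).meas
  have hcm : ∀ k, Measurable fun x : Fin 2 × Fin p → ℝ => clip (L k) ∘ x := fun k =>
    measurable_pi_lambda _ fun i => (continuous_clip (L k)).measurable.comp (measurable_pi_apply i)
  have hmar : ∀ k, IsMarkovKernel (κ'.map fun x => clip (L k) ∘ x) := fun k =>
    Kernel.IsMarkovKernel.map _ (hcm k)
  have hprob : ∀ k, IsProbabilityMeasure (μ.map (cmap (clip (L k)))) := fun k =>
    Measure.isProbabilityMeasure_map (measurable_cmap (continuous_clip _).measurable).aemeasurable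
  have hh : ∀ k, Measurable fun q : SX D p => damp (mT s (zj E k))
      (κ'.map fun x => clip (L k) ∘ x) (u' k) j q.1 q.2 * g q := fun k =>
    (Lim1_meas_damp (hmk k) _ _ j).mul hg
  have hT1 := fun k => Lim1_tri μ (measM_BS p s (zj E k) (hmk k)) (u' k)
    (continuous_clip (L k)).measurable
    (Lim1_meas (hmk k) (κ'.map fun x => clip (L k) ∘ x) (u' k) j a (hh k))
  have hT0 := (Lim1_tri μ (measM_BS p s E hm0) u measurable_id
    (Lim1_meas hm0 κ' u j a ((Lim1_meas_damp hm0 κ' u j).mul hg))).2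
  have e0 : (cmap id : SX D p → SX D p) = id := rfl
  rw [e0, Measure.map_id] at hT0
  refine hT0.trans ?_
  -- the bound from `Weak`
  have hb : ∀ k, ‖∫ w, resid (mT s (zj E k)) (κ'.map fun x => clip (L k) ∘ x) (u' k) j a w.1.1
      w.1.2 w.2 * ((damp (mT s (zj E k)) (κ'.map fun x => clip (L k) ∘ x) (u' k) j w.1.1 w.2 *
        g (w.1.1, w.2) : ℝ) : ℂ)
      ∂(tri (μ.map (cmap (clip (L k)))) (BS p s (zj E k) (mT s (zj E k))) (u' k))‖ ^ 2 ≤ |r k| := by
    intro k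
    have := tri_prob (μ.map (cmap (clip (L k)))) (measM_BS p s (zj E k) (hmk k)) (u' k)
    refine (hW k j a _ (hh k) fun q => ?_).trans ((le_abs_self _).trans ?_)
    · obtain ⟨a1, -, a3⟩ := Lim1_damp_le (mT s (zj E k)) (κ'.map fun x => clip (L k) ∘ x) (u' k) j
        q.1 q.2
      rw [abs_mul, abs_of_nonneg a1]
      exact mul_le_one₀ a3 (abs_nonneg _) (hg1 q)
    · rw [abs_mul]
      refine mul_le_of_le_one_right (abs_nonneg _) ?_
      rw [← Real.norm_eq_abs]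
      refine (norm_integral_le_of_norm_le_const (C := 1) (Eventually.of_forall fun w => ?_)).trans
        (by simp)
      obtain ⟨a1, a2, a3⟩ := Lim1_damp_le (mT s (zj E k)) (κ'.map fun x => clip (L k) ∘ x) (u' k) j
        w.1.1 w.2
      have a4 := Complex.abs_im_le_norm (mT s (zj E k) (w.1.1.2 j))
      have a5 : g (w.1.1, w.2) ^ 2 ≤ 1 := (sq_le_one_iff_abs_le_one _).2 (hg1 _)
      rw [Real.norm_eq_abs, abs_mul, abs_sq, mul_pow]
      set d := damp (mT s (zj E k)) (κ'.map fun x => clip (L k) ∘ x) (u' k) j w.1.1 w.2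
      have a6 : |(mT s (zj E k) (w.1.1.2 j)).im| * d ≤ 1 := by nlinarith
      have a7 : |(mT s (zj E k) (w.1.1.2 j)).im| * d * d ≤ 1 := mul_le_one₀ a6 a1 a3
      calc _ = |(mT s (zj E k) (w.1.1.2 j)).im| * d * d * g (w.1.1, w.2) ^ 2 := by ring
        _ ≤ 1 := mul_le_one₀ a7 (sq_nonneg _) a5
  -- almost every environment is good
  have hgood : ∀ᵐ σ ∂(starLaw D β),
      (∀ i, Tendsto (fun k => mT s (zj E k) (σ.2 i)) atTop (𝓝 (m0 s E (σ.2 i))) ∧
        0 < (m0 s E (σ.2 i)).im) ∧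
      (Tendsto (fun k => mT s (zj E k) (outEnv σ j)) atTop (𝓝 (m0 s E (outEnv σ j))) ∧
        0 < (m0 s E (outEnv σ j)).im) ∧ Continuous fun y => g (σ, y) := by
    refine (ae_all_iff.2 fun i => ?_).and (Eventually.and ?_ hgc)
    · have a1 := hT.1
      rw [← map_star_snd β i] at a1
      exact ae_of_ae_map ((measurable_pi_apply i).comp measurable_snd).aemeasurable a1
    · have a1 : ∀ᵐ e ∂(env2 D β), Tendsto (fun k => mT s (zj E k) e.1) atTop (𝓝 (m0 s E e.1)) ∧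
          0 < (m0 s E e.1).im := Measure.quasiMeasurePreserving_fst.ae hT.1
      rw [← map_eEnv β j] at a1
      exact ae_of_ae_map (continuous_eEnv j).measurable.aemeasurable a1
  have hfst : μ.map Prod.fst = starLaw D β := by
    rw [hd.star]; exact Measure.fst_compProd _ _
  rw [← hfst] at hgood
  have hgood2 := (Measure.quasiMeasurePreserving_fst (μ := μ)
    (ν := gpi ((SV D ⊕ SV D) × Fin p))).ae (ae_of_ae_map measurable_fst.aemeasurable hgood)
  have hint : Integrable (fun w : SX D p × ((SV D ⊕ SV D) × Fin p → ℝ) => ‖w.1.2‖ + 1)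
      (μ.prod (gpi ((SV D ⊕ SV D) × Fin p))) :=
    ((hμ.sq.integrable one_le_two).norm.comp_fst _).add (integrable_const _)
  have hdct := tendsto_integral_of_dominated_convergence _
    (fun k => (hT1 (φ k)).1.aestronglyMeasurable) hint
    (fun k => Eventually.of_forall fun w => (Lim1_bound _ _ _ j a _ _ _ (hg1 _)).trans (by
      refine add_le_add ((pi_norm_le_iff_of_nonneg (norm_nonneg _)).2 fun i => ?_) le_rfl
      exact (abs_clip_le (hL0 _) _).2.trans (norm_le_pi_norm w.1.2 i)))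
    (hgood2.mono fun w hw => Lim1_pt (s := s) κ' ((tendsto_zj E).comp hφ') (hL.comp hφ') hlim
      (lt_of_lt_of_le one_pos hu.1) j a w.1.1 (mf := fun k => mT s (zj E (φ k))) (m := m0 s E)
      (fun i => ⟨(hw.1 i).1.comp hφ', (hw.1 i).2⟩) ⟨hw.2.1.1.comp hφ', hw.2.1.2⟩ hw.2.2 w.1.2 w.2)
  have h0 : Tendsto (fun k => |r (φ k)|) atTop (𝓝 0) := by
    simpa using (hr.comp hφ').abs
  have hle := le_of_tendsto_of_tendsto' (hdct.norm.pow 2) h0 fun k => by
    have := hb (φ k)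
    rw [(hT1 (φ k)).2] at this
    exact this
  exact norm_eq_zero.1 (pow_eq_zero_iff two_ne_zero |>.1 (le_antisymm hle (sq_nonneg _)))

end Crest.Agent.R166.B
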