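import Crest.Agent.R166.B.Bayes0

/-! # Continuity of the posterior mean -/

set_option autoImplicit false
set_option linter.unusedVariables false
set_option linter.unusedSectionVars false

open MeasureTheory ProbabilityTheory Filter Topology Matrix
open scoped ENNReal BoundedContinuousFunction Kronecker

namespace Crest.Agent.R166.B

section
variable {K N S : Type} [Fintype K] [Fintype N] [MeasurableSpace S]

private theorem coer {P : Matrix K K ℝ} (hP : P.PosDef) :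
    ∃ c : ℝ, 0 < c ∧ ∀ᶠ Q in 𝓝 P, ∀ x : K → ℝ, c * ‖x‖ ^ 2 ≤ x ⬝ᵥ Q *ᵥ x := by
  have hc : Continuous fun w : Matrix K K ℝ × (K → ℝ) => w.2 ⬝ᵥ w.1 *ᵥ w.2 := by fun_prop
  obtain ⟨c, hc0, hc1⟩ := (isCompact_sphere (0 : K → ℝ) 1).exists_forall_le'
    (f := fun x => x ⬝ᵥ P *ᵥ x) (by fun_prop) (a := 0) fun x hx => by
      have hx0 : x ≠ 0 := by
        rintro rfl
        simp at hx
      simpa using hP.dotProduct_mulVec_pos hx0
  refine ⟨c / 2, by linarith, ?_⟩
  have h1 : ∀ᶠ Q in 𝓝 P, ∀ x ∈ Metric.sphere (0 : K → ℝ) 1, c / 2 < x ⬝ᵥ Q *ᵥ x :=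
    (isCompact_sphere (0 : K → ℝ) 1).eventually_forall_of_forall_eventually fun x hx =>
      (hc.tendsto (P, x)).eventually_const_lt (by linarith [hc1 x hx])
  refine h1.mono fun Q hQ x => ?_
  by_cases hx : x = 0
  · simp [hx]
  · have hn : 0 < ‖x‖ := norm_pos_iff.2 hx
    have h2 := hQ (‖x‖⁻¹ • x) (by simp [norm_smul, hn.ne'])
    rw [mulVec_smul, smul_dotProduct, dotProduct_smul, smul_eq_mul, smul_eq_mul, ← mul_assoc,
      ← sq, inv_pow, ← div_eq_inv_mul, lt_div_iff₀ (by positivity)] at h2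
    exact h2.le

private theorem dot_le (x v : K → ℝ) : x ⬝ᵥ v ≤ ‖x‖ * ∑ k, |v k| := by
  rw [dotProduct, Finset.mul_sum]
  refine Finset.sum_le_sum fun k _ => (le_abs_self _).trans ?_
  rw [abs_mul]
  exact mul_le_mul_of_nonneg_right (norm_le_pi_norm x k) (abs_nonneg _)

private theorem tendsto_int {ι : Type} {l : Filter ι} [l.IsCountablyGenerated]
    (κ : Measure (K → ℝ)) [IsProbabilityMeasure κ] {P : Matrix K K ℝ} (hP : P.PosDef) {u : ℝ}
    (hu : 0 < u) {y : K → ℝ} {P' : ι → Matrix K K ℝ} {u' : ι → ℝ} {y' : ι → K → ℝ} {c : ι → ℝ → ℝ}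
    (h1 : Tendsto P' l (𝓝 P)) (h2 : Tendsto u' l (𝓝 u)) (h3 : Tendsto y' l (𝓝 y))
    (hc : ∀ i, Measurable (c i)) (h4 : ∀ t, Tendsto (fun i => c i t) l (𝓝 t))
    {g : (K → ℝ) → ℝ} (hg : Continuous g) (hgb : ∀ x, |g x| ≤ Real.exp ‖x‖) :
    Tendsto (fun i => ∫ x, wt (P' i) (u' i) (y' i) x * g x ∂(κ.map fun x => c i ∘ x)) l
      (𝓝 (∫ x, wt P u y x * g x ∂κ)) := by
  have hm : ∀ i, Measurable fun x : K → ℝ => c i ∘ x := fun i =>
    measurable_pi_lambda _ fun k => (hc i).comp (measurable_pi_apply k)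
  have hW : Continuous fun w : (Matrix K K ℝ × ℝ × (K → ℝ)) × (K → ℝ) =>
      wt w.1.1 w.1.2.1 w.1.2.2 w.2 * g w.2 := by
    unfold wt
    fun_prop
  have hW' : ∀ i, Continuous fun x => wt (P' i) (u' i) (y' i) x * g x := fun i =>
    hW.comp (Continuous.prodMk_right (P' i, u' i, y' i))
  simp only [fun i => integral_map (μ := κ) (hm i).aemeasurable (hW' i).aestronglyMeasurable]
  obtain ⟨a, ha, hco⟩ := coer hP
  set A : ℝ := ∑ k, |(P *ᵥ y) k| + 1 with hA
  have hA' : ∀ᶠ i in l, ∑ k, |(P' i *ᵥ y' i) k| < A := by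
    have h5 : Continuous fun w : Matrix K K ℝ × (K → ℝ) => ∑ k, |(w.1 *ᵥ w.2) k| := by fun_prop
    exact ((h5.tendsto (P, y)).comp (h1.prodMk_nhds h3)).eventually_lt_const (by simp [hA])
  refine tendsto_integral_filter_of_dominated_convergence
    (fun _ => Real.exp ((A + 1) ^ 2 / (u * a)))
    (Eventually.of_forall fun i => ((hW' i).measurable.comp (hm i)).aestronglyMeasurable) ?_
    (integrable_const _) (Eventually.of_forall fun x => ?_)
  · filter_upwards [h1.eventually hco, hA', h2.eventually_const_lt (show u / 2 < u by linarith)]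
      with i h5 h6 h7
    refine Eventually.of_forall fun x => ?_
    generalize c i ∘ x = z
    rw [Real.norm_eq_abs, abs_mul, abs_of_pos (wt_pos _ _ _ _)]
    refine (mul_le_mul_of_nonneg_left (hgb z) (wt_pos _ _ _ _).le).trans ?_
    rw [wt, ← Real.exp_add, Real.exp_le_exp]
    have h8 := (dot_le z (P' i *ᵥ y' i)).trans (mul_le_mul_of_nonneg_left h6.le (norm_nonneg z))
    have h9 : u / 4 * (a * ‖z‖ ^ 2) ≤ u' i / 2 * (z ⬝ᵥ P' i *ᵥ z) :=
      mul_le_mul (by linarith) (h5 z) (by positivity) (by linarith)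
    have h10 : (A + 1) * ‖z‖ - u / 4 * (a * ‖z‖ ^ 2) ≤ (A + 1) ^ 2 / (u * a) := by
      rw [le_div_iff₀ (by positivity)]
      nlinarith [sq_nonneg (A + 1 - u * a * ‖z‖ / 2)]
    linarith
  · have h5 : Tendsto (fun i => c i ∘ x) l (𝓝 x) := tendsto_pi_nhds.2 fun k => h4 (x k)
    have h6 := (hW.tendsto ((P, u, y), x)).comp
      ((h1.prodMk_nhds (h2.prodMk_nhds h3)).prodMk_nhds h5)
    simpa only [Function.comp_def] using h6

/-- Dominated convergence: near `(P, u, y)` the functions `x ↦ wt P' u' y' x * (1 + ‖x‖)` are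
uniformly bounded (`x P' x ≥ c ‖x‖²`). -/
theorem tendsto_Mf {ι : Type} {l : Filter ι} [l.IsCountablyGenerated] (κ : Measure (K → ℝ))
    [IsProbabilityMeasure κ] {P : Matrix K K ℝ} (hP : P.PosDef) {u : ℝ} (hu : 0 < u) {y : K → ℝ}
    {P' : ι → Matrix K K ℝ} {u' : ι → ℝ} {y' : ι → K → ℝ} {c : ι → ℝ → ℝ}
    (h1 : Tendsto P' l (𝓝 P)) (h2 : Tendsto u' l (𝓝 u)) (h3 : Tendsto y' l (𝓝 y))
    (hc : ∀ i, Measurable (c i)) (h4 : ∀ t, Tendsto (fun i => c i t) l (𝓝 t)) :
    Tendsto (fun i => Mf (P' i) (κ.map fun x => c i ∘ x) (u' i) (y' i)) l (𝓝 (Mf P κ u y)) := by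
  refine tendsto_pi_nhds.2 fun k => ?_
  have hZ := tendsto_int κ hP hu h1 h2 h3 hc h4 (g := fun _ => 1) continuous_const
    fun x => by simp
  simp only [mul_one] at hZ
  have hN := tendsto_int κ hP hu h1 h2 h3 hc h4 (g := fun x => x k) (continuous_apply k) fun x =>
    (norm_le_pi_norm x k).trans (by linarith [Real.add_one_le_exp ‖x‖])
  have h0 : 0 < Zf P κ u y := Zf_pos (integrable_wt hP.posSemidef hu.le (Or.inl hu))
  unfold Mf Zf
  exact hN.div hZ h0.ne'

theorem continuous_Mf (κ : Measure (K → ℝ)) [IsProbabilityMeasure κ] {P : Matrix K K ℝ}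
    (hP : P.PosDef) {u : ℝ} (hu : 0 < u) : Continuous (Mf P κ u) := by
  refine continuous_iff_continuousAt.2 fun y => ?_
  have := tendsto_Mf (l := 𝓝 y) κ hP hu (P' := fun _ => P) (u' := fun _ => u) (y' := id)
    (c := fun _ => id) tendsto_const_nhds tendsto_const_nhds tendsto_id (fun _ => measurable_id)
    fun _ => tendsto_const_nhds
  simpa [ContinuousAt] using this

end

end Crest.Agent.R166.B
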