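import Crest.Agent.R166.B.Defs
import Crest.Agent.R166.G2

/-! # Counting the pairings compatible with a labelling -/

set_option autoImplicit false
set_option linter.unusedVariables false
set_option linter.unusedSectionVars false

open MeasureTheory ProbabilityTheory Filter Topology Matrix
open scoped ENNReal BoundedContinuousFunction Kronecker

namespace Crest.Agent.R166.B

open Classical in
/-- number of pairings compatible with the half-edge labels -/
noncomputable def nComp {n D : ℕ} {H : Type} (ℓ : HE n D → H × H) : ℕ :=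
  ((allPairings n D).filter fun π => ∀ h, ℓ (π h) = (ℓ h).swap).card

section Aux
open Finset Nat

private theorem log_fact_le (k : ℕ) :
    Real.log (k ! : ℕ) ≤ 1 + Real.log k + k * Real.log k - k := by
  induction k with
  | zero => simp
  | succ k ih =>
    rcases Nat.eq_zero_or_pos k with rfl | hk
    · simp
    have hk' : (0 : ℝ) < k := Nat.cast_pos.2 hk
    have h1 := Real.log_le_sub_one_of_pos (div_pos hk' (by linarith : (0 : ℝ) < k + 1))
    rw [Real.log_div hk'.ne' (by linarith)] at h1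
    have h2 := mul_le_mul_of_nonneg_left h1 (by linarith : (0 : ℝ) ≤ k + 1)
    rw [mul_sub (k + 1 : ℝ) _ 1, mul_div_cancel₀ _ (by linarith)] at h2
    rw [Nat.factorial_succ, Nat.cast_mul, Real.log_mul (by positivity) (by positivity)]
    push_cast
    nlinarith

private theorem le_log_fact (k : ℕ) : k * Real.log k - k ≤ Real.log (k ! : ℕ) := by
  rcases Nat.eq_zero_or_pos k with rfl | hk
  · simp
  have hk' : (0 : ℝ) < k := Nat.cast_pos.2 hk
  have h := Real.log_le_log (by positivity) (Real.pow_div_factorial_le_exp (k : ℝ) hk'.le k)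
  rw [Real.log_div (by positivity) (by positivity), Real.log_pow, Real.log_exp] at h
  linarith

variable {α H : Type} [Fintype α] [DecidableEq α] [Fintype H] [DecidableEq H]

private theorem sum_compat_le {π : Equiv.Perm α} (h1 : ∀ h, π (π h) = h) (h2 : ∀ h, π h ≠ h)
    {L : H × H → ℝ} (h0 : ∀ b, 0 ≤ L b) (hL : ∑ b, L b ≤ 1) :
    ∑ l ∈ univ.filter (fun l : α → H × H => ∀ h, l (π h) = (l h).swap), ∏ h, √(L (l h)) ≤ 1 := by
  let r := Fintype.equivFin α
  let R := {h : α // r h < r (π h)}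
  have hR : ∀ h, ¬ r h < r (π h) → r (π h) < r (π (π h)) := fun h h3 => by
    rw [h1]
    exact lt_of_le_of_ne (not_lt.1 h3) fun h4 => h2 h (r.injective h4)
  have h3 : ∀ f : α → ℝ, ∏ h, f h = ∏ h : R, f h * f (π h) := fun f => by
    rw [prod_mul_distrib, ← Fintype.prod_subtype_mul_prod_subtype fun h => r h < r (π h)]
    congr 1
    refine (Fintype.prod_equiv (π.subtypeEquiv fun h => ?_) _ _ fun _ => rfl).symm
    rw [h1]
    exact ⟨fun h4 => not_lt.2 h4.le, fun h4 => lt_of_le_of_ne (not_lt.1 h4)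
      fun h5 => h2 h (r.injective h5).symm⟩
  calc _ = ∑ l ∈ univ.filter (fun l : α → H × H => ∀ h, l (π h) = (l h).swap),
        ∏ h : R, √(L (l h)) * √(L (l h).swap) :=
        sum_congr rfl fun l hl => by simp only [h3, (mem_filter.1 hl).2]
    _ ≤ ∑ g : R → H × H, ∏ h, √(L (g h)) * √(L (g h).swap) := by
        rw [← sum_image (g := fun (l : α → H × H) (h : R) => l h)
          (f := fun g => ∏ h, √(L (g h)) * √(L (g h).swap))]
        · exact sum_le_sum_of_subset_of_nonneg (subset_univ _) fun _ _ _ => by positivity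
        · intro l hl l' hl' h4
          funext h
          by_cases h5 : r h < r (π h)
          · exact congrFun h4 ⟨h, h5⟩
          · have := congrFun h4 ⟨π h, hR h h5⟩
            simp only [(mem_filter.1 hl).2, (mem_filter.1 hl').2] at this
            exact Prod.swap_injective this
    _ ≤ 1 := by
        rw [← Fintype.piFinset_univ,
          ← prod_univ_sum (fun _ => univ) fun (_ : R) (b : H × H) => √(L b) * √(L b.swap)]
        refine prod_le_one (fun _ _ => by positivity) fun _ _ => ?_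
        have h4 : ∑ b : H × H, L b.swap = ∑ b, L b := Equiv.sum_comp (Equiv.prodComm H H) L
        have h5 : ∀ b : H × H, √(L b) * √(L b.swap) ≤ (L b + L b.swap) / 2 := fun b => by
          nlinarith [sq_nonneg (√(L b) - √(L b.swap)), Real.sq_sqrt (h0 b), Real.sq_sqrt (h0 b.swap)]
        refine (sum_le_sum fun b _ => h5 b).trans ?_
        rw [← sum_div, sum_add_distrib]
        linarith

private theorem card_fib_le (ℓ l : α → H × H) :
    #(univ.filter fun τ : Equiv.Perm α => ℓ ∘ τ = l) ≤ ∏ b, (Fintype.card {h // ℓ h = b})! := by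
  rw [← DomMulAct.stabilizer_card, Fintype.card_subtype]
  rcases (univ.filter fun τ : Equiv.Perm α => ℓ ∘ τ = l).eq_empty_or_nonempty with h | ⟨τ₀, h⟩
  · simp [h]
  refine card_le_card_of_injOn (fun τ => τ * τ₀⁻¹) (fun τ hτ => ?_) fun _ _ _ _ => mul_right_cancel
  simp only [coe_filter, mem_filter, mem_univ, true_and, Set.mem_ofPred_eq] at hτ h ⊢
  funext a
  simpa using congrFun (hτ.trans h.symm) (τ₀⁻¹ a)

private theorem card_perm_le {π : Equiv.Perm α} (h1 : ∀ h, π (π h) = h) (h2 : ∀ h, π h ≠ h)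
    {L : H × H → ℝ} (h0 : ∀ b, 0 ≤ L b) (hL : ∑ b, L b ≤ 1) (ℓ : α → H × H) :
    (#(univ.filter fun τ : Equiv.Perm α => ∀ h, ℓ (τ (π h)) = (ℓ (τ h)).swap) : ℝ) *
      ∏ h, √(L (ℓ h)) ≤ (∏ b, (Fintype.card {h // ℓ h = b})! : ℕ) := by
  rw [card_eq_sum_card_fiberwise (f := fun τ : Equiv.Perm α => ℓ ∘ τ)
    (t := univ.filter fun l : α → H × H => ∀ h, l (π h) = (l h).swap)
    fun τ hτ => by simpa using hτ, Nat.cast_sum, sum_mul]
  refine le_trans (sum_le_sum fun l _ => ?_) ((mul_sum _ _ _).symm.le.trans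
    (mul_le_of_le_one_right (Nat.cast_nonneg _) (sum_compat_le h1 h2 h0 hL)))
  rcases ((univ.filter fun τ : Equiv.Perm α => ∀ h, ℓ (τ (π h)) = (ℓ (τ h)).swap).filter
    fun τ : Equiv.Perm α => ℓ ∘ τ = l).eq_empty_or_nonempty with h | ⟨τ, h⟩
  · rw [h, card_empty, Nat.cast_zero, zero_mul]
    positivity
  · rw [← Equiv.prod_comp τ fun h => √(L (ℓ h)), ← (mem_filter.1 h).2]
    refine mul_le_mul_of_nonneg_right (Nat.cast_le.2 (le_trans (card_le_card ?_)
      (card_fib_le ℓ (ℓ ∘ τ)))) (by positivity)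
    exact filter_subset_filter _ (subset_univ _)

private theorem fact_mul_le {A : Finset (Equiv.Perm α)}
    (hA : ∀ π, π ∈ A ↔ (∀ h, π (π h) = h) ∧ ∀ h, π h ≠ h)
    {L : H × H → ℝ} (h0 : ∀ b, 0 ≤ L b) (hL : ∑ b, L b ≤ 1) (ℓ : α → H × H) :
    ((Fintype.card α)! : ℕ) * (#(A.filter fun π => ∀ h, ℓ (π h) = (ℓ h).swap) : ℝ) *
      ∏ h, √(L (ℓ h)) ≤ #A * (∏ b, (Fintype.card {h // ℓ h = b})! : ℕ) := by
  have h1 : (Fintype.card α)! * #(A.filter fun π => ∀ h, ℓ (π h) = (ℓ h).swap) ≤
      ∑ π ∈ A, #(univ.filter fun τ : Equiv.Perm α => ∀ h, ℓ (τ (π h)) = (ℓ (τ h)).swap) := by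
    rw [sum_congr rfl fun π _ => card_filter _ univ, sum_comm, ← Fintype.card_perm, ← Finset.card_univ, ← smul_eq_mul, ← sum_const]
    refine sum_le_sum fun τ _ => ?_
    rw [← card_filter]
    refine card_le_card_of_injOn (fun π => τ⁻¹ * π * τ) (fun π hπ => ?_) fun _ _ _ _ h =>
      mul_left_cancel (mul_right_cancel h)
    simp only [coe_filter, hA, Set.mem_ofPred_eq] at hπ ⊢
    refine ⟨⟨fun h => by simp [hπ.1.1], fun h h2 => hπ.1.2 (τ h) ?_⟩, fun h => by simp [hπ.2]⟩
    simpa using congrArg τ h2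
  rw [← Nat.cast_mul]
  refine (mul_le_mul_of_nonneg_right (Nat.cast_le.2 h1) (by positivity)).trans ?_
  rw [Nat.cast_sum, sum_mul, ← nsmul_eq_mul, ← sum_const]
  exact sum_le_sum fun π hπ => card_perm_le ((hA π).1 hπ).1 ((hA π).1 hπ).2 h0 hL ℓ

end Aux

/-- `N = n (D+1)`, `N_b = #{ℓ = b}`, `L b = N_b / N`, `Hent = Σ negMulLog (L b)`.
Count pairs `(τ, π)`, `τ : Perm`, `π ∈ allPairings`, `ℓ ∘ τ` compatible with `π`: for fixed `τ`
the map `π ↦ τ π τ⁻¹` is a bijection, so there are `N! * nComp ℓ` of them.  For fixed `π`: each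
`ℓ' = ℓ ∘ τ` comes from `Π N_b!` permutations (`DomMulAct.stabilizer_card`), and the number of
compatible `ℓ'` in the orbit is `≤ exp (N Hent / 2)`: `Π_h √(L (ℓ' h)) = exp (-N Hent / 2)` on the
orbit, while the sum of this product over all compatible `ℓ'` is
`≤ Π_{h ∈ R} Σ_b √(L b) √(L b.swap) ≤ 1` (`R = {h | h < π h}` for a linear order,
`Finset.prod_univ_sum`).  Finally `k! ≤ e (k+1) (k/e)^k`, `(N/e)^N ≤ N!`
(`Real.pow_div_factorial_le_exp`). -/
theorem log_nComp_le {n D : ℕ} {H : Type} [Fintype H] (ℓ : HE n D → H × H) (h0 : nComp ℓ ≠ 0) :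
    Real.log (nComp ℓ) ≤ Real.log (allPairings n D).card +
      Fintype.card (H × H) * (1 + Real.log (n * (D + 1) + 1)) -
      n * (D + 1) / 2 * ∑ b, Real.negMulLog (frac fun h => ℓ h = b) := by
  classical
  set N : ℝ := n * (D + 1) with hN
  have hc : (Fintype.card (HE n D) : ℝ) = N := by simp [hN]
  have hN0 : 0 ≤ N := by positivity
  set c : H × H → ℕ := fun b => Fintype.card {h // ℓ h = b} with hcd
  have hf : ∀ b, (frac fun h => ℓ h = b) = c b / N := fun b => by
    rw [frac_eq_card, hc, hcd]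
    simp only [Fintype.card_subtype]
    congr
  have hs : ∀ F : H × H → ℝ, ∑ h, F (ℓ h) = ∑ b, c b * F b := fun F => by
    rw [← Finset.sum_fiberwise' Finset.univ ℓ F]
    simp only [hcd, Fintype.card_subtype, Finset.sum_const, nsmul_eq_mul]
  have hs1 : ∑ b, (c b : ℝ) = N := by simpa [hc] using (hs fun _ => 1).symm
  have hL : ∑ b, c b / N ≤ 1 := by rw [← Finset.sum_div, hs1]; exact div_self_le_one _
  have h1 := fact_mul_le (A := allPairings n D) (fun π => by simp [allPairings])
    (L := fun b => c b / N) (fun b => by positivity) hL ℓ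
  have h2 : (0 : ℝ) < nComp ℓ := Nat.cast_pos.2 (Nat.pos_of_ne_zero h0)
  have h3 : ∀ h, 0 < c (ℓ h) / N := fun h => div_pos
    (Nat.cast_pos.2 (Fintype.card_pos_iff.2 ⟨⟨h, rfl⟩⟩)) (hc ▸ Nat.cast_pos.2 (Fintype.card_pos_iff.2 ⟨h⟩))
  have h4 : ((allPairings n D).filter fun π => ∀ h, ℓ (π h) = (ℓ h).swap).card = nComp ℓ := by
    unfold nComp; congr
  have h5 : (0 : ℝ) < (allPairings n D).card :=
    h2.trans_le (Nat.cast_le.2 (h4 ▸ Finset.card_filter_le _ _))
  have h6 : 0 < ∏ h, √(c (ℓ h) / N) := Finset.prod_pos fun h _ => Real.sqrt_pos.2 (h3 h)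
  rw [h4] at h1
  have h7 := Real.log_le_log (by positivity) h1
  rw [Real.log_mul (by positivity) h6.ne', Real.log_mul (by positivity) h2.ne',
    Real.log_mul h5.ne' (by positivity), Real.log_prod fun h _ => (Real.sqrt_pos.2 (h3 h)).ne',
    Nat.cast_prod, Real.log_prod fun b _ => by positivity,
    hs fun b => Real.log √(c b / N)] at h7
  have h8 := le_log_fact (Fintype.card (HE n D))
  rw [hc] at h8
  have h9 : ∀ b, Real.log ((c b).factorial : ℕ) - c b * Real.log √(c b / N) ≤
      1 + Real.log (N + 1) + (c b * Real.log N - c b) - N / 2 * Real.negMulLog (c b / N) := fun b => by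
    have k1 := log_fact_le (c b)
    have k2 : (c b : ℝ) ≤ N := hc ▸ Nat.cast_le.2 (Fintype.card_subtype_le _)
    rcases Nat.eq_zero_or_pos (c b) with k3 | k3
    · simpa [k3] using add_nonneg zero_le_one (Real.log_nonneg (by linarith : 1 ≤ N + 1))
    have k4 : (0 : ℝ) < c b := Nat.cast_pos.2 k3
    have k5 := Real.log_le_log k4 (by linarith : (c b : ℝ) ≤ N + 1)
    have k6 : N / 2 * Real.negMulLog (c b / N) = -(c b * Real.log (c b / N)) / 2 := by
      rw [Real.negMulLog]; field_simp [(k4.trans_le k2).ne']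
    rw [k6, Real.log_sqrt (by positivity), Real.log_div k4.ne' (k4.trans_le k2).ne']
    linarith
  have h10 := Finset.sum_le_sum fun b (_ : b ∈ Finset.univ) => h9 b
  simp only [Finset.sum_sub_distrib, Finset.sum_add_distrib (g := fun b => c b * Real.log N - c b),
    ← Finset.sum_mul, ← Finset.mul_sum, hs1, Finset.sum_const, Finset.card_univ, nsmul_eq_mul] at h10
  simp only [hf]
  linarith

end Crest.Agent.R166.B
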