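import Crest.Agent.R166.B.Bayes
import Crest.Agent.R166.B.MCont

/-! # Measurability and continuity of the posterior -/

set_option autoImplicit false
set_option linter.unusedVariables false
set_option linter.unusedSectionVars false

open MeasureTheory ProbabilityTheory Filter Topology Matrix
open scoped ENNReal BoundedContinuousFunction Kronecker

namespace Crest.Agent.R166.B

section
variable {K N S : Type} [Fintype K] [Fintype N] [MeasurableSpace S]

theorem measurable_ob {B : S → Matrix K N ℝ} (hB : MeasM B) (u : ℝ) :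
    Measurable fun w : (S × (K → ℝ)) × (N → ℝ) => ob (B w.1.1) u w.1.2 w.2 := by
  refine measurable_pi_lambda _ fun k => ?_
  simp only [ob, Pi.add_apply, Pi.smul_apply, smul_eq_mul, mulVec, dotProduct]
  refine Measurable.add (by fun_prop) (Measurable.const_mul ?_ _)
  exact Finset.measurable_sum _ fun n _ =>
    ((hB k n).comp (measurable_fst.comp measurable_fst)).mul (by fun_prop)

theorem measurable_form {P : S → Matrix K K ℝ} (hP : MeasM P) {x y : S → K → ℝ}
    (hx : Measurable x) (hy : Measurable y) : Measurable fun σ => x σ ⬝ᵥ P σ *ᵥ y σ := by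
  simp only [mulVec, dotProduct]
  exact Finset.measurable_sum _ fun k _ => ((measurable_pi_apply k).comp hx).mul
    (Finset.measurable_sum _ fun l _ => (hP k l).mul ((measurable_pi_apply l).comp hy))

theorem MeasM.comp {S' I I' : Type} [MeasurableSpace S'] {A : S → Matrix I I' ℝ} (h : MeasM A)
    {f : S' → S} (hf : Measurable f) : MeasM fun σ => A (f σ) := fun i j => (h i j).comp hf

private theorem Meas_wt {P : S → Matrix K K ℝ} (hP : MeasM P) (u : ℝ) :
    Measurable fun w : (S × (K → ℝ)) × (K → ℝ) => wt (P w.1.1) u w.1.2 w.2 := by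
  have hP' := hP.comp (measurable_fst.comp (measurable_fst (α := S × (K → ℝ)) (β := K → ℝ)))
  exact ((measurable_form hP' measurable_snd (measurable_snd.comp measurable_fst)).sub
    ((measurable_form hP' measurable_snd measurable_snd).const_mul _)).exp

/-- `StronglyMeasurable.integral_kernel_prod_right` with the kernel `κ.prodMkRight` -/
theorem measurable_Zf {P : S → Matrix K K ℝ} (hP : MeasM P) (κ : Kernel S (K → ℝ))
    [IsMarkovKernel κ] (u : ℝ) :
    Measurable fun w : S × (K → ℝ) => Zf (P w.1) (κ w.1) u w.2 := by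
  exact ((Meas_wt hP u).stronglyMeasurable.integral_kernel_prod_right'
    (κ := κ.prodMkRight (K → ℝ))).measurable

theorem measurable_Mf {P : S → Matrix K K ℝ} (hP : MeasM P) (κ : Kernel S (K → ℝ))
    [IsMarkovKernel κ] (u : ℝ) :
    Measurable fun w : S × (K → ℝ) => Mf (P w.1) (κ w.1) u w.2 := by
  refine measurable_pi_lambda _ fun k => Measurable.div ?_ (measurable_Zf hP κ u)
  exact (((Meas_wt hP u).mul ((measurable_pi_apply k).comp measurable_snd)
    ).stronglyMeasurable.integral_kernel_prod_right' (κ := κ.prodMkRight (K → ℝ))).measurable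

theorem measurable_psi {P : S → Matrix K K ℝ} {B : S → Matrix K N ℝ} (hP : MeasM P) (hB : MeasM B)
    (κ : Kernel S (K → ℝ)) [IsMarkovKernel κ] (u : ℝ) :
    Measurable fun σ => psi (P σ) (B σ) (κ σ) u := by
  have h1 : Measurable fun w : (S × (K → ℝ)) × (N → ℝ) =>
      Real.log (Zf (P w.1.1) (κ w.1.1) u (ob (B w.1.1) u w.1.2 w.2)) :=
    ((measurable_Zf hP κ u).comp
      ((measurable_fst.comp measurable_fst).prodMk (measurable_ob hB u))).log
  exact ((h1.stronglyMeasurable.integral_prod_right' (ν := gpi N)).integral_kernel_prod_right'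
    (κ := κ)).measurable

theorem measurable_mm {P : S → Matrix K K ℝ} {B : S → Matrix K N ℝ} (hP : MeasM P) (hB : MeasM B)
    (κ : Kernel S (K → ℝ)) [IsMarkovKernel κ] (u : ℝ) :
    Measurable fun σ => mm (P σ) (B σ) (κ σ) u := by
  have h0 : Measurable fun w : (S × (K → ℝ)) × (N → ℝ) =>
      Mf (P w.1.1) (κ w.1.1) u (ob (B w.1.1) u w.1.2 w.2) :=
    (measurable_Mf hP κ u).comp
      ((measurable_fst.comp measurable_fst).prodMk (measurable_ob hB u))
  have h1 := measurable_form (hP.comp (measurable_fst.comp measurable_fst)) h0 h0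
  exact ((h1.stronglyMeasurable.integral_prod_right' (ν := gpi N)).integral_kernel_prod_right'
    (κ := κ)).measurable

/-- relabelling the coordinates -/
theorem Mf_reindex {K' : Type} [Fintype K'] (e : K' ≃ K) (P : Matrix K K ℝ) (κ : Measure (K → ℝ))
    (u : ℝ) (y : K → ℝ) :
    Mf (P.submatrix e e) (κ.map fun x => x ∘ e) u (y ∘ e) = Mf P κ u y ∘ e := by
  have hw : ∀ x : K → ℝ, wt (P.submatrix e e) u (y ∘ e) (x ∘ e) = wt P u y x := fun x => by
    simp only [wt, submatrix_mulVec_equiv, Function.comp_assoc, Equiv.self_comp_symm,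
      Function.comp_id, comp_equiv_dotProduct_comp_equiv]
  let E : (K → ℝ) ≃ᵐ (K' → ℝ) := (MeasurableEquiv.piCongrLeft (fun _ : K => ℝ) e).symm
  have hE : (fun x : K → ℝ => x ∘ e) = E := rfl
  funext k
  simp only [Mf, Zf, Function.comp_apply]
  rw [hE, integral_map_equiv, integral_map_equiv, ← hE]
  simp only [hw, Function.comp_apply]

end

end Crest.Agent.R166.B
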