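import Crest.Agent.R166.B.Basic
import Crest.Agent.R166.B.GInt
import Crest.Agent.R166.Spec3

/-! # The noisy field on the graph: variance -/

set_option autoImplicit false
set_option linter.unusedVariables false
set_option linter.unusedSectionVars false

open MeasureTheory ProbabilityTheory Filter Topology Matrix
open scoped ENNReal BoundedContinuousFunction Kronecker

namespace Crest.Agent.R166.B

theorem NoiseV_cheb {A N : Type} [Fintype A] [Fintype N] {w : A → ℝ} {M : ℝ} (hw : ∀ v, |w v| ≤ M)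
    (a : A → ℝ) (b : A → N → ℝ) {ε : ℝ} (hε : 0 < ε) :
    gpi N {ξ | ε < |(avg fun v => w v * Real.cos (a v + b v ⬝ᵥ ξ)) -
        avg fun v => w v * ∫ ξ', Real.cos (a v + b v ⬝ᵥ ξ') ∂(gpi N)|} ≤
      ENNReal.ofReal (M ^ 2 * (avg fun v => avg fun u => |b v ⬝ᵥ b u|) / ε ^ 2) := by
  set m : A → ℝ := fun v => ∫ ξ', Real.cos (a v + b v ⬝ᵥ ξ') ∂(gpi N) with hm
  have hc : ∀ v, Continuous fun ξ : N → ℝ => Real.cos (a v + b v ⬝ᵥ ξ) := fun v => by fun_prop
  have i1 : ∀ v, Integrable (fun ξ : N → ℝ => Real.cos (a v + b v ⬝ᵥ ξ)) (gpi N) := fun v =>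
    Integrable.of_bound (hc v).aestronglyMeasurable 1 (ae_of_all _ fun ξ => Real.abs_cos_le_one _)
  have i2 : ∀ v u, Integrable (fun ξ : N → ℝ =>
      Real.cos (a v + b v ⬝ᵥ ξ) * Real.cos (a u + b u ⬝ᵥ ξ)) (gpi N) := fun v u =>
    (i1 u).bdd_mul (hc v).aestronglyMeasurable (ae_of_all _ fun ξ => Real.abs_cos_le_one _)
  let T : A → A → (N → ℝ) → ℝ := fun v u ξ => w v * w u *
    (Real.cos (a v + b v ⬝ᵥ ξ) * Real.cos (a u + b u ⬝ᵥ ξ) - m u * Real.cos (a v + b v ⬝ᵥ ξ) -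
      m v * Real.cos (a u + b u ⬝ᵥ ξ) + m v * m u)
  have i3 : ∀ v u, Integrable (fun ξ : N → ℝ =>
      Real.cos (a v + b v ⬝ᵥ ξ) * Real.cos (a u + b u ⬝ᵥ ξ) - m u * Real.cos (a v + b v ⬝ᵥ ξ))
      (gpi N) := fun v u => (i2 v u).sub ((i1 v).const_mul _)
  have i4 : ∀ v u, Integrable (fun ξ : N → ℝ =>
      Real.cos (a v + b v ⬝ᵥ ξ) * Real.cos (a u + b u ⬝ᵥ ξ) - m u * Real.cos (a v + b v ⬝ᵥ ξ) -
        m v * Real.cos (a u + b u ⬝ᵥ ξ)) (gpi N) := fun v u => (i3 v u).sub ((i1 u).const_mul _)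
  have iT : ∀ v u, Integrable (T v u) (gpi N) := fun v u =>
    ((i4 v u).add (integrable_const _)).const_mul _
  have hT : ∀ v u, ∫ ξ, T v u ξ ∂(gpi N) ≤ M ^ 2 * |b v ⬝ᵥ b u| := fun v u => by
    have h1 := cov_cos (a v) (a u) (b v) (b u)
    simp only [T]
    rw [integral_const_mul, integral_add (i4 v u) (integrable_const _),
      integral_sub (i3 v u) ((i1 u).const_mul _), integral_sub (i2 v u) ((i1 v).const_mul _),
      integral_const_mul, integral_const_mul, integral_const, probReal_univ, one_smul]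
    refine (le_abs_self _).trans ?_
    rw [abs_mul, abs_mul, sq]
    refine mul_le_mul (mul_le_mul (hw v) (hw u) (abs_nonneg _) ((abs_nonneg _).trans (hw v)))
      (le_trans (le_of_eq ?_) h1) (abs_nonneg _) (mul_self_nonneg _)
    congr 1
    simp only [hm]
    ring
  have hY : ∀ ξ, ((avg fun v => w v * Real.cos (a v + b v ⬝ᵥ ξ)) - avg fun v => w v * m v) ^ 2 =
      avg fun v => avg fun u => T v u ξ := fun ξ => by
    rw [← avg_sub, sq, ← avg_mul_const]
    refine avg_congr fun v => ?_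
    rw [← avg_const_mul]
    refine avg_congr fun u => ?_
    simp only [T]
    ring
  have iY : Integrable (fun ξ => avg fun v => avg fun u => T v u ξ) (gpi N) :=
    integrable_avg fun v => integrable_avg fun u => iT v u
  have h2 := mul_meas_ge_le_integral_of_nonneg (ae_of_all _ fun ξ => (hY ξ ▸ sq_nonneg _ :
    (0 : ℝ) ≤ avg fun v => avg fun u => T v u ξ)) iY (ε ^ 2)
  have h3 : ∫ ξ, (avg fun v => avg fun u => T v u ξ) ∂(gpi N) ≤
      M ^ 2 * avg fun v => avg fun u => |b v ⬝ᵥ b u| := by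
    rw [integral_avg (f := fun ξ v => avg fun u => T v u ξ) fun v => integrable_avg fun u => iT v u,
      ← avg_const_mul]
    refine avg_mono fun v => ?_
    rw [integral_avg (f := fun ξ u => T v u ξ) fun u => iT v u, ← avg_const_mul]
    exact avg_mono fun u => hT v u
  refine (measure_mono (t := {ξ | ε ^ 2 ≤ avg fun v => avg fun u => T v u ξ})
    fun ξ hξ => ?_).trans ?_
  · rw [Set.mem_ofPred_eq, ← hY, ← sq_abs (_ - _)]
    exact pow_le_pow_left₀ hε.le (le_of_lt hξ) 2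
  · rw [← ofReal_measureReal]
    refine ENNReal.ofReal_le_ofReal ?_
    rw [le_div_iff₀ (by positivity), mul_comm]
    exact h2.trans h3

theorem NoiseV_star {n D : ℕ} (π : Equiv.Perm (HE n D)) (a : SV D) {g : Fin n → ℝ}
    (hg : ∀ x, 0 ≤ g x) : ∑ v, g (starV π v a) ≤ (D + 1) * ∑ x, g x := by
  cases a with
  | none =>
    exact le_mul_of_one_le_left (Finset.sum_nonneg fun x _ => hg x) (by simp)
  | some i =>
    have h1 : ∑ h : HE n D, g (π h).1 = (D + 1) * ∑ x, g x := by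
      rw [Equiv.sum_comp π fun h => g h.1, Fintype.sum_prod_type]
      simp [Finset.mul_sum]
    rw [← h1, Fintype.sum_prod_type]
    exact Finset.sum_le_sum fun v _ => Finset.single_le_sum (f := fun j => g (π (v, j)).1)
      (fun _ _ => hg _) (Finset.mem_univ i)

theorem NoiseV_res {n : ℕ} {H : Matrix (Fin n) (Fin n) ℝ} (hH : H.IsSymm) {z : ℂ} (hz : 0 < z.im) :
    ∑ x, ∑ y, ‖res H z x y‖ ≤ n * (√n / z.im) := by
  rw [Finset.sum_comm]
  refine (Finset.sum_le_card_nsmul _ _ (√n / z.im) fun y _ => ?_).trans (by simp)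
  have h1 := res_mulVec_sq_le hH hz (Pi.single y 1)
  have h2 : ∑ v, ‖(Pi.single y 1 : Fin n → ℂ) v‖ ^ 2 = 1 := by
    rw [Finset.sum_eq_single y] <;> simp +contextual
  have h3 := sq_sum_le_card_mul_sum_sq (s := Finset.univ) (f := fun x => ‖res H z x y‖)
  simp only [h2, mulVec_single_one, col_apply] at h1
  rw [Finset.card_univ, Fintype.card_fin] at h3
  rw [le_div_iff₀ hz]
  refine Real.le_sqrt_of_sq_le ?_
  have h4 := mul_le_mul_of_nonneg_left h3 (sq_nonneg z.im)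
  have h5 := mul_le_mul_of_nonneg_left h1 (Nat.cast_nonneg (α := ℝ) n)
  nlinarith

theorem NoiseV_cov {n D p : ℕ} (π : Equiv.Perm (HE n D)) {G : Matrix (Fin n) (Fin n) ℂ}
    {B : Matrix (Fin n × Fin p) (Fin n × Fin p) ℝ} (hB : B * Bᵀ = ten p (imM G))
    (θ : SV D × Fin p → ℝ) :
    ∑ v, ∑ u, |(fun l => ∑ k, θ k * B (starV π v k.1, k.2) l) ⬝ᵥ
        fun l => ∑ k, θ k * B (starV π u k.1, k.2) l| ≤
      (∑ k, |θ k|) ^ 2 * ((D + 1) ^ 2 * ∑ x, ∑ y, ‖G x y‖) := by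
  have h1 : ∀ v u, |(fun l => ∑ k, θ k * B (starV π v k.1, k.2) l) ⬝ᵥ
        fun l => ∑ k, θ k * B (starV π u k.1, k.2) l| ≤
      ∑ k, ∑ k', |θ k| * |θ k'| * ‖G (starV π v k.1) (starV π u k'.1)‖ := fun v u => by
    have e : ((fun l => ∑ k, θ k * B (starV π v k.1, k.2) l) ⬝ᵥ
        fun l => ∑ k, θ k * B (starV π u k.1, k.2) l) =
        ∑ k, ∑ k', θ k * θ k' * (B * Bᵀ) (starV π v k.1, k.2) (starV π u k'.1, k'.2) := by
      simp only [dotProduct, Finset.sum_mul_sum]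
      simp only [mul_apply, transpose_apply, Finset.mul_sum]
      rw [Finset.sum_comm]
      refine Finset.sum_congr rfl fun k _ => ?_
      rw [Finset.sum_comm]
      exact Finset.sum_congr rfl fun k' _ => Finset.sum_congr rfl fun l _ => by ring
    rw [e, hB]
    refine (Finset.abs_sum_le_sum_abs _ _).trans (Finset.sum_le_sum fun k _ =>
      (Finset.abs_sum_le_sum_abs _ _).trans (Finset.sum_le_sum fun k' _ => ?_))
    rw [abs_mul, abs_mul, ten_apply]
    refine mul_le_mul_of_nonneg_left ?_ (by positivity)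
    split_ifs
    · exact Complex.abs_im_le_norm _
    · simp
  have h2 : ∀ a a' : SV D, ∑ v, ∑ u, ‖G (starV π v a) (starV π u a')‖ ≤
      (D + 1) ^ 2 * ∑ x, ∑ y, ‖G x y‖ := fun a a' => by
    refine (NoiseV_star π a (g := fun x => ∑ u, ‖G x (starV π u a')‖)
      fun x => by positivity).trans ?_
    rw [sq, mul_assoc, Finset.mul_sum _ fun x => ∑ y, ‖G x y‖]
    exact mul_le_mul_of_nonneg_left (Finset.sum_le_sum fun x _ =>
      NoiseV_star π a' (g := fun y => ‖G x y‖) fun _ => norm_nonneg _) (by positivity)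
  refine (Finset.sum_le_sum fun v _ => Finset.sum_le_sum fun u _ => h1 v u).trans ?_
  have e2 : ∑ v, ∑ u, ∑ k, ∑ k', |θ k| * |θ k'| * ‖G (starV π v k.1) (starV π u k'.1)‖ =
      ∑ k, ∑ k', |θ k| * |θ k'| * ∑ v, ∑ u, ‖G (starV π v k.1) (starV π u k'.1)‖ := by
    simp only [Finset.mul_sum]
    refine (Finset.sum_congr rfl fun v _ => Finset.sum_comm_cycle.trans
      Finset.sum_comm_cycle).trans ?_
    exact Finset.sum_comm_cycle.trans Finset.sum_comm_cycle
  rw [e2, sq (∑ k, |θ k|), Finset.sum_mul_sum, Finset.sum_mul]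
  refine Finset.sum_le_sum fun k _ => ?_
  rw [Finset.sum_mul]
  exact Finset.sum_le_sum fun k' _ => mul_le_mul_of_nonneg_left (h2 _ _) (by positivity)

section
variable {D p : ℕ} {s : ℝ} {β : Measure J} [IsProbabilityMeasure β] {z : ℂ} {L : ℝ}
  {μ : Measure (SX D p)} [IsProbabilityMeasure μ] {F : Filter (Cfg D p)}
  {B : ∀ c : Cfg D p, Matrix (Fin c.n × Fin p) (Fin c.n × Fin p) ℝ}

/-- Variance.  `cov_cos`; `|b_v ⬝ b_w| ≤ ‖θ‖² p Σ_{a,b} |Im G (starV v a) (starV w b)|`, each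
`starV · a`-sum hits a vertex at most `D + 1` times in total over the ports, and
`Σ_{x,y} |Im G x y| ≤ n √n / η` (`res_mulVec_sq_le` or `ward_diag`, Cauchy–Schwarz).  Chebyshev. -/
theorem noise_var (hz : 0 < z.im) (hF : Conv s β z L μ F)
    (hB : ∀ c, B c * (B c)ᵀ = ten p (imM (c.G s z))) (f : C(StarEnv D, ℝ)) (θ : SV D × Fin p → ℝ)
    (φ : ℝ) {ε : ℝ} (hε : 0 < ε) :
    Tendsto (fun c => gpi (Fin c.n × Fin p) {ξ | ε <
      |(avg fun v => f (starH c.π.1 c.ω v) *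
          Real.cos (φ + θ ⬝ᵥ (starS c.π.1 c.ω (c.x + B c *ᵥ ξ) v).2)) -
        avg fun v => f (starH c.π.1 c.ω v) *
          ∫ ξ', Real.cos (φ + θ ⬝ᵥ (starS c.π.1 c.ω (c.x + B c *ᵥ ξ') v).2)
            ∂(gpi (Fin c.n × Fin p))|}) F (𝓝 0) := by
  have h0 : Tendsto (fun c : Cfg D p => ENNReal.ofReal
      (‖f‖ ^ 2 * ((∑ k, |θ k|) ^ 2 * (D + 1) ^ 2 / z.im * (√c.n)⁻¹) / ε ^ 2)) F (𝓝 0) := by
    have h1 : Tendsto (fun c : Cfg D p => (√c.n)⁻¹) F (𝓝 0) := tendsto_inv_atTop_zero.comp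
      (Real.tendsto_sqrt_atTop.comp (tendsto_natCast_atTop_atTop.comp hF.top))
    simpa using ENNReal.tendsto_ofReal (((h1.const_mul
      ((∑ k, |θ k|) ^ 2 * (D + 1) ^ 2 / z.im)).const_mul (‖f‖ ^ 2)).div_const (ε ^ 2))
  refine tendsto_of_tendsto_of_tendsto_of_le_of_le tendsto_const_nhds h0 (fun _ => zero_le)
    fun c => ?_
  have e : ∀ v ξ, φ + θ ⬝ᵥ (starS c.π.1 c.ω (c.x + B c *ᵥ ξ) v).2 =
      φ + θ ⬝ᵥ (starS c.π.1 c.ω c.x v).2 +
        (fun l => ∑ k, θ k * B c (starV c.π.1 v k.1, k.2) l) ⬝ᵥ ξ := fun v ξ => by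
    simp only [starS, dotProduct, Pi.add_apply, mulVec, mul_add, Finset.sum_add_distrib,
      Finset.mul_sum, Finset.sum_mul, add_assoc, mul_assoc]
    rw [Finset.sum_comm]
  simp only [e]
  refine (NoiseV_cheb (M := ‖f‖) (fun v => f.norm_coe_le_norm _) _ _ hε).trans
    (ENNReal.ofReal_le_ofReal ?_)
  gcongr
  have h2 := (NoiseV_cov c.π.1 (hB c) θ).trans (mul_le_mul_of_nonneg_left
    (mul_le_mul_of_nonneg_left (NoiseV_res (ham_isSymm c.π.2.1 s c.ω) hz) (by positivity))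
    (sq_nonneg _))
  simp only [avg, ← Finset.sum_div, Fintype.card_fin]
  refine (div_le_div_of_nonneg_right (div_le_div_of_nonneg_right h2 (Nat.cast_nonneg _))
    (Nat.cast_nonneg _)).trans (le_of_eq ?_)
  rw [← Real.sqrt_div_self]
  rcases eq_or_ne (c.n : ℝ) 0 with h | h
  · simp [h]
  · field_simp

end

end Crest.Agent.R166.B
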