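import Crest.Agent.R166.B.NoiseM
import Crest.Agent.R166.B.NoiseV
import Crest.Agent.R166.B.ConvP
import Crest.Agent.R166.B.ConvE

/-! # The noisy field on the graph -/

set_option autoImplicit false
set_option linter.unusedVariables false
set_option linter.unusedSectionVars false

open MeasureTheory ProbabilityTheory Filter Topology Matrix
open scoped ENNReal BoundedContinuousFunction Kronecker

namespace Crest.Agent.R166.B

theorem noise_norm_sq {K : Type} [Fintype K] (y : K → ℝ) : ‖y‖ ^ 2 ≤ ∑ k, y k ^ 2 := by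
  have h0 : 0 ≤ ∑ k, y k ^ 2 := Finset.sum_nonneg fun k _ => sq_nonneg _
  have h1 : ‖y‖ ≤ √(∑ k, y k ^ 2) := (pi_norm_le_iff_of_nonneg (Real.sqrt_nonneg _)).2 fun k =>
    Real.abs_le_sqrt (Finset.single_le_sum (f := fun k => y k ^ 2) (fun k _ => sq_nonneg _)
      (Finset.mem_univ k))
  exact (pow_le_pow_left₀ (norm_nonneg _) h1 2).trans (Real.sq_sqrt h0).le

theorem noise_coord {K N : Type} [Fintype K] [Fintype N] (B : Matrix K N ℝ) (x : K → ℝ) (k : K) :
    Integrable (fun ξ => (x + B *ᵥ ξ) k ^ 2) (gpi N) ∧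
      ∫ ξ, (x + B *ᵥ ξ) k ^ 2 ∂(gpi N) = x k ^ 2 + (B * Bᵀ) k k := by
  have e : (fun ξ => (x + B *ᵥ ξ) k ^ 2) =
      fun ξ => (x k ^ 2 + 2 * x k * (B k ⬝ᵥ ξ)) + (B k ⬝ᵥ ξ) * (B k ⬝ᵥ ξ) := by
    funext ξ
    change (x k + B k ⬝ᵥ ξ) ^ 2 = _
    ring
  have h1 := integral_dot (B k)
  have h2 := integral_dot_mul (B k) (B k)
  have h3 : Integrable (fun ξ => x k ^ 2 + 2 * x k * (B k ⬝ᵥ ξ)) (gpi N) :=
    (integrable_const _).add (h1.1.const_mul _)
  rw [e]
  refine ⟨h3.add h2.1, ?_⟩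
  rw [integral_add h3 h2.1, integral_add (integrable_const _) (h1.1.const_mul _),
    integral_const_mul, h1.2, h2.2, integral_const, probReal_univ, one_smul, mul_zero, add_zero]
  rfl

section
variable {D p : ℕ} {s : ℝ} {β : Measure J} [IsProbabilityMeasure β] {z : ℂ} {L : ℝ}
  {μ : Measure (SX D p)} [IsProbabilityMeasure μ] {F : Filter (Cfg D p)}
  {B : ∀ c : Cfg D p, Matrix (Fin c.n × Fin p) (Fin c.n × Fin p) ℝ}

/-- `‖y‖² ≤ Σ y_k²`, `E Y_k² = x_k² + Im G_xx ≤ L² + 1/η` -/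
theorem noise_mom (hz : 0 < z.im) (hF : Conv s β z L μ F)
    (hB : ∀ c, B c * (B c)ᵀ = ten p (imM (c.G s z))) : ∃ C₀ : ℝ, ∀ᶠ c in F,
      ∫⁻ ξ, ENNReal.ofReal (avg fun v => ‖(starS c.π.1 c.ω (c.x + B c *ᵥ ξ) v).2‖ ^ 2)
        ∂(gpi (Fin c.n × Fin p)) ≤ ENNReal.ofReal C₀ := by
  refine ⟨Fintype.card (SV D × Fin p) * (L ^ 2 + |z.im|⁻¹), ?_⟩
  filter_upwards [hF.bdd] with c hc
  have hI : ∀ v : Fin c.n, Integrable (fun ξ => ∑ k : SV D × Fin p,
      (c.x + B c *ᵥ ξ) (starV c.π.1 v k.1, k.2) ^ 2) (gpi (Fin c.n × Fin p)) := fun v =>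
    integrable_finsetSum _ fun k _ => (noise_coord (B c) c.x _).1
  have hH : (ham s c.π.1 c.ω).IsHermitian :=
    herm_of_symm fun a b => ((ham_isSymm c.π.2.1 s c.ω).apply a b).symm
  refine le_trans (lintegral_mono fun ξ => ENNReal.ofReal_le_ofReal
    (avg_mono fun v => noise_norm_sq _)) ?_
  refine le_trans (le_of_eq (ofReal_integral_eq_lintegral_ofReal (integrable_avg hI)
    (Eventually.of_forall fun ξ => avg_nonneg fun v =>
      Finset.sum_nonneg fun k _ => sq_nonneg _)).symm) (ENNReal.ofReal_le_ofReal ?_)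
  rw [integral_avg hI]
  refine avg_le_of_le (by positivity) fun v => ?_
  rw [integral_finsetSum _ fun k _ => (noise_coord (B c) c.x _).1, ← nsmul_eq_mul,
    ← Finset.card_univ]
  refine Finset.sum_le_card_nsmul _ _ _ fun k _ => ?_
  rw [(noise_coord (B c) c.x _).2, hB, ten_apply, if_pos rfl]
  refine add_le_add ?_ ((Complex.im_le_norm _).trans (norm_res_le hH hz.ne' _ _))
  rw [← sq_abs]
  exact pow_le_pow_left₀ (abs_nonneg _) (hc _) 2

/-- `conv_prob`, `frontier_null`, `conv_expect` -/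
theorem noise_types (hz : 0 < z.im) (hF : Conv s β z L μ F)
    (hB : ∀ c, B c * (B c)ᵀ = ten p (imM (c.G s z))) (Q : Part D p) (hQ : Q.Null β)
    (hac : noisy μ (BS p s z (mT s z)) ≪ lamS D p β) {Ξ : (Q.ST → ℝ) → ℝ} (hΞ : Continuous Ξ) :
    Tendsto (fun c => ∫ ξ, Ξ (fun t => frac fun v =>
        Q.τ (starS c.π.1 c.ω (c.x + B c *ᵥ ξ) v) = t) ∂(gpi (Fin c.n × Fin p))) F
      (𝓝 (Ξ (fr (noisy μ (BS p s z (mT s z))) Q.τ))) := by
  have := noisy_prob μ (measM_BS p s z ((continuous_mT (s := s) hz).measurable))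
  have hs : ∀ (c : Cfg D p) (v : Fin c.n),
      Measurable fun ξ => starS c.π.1 c.ω (c.x + B c *ᵥ ξ) v := fun c v =>
    ((continuous_starS c.π.1 v).comp (continuous_const.prodMk
      (continuous_const.add (continuous_const.matrix_mulVec continuous_id)))).measurable
  obtain ⟨C₀, hC₀⟩ := noise_mom hz hF hB
  refine conv_expect F (fun c => gpi (Fin c.n × Fin p)) _ (fun c => measurable_pi_lambda _ fun t =>
    measurable_frac fun v => (Q.measurable_τ.comp (hs c v)) (measurableSet_singleton t))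
    (fun c ξ t => ⟨frac_nonneg _, frac_le_one _⟩) _ (fun t ε hε => ?_) hΞ
  refine conv_prob F (fun c => gpi (Fin c.n × Fin p))
    (fun c ξ v => starS c.π.1 c.ω (c.x + B c *ᵥ ξ) v) hs ?_ _ hC₀ ?_
    (Q.measurable_τ (measurableSet_singleton t)) (frontier_null (hac.ae_le hQ) t) hε
  · filter_upwards [hF.top.eventually (eventually_gt_atTop 0)] with c hc using ⟨⟨0, hc⟩⟩
  · intro f θ φ ε hε
    have h1 := noise_var hz hF hB f θ φ (half_pos hε)
    have h2 := Metric.tendsto_nhds.1 (noise_mean hz hF hB f θ φ) _ (half_pos hε)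
    refine tendsto_of_tendsto_of_tendsto_of_le_of_le' tendsto_const_nhds h1
      (Eventually.of_forall fun c => zero_le) ?_
    filter_upwards [h2] with c hc
    refine measure_mono fun ξ hξ => ?_
    rw [Real.dist_eq] at hc
    by_contra hn
    exact absurd ((abs_sub_le _ _ _).trans_lt (add_lt_add_of_le_of_lt (not_lt.1 hn) hc))
      (not_lt.2 ((add_halves ε).le.trans (le_of_lt hξ)))

end

end Crest.Agent.R166.B
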