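import Crest.Agent.R166.B.AlgE
import Crest.Agent.R166.B.GBayes
import Crest.Agent.R166.G7

/-! # The noisy field on the graph: mean -/

set_option autoImplicit false
set_option linter.unusedVariables false
set_option linter.unusedSectionVars false

open MeasureTheory ProbabilityTheory Filter Topology Matrix
open scoped ENNReal BoundedContinuousFunction Kronecker

namespace Crest.Agent.R166.B

section
variable {D p : ℕ} {s : ℝ} {β : Measure J} [IsProbabilityMeasure β] {z : ℂ} {L : ℝ}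
  {μ : Measure (SX D p)} [IsProbabilityMeasure μ] {F : Filter (Cfg D p)}
  {B : ∀ c : Cfg D p, Matrix (Fin c.n × Fin p) (Fin c.n × Fin p) ℝ}

theorem NoiseM_form {K N : Type} [Fintype K] [Fintype N] (M : Matrix K N ℝ) (θ : K → ℝ) :
    θ ⬝ᵥ (M * Mᵀ) *ᵥ θ = (θ ᵥ* M) ⬝ᵥ (θ ᵥ* M) := by
  rw [← mulVec_mulVec, dotProduct_mulVec, mulVec_transpose]

theorem NoiseM_form_nonneg {K N : Type} [Fintype K] [Fintype N] (M : Matrix K N ℝ) (θ : K → ℝ) :
    0 ≤ θ ⬝ᵥ (M * Mᵀ) *ᵥ θ := by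
  rw [NoiseM_form]
  exact Finset.sum_nonneg fun i _ => mul_self_nonneg _

theorem NoiseM_cos {K N : Type} [Fintype K] [Fintype N] (M : Matrix K N ℝ) (θ x : K → ℝ) (φ : ℝ) :
    ∫ ξ, Real.cos (φ + θ ⬝ᵥ (x + M *ᵥ ξ)) ∂(gpi N) =
      Real.cos (φ + θ ⬝ᵥ x) * Real.exp (-(θ ⬝ᵥ (M * Mᵀ) *ᵥ θ) / 2) := by
  rw [NoiseM_form, ← integral_cos]
  simp only [dotProduct_add, dotProduct_mulVec, add_assoc]

theorem NoiseM_exp_aux {a b : ℝ} (ha : 0 ≤ a) (hab : a ≤ b) :
    0 ≤ Real.exp (-a / 2) - Real.exp (-b / 2) ∧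
      Real.exp (-a / 2) - Real.exp (-b / 2) ≤ b - a := by
  have h1 : Real.exp (-b / 2) = Real.exp (-a / 2) * Real.exp (-((b - a) / 2)) := by
    rw [← Real.exp_add]
    congr 1
    ring
  have h2 : Real.exp (-a / 2) ≤ 1 := Real.exp_le_one_iff.2 (by linarith)
  have h3 := Real.add_one_le_exp (-((b - a) / 2))
  have h4 : Real.exp (-((b - a) / 2)) ≤ 1 := Real.exp_le_one_iff.2 (by linarith)
  have h5 := Real.exp_pos (-a / 2)
  rw [h1]
  constructor <;> nlinarith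

theorem NoiseM_exp {a b : ℝ} (ha : 0 ≤ a) (hb : 0 ≤ b) :
    |Real.exp (-a / 2) - Real.exp (-b / 2)| ≤ |a - b| ∧
      |Real.exp (-a / 2) - Real.exp (-b / 2)| ≤ 1 := by
  have h1 : Real.exp (-a / 2) ≤ 1 := Real.exp_le_one_iff.2 (by linarith)
  have h2 : Real.exp (-b / 2) ≤ 1 := Real.exp_le_one_iff.2 (by linarith)
  have h3 := Real.exp_pos (-a / 2)
  have h4 := Real.exp_pos (-b / 2)
  refine ⟨?_, abs_le.2 ⟨by linarith, by linarith⟩⟩
  rcases le_total a b with h | h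
  · obtain ⟨h5, h6⟩ := NoiseM_exp_aux ha h
    rw [abs_of_nonneg h5, abs_of_nonpos (by linarith)]
    linarith
  · obtain ⟨h5, h6⟩ := NoiseM_exp_aux hb h
    rw [abs_of_nonpos (by linarith), abs_of_nonneg (by linarith)]
    linarith

theorem NoiseM_diff {K : Type} [Fintype K] {A A' : Matrix K K ℝ} {ε : ℝ}
    (h : ∀ a b, |A a b - A' a b| ≤ ε) (θ : K → ℝ) :
    |θ ⬝ᵥ A *ᵥ θ - θ ⬝ᵥ A' *ᵥ θ| ≤ (∑ a, |θ a|) ^ 2 * ε := by
  have e : θ ⬝ᵥ A *ᵥ θ - θ ⬝ᵥ A' *ᵥ θ = ∑ a, ∑ b, θ a * (A a b - A' a b) * θ b := by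
    simp only [dotProduct, mulVec, Finset.mul_sum, ← Finset.sum_sub_distrib]
    refine Finset.sum_congr rfl fun a _ => Finset.sum_congr rfl fun b _ => ?_
    ring
  rw [e, sq, Finset.sum_mul_sum, Finset.sum_mul]
  refine (Finset.abs_sum_le_sum_abs _ _).trans (Finset.sum_le_sum fun a _ => ?_)
  rw [Finset.sum_mul]
  refine (Finset.abs_sum_le_sum_abs _ _).trans (Finset.sum_le_sum fun b _ => ?_)
  rw [abs_mul, abs_mul, mul_right_comm]
  exact mul_le_mul_of_nonneg_left (h a b) (by positivity)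

theorem NoiseM_cont (hz : 0 < z.im) : Continuous (BS (D := D) p s z (mT s z)) := by
  have hm := continuous_mT (D := D) (s := s) hz
  refine continuous_ten.comp (continuous_iff_continuousAt.2 fun σ => ?_)
  have h1 : Continuous fun σ : StarEnv D =>
      ((s * (σ.1 : ℝ), z, fun j => mT s z (σ.2 j)) : ℝ × ℂ × (Fin (D + 1) → ℂ)) := by fun_prop
  exact ContinuousAt.comp (f := fun σ : StarEnv D =>
      ((s * (σ.1 : ℝ), z, fun j => mT s z (σ.2 j)) : ℝ × ℂ × (Fin (D + 1) → ℂ)))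
    (continuousAt_Bs hz.le fun j => mT_im_pos hz _) h1.continuousAt

theorem NoiseM_gram (hz : 0 < z.im) (σ : StarEnv D) :
    BS p s z (mT s z) σ * (BS p s z (mT s z) σ)ᵀ =
      ten p (imM (gC (((s * (σ.1 : ℝ) : ℝ) : ℂ)) z fun j => mT s z (σ.2 j))) := by
  rw [BS, ten_transpose, ten_mul, Bs_gram hz.le fun j => mT_im_pos hz _]

/-- Mean.  `θ ⬝ Y_v = θ ⬝ x_v + b_v ⬝ ξ` with `b_v ⬝ b_v = θ (Im G|star v ⊗ 1) θ`; `integral_cos`;
`locality` and `Conv.tree` replace `Im G|star v` by `imM gC` (`Bs_gram`), then `Conv.emp` for the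
bounded continuous `q ↦ f q.1 cos (φ + θ ⬝ q.2) exp (-θ (BS BSᵀ) θ / 2)`, whose `μ`-integral is
the right-hand side (Fubini, `integral_cos`). -/
theorem noise_mean (hz : 0 < z.im) (hF : Conv s β z L μ F)
    (hB : ∀ c, B c * (B c)ᵀ = ten p (imM (c.G s z))) (f : C(StarEnv D, ℝ)) (θ : SV D × Fin p → ℝ)
    (φ : ℝ) :
    Tendsto (fun c => avg fun v => f (starH c.π.1 c.ω v) *
        ∫ ξ, Real.cos (φ + θ ⬝ᵥ (starS c.π.1 c.ω (c.x + B c *ᵥ ξ) v).2) ∂(gpi (Fin c.n × Fin p))) F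
      (𝓝 (∫ q, f q.1 * Real.cos (φ + θ ⬝ᵥ q.2) ∂(noisy μ (BS p s z (mT s z))))) := by
  have hBc := NoiseM_cont (D := D) (p := p) (s := s) hz
  let Q : StarEnv D → ℝ := fun σ => θ ⬝ᵥ (BS p s z (mT s z) σ * (BS p s z (mT s z) σ)ᵀ) *ᵥ θ
  have hQc : Continuous Q :=
    continuous_const.dotProduct ((hBc.matrix_mul hBc.matrix_transpose).matrix_mulVec
      continuous_const)
  have hQ0 : ∀ σ, 0 ≤ Q σ := fun σ => NoiseM_form_nonneg _ _
  have hfb : ∀ σ, |f σ| ≤ ‖f‖ := fun σ => f.norm_coe_le_norm σ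
  let g : SX D p → ℝ := fun q => f q.1 * (Real.cos (φ + θ ⬝ᵥ q.2) * Real.exp (-Q q.1 / 2))
  have hgc : Continuous g := by
    have h1 : Continuous fun q : SX D p => θ ⬝ᵥ q.2 := continuous_const.dotProduct continuous_snd
    simp only [g]
    fun_prop
  have hgb : ∀ q, ‖g q‖ ≤ ‖f‖ := by
    intro q
    have h1 : |Real.cos (φ + θ ⬝ᵥ q.2) * Real.exp (-Q q.1 / 2)| ≤ 1 := by
      rw [abs_mul, abs_of_pos (Real.exp_pos _)]
      exact mul_le_one₀ (Real.abs_cos_le_one _) (Real.exp_pos _).le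
        (Real.exp_le_one_iff.2 (by linarith [hQ0 q.1]))
    rw [Real.norm_eq_abs, abs_mul]
    exact (mul_le_of_le_one_right (abs_nonneg _) h1).trans (hfb _)
  have hemp := hF.emp (BoundedContinuousFunction.ofNormedAddCommGroup g hgc _ hgb)
  simp only [BoundedContinuousFunction.coe_ofNormedAddCommGroup] at hemp
  have hR : ∫ q, f q.1 * Real.cos (φ + θ ⬝ᵥ q.2) ∂(noisy μ (BS p s z (mT s z))) =
      ∫ q, g q ∂μ := by
    have h1 : Continuous fun w : SX D p × ((SV D ⊕ SV D) × Fin p → ℝ) =>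
        ((w.1.1, w.1.2 + BS p s z (mT s z) w.1.1 *ᵥ w.2) : SX D p) :=
      continuous_fst.fst.prodMk (continuous_fst.snd.add
        ((hBc.comp continuous_fst.fst).matrix_mulVec continuous_snd))
    have h2 : Continuous fun q : SX D p => f q.1 * Real.cos (φ + θ ⬝ᵥ q.2) := by
      have h1 : Continuous fun q : SX D p => θ ⬝ᵥ q.2 := continuous_const.dotProduct continuous_snd
      fun_prop
    rw [noisy, integral_map h1.measurable.aemeasurable h2.aestronglyMeasurable, integral_prod]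
    · refine integral_congr_ae (Eventually.of_forall fun q => ?_)
      simp only [g, Q]
      rw [integral_const_mul, NoiseM_cos]
    · refine Integrable.of_bound (h2.comp h1).aestronglyMeasurable ‖f‖
        (Eventually.of_forall fun w => ?_)
      rw [Real.norm_eq_abs, abs_mul]
      exact (mul_le_of_le_one_right (abs_nonneg _) (Real.abs_cos_le_one _)).trans (hfb _)
  rw [hR]
  refine hemp.congr_dist ?_
  rw [Metric.tendsto_nhds]
  intro ε hε
  set C : ℝ := ‖f‖ * ((∑ a, |θ a|) ^ 2 + 1) + 1 with hC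
  have hf0 := norm_nonneg f
  have hC0 : 0 < C := by positivity
  have hδ : 0 < ε / C := div_pos hε hC0
  obtain ⟨k, hk⟩ := locality D s hz hδ
  filter_upwards [(hF.tree k).eventually_lt_const hδ] with c hc
  rw [Real.dist_eq, sub_zero, abs_of_nonneg dist_nonneg, Real.dist_eq, ← avg_sub]
  have key : ∀ v, |g (starS c.π.1 c.ω c.x v) - f (starH c.π.1 c.ω v) *
      ∫ ξ, Real.cos (φ + θ ⬝ᵥ (starS c.π.1 c.ω (c.x + B c *ᵥ ξ) v).2) ∂(gpi (Fin c.n × Fin p))| ≤
      ‖f‖ * ((∑ a, |θ a|) ^ 2 * (ε / C)) +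
        ‖f‖ * (open Classical in if ¬ TreeLike c.π.1 v k then 1 else 0) := by
    intro v
    let ι : SV D × Fin p → Fin c.n × Fin p := fun k => (starV c.π.1 v k.1, k.2)
    have e1 : ∀ ξ, (starS c.π.1 c.ω (c.x + B c *ᵥ ξ) v).2 =
        (starS c.π.1 c.ω c.x v).2 + (B c).submatrix ι id *ᵥ ξ := fun ξ => rfl
    have e2 : (B c).submatrix ι id * ((B c).submatrix ι id)ᵀ =
        ten p ((imM (c.G s z)).submatrix (starV c.π.1 v) (starV c.π.1 v)) := by
      rw [← ten_submatrix, ← hB c]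
      rfl
    have h0 := NoiseM_form_nonneg ((B c).submatrix ι id) θ
    have e3 : (starS c.π.1 c.ω c.x v).1 = starH c.π.1 c.ω v := rfl
    simp only [e1, NoiseM_cos, g, e3]
    rw [← mul_sub, ← mul_sub, abs_mul, abs_mul, ← mul_add]
    refine mul_le_mul (hfb _) ((mul_le_of_le_one_left (abs_nonneg _)
      (Real.abs_cos_le_one _)).trans ?_) (by positivity) hf0
    obtain ⟨h1, h2⟩ := NoiseM_exp (hQ0 (starH c.π.1 c.ω v)) h0
    split_ifs with hv
    · rw [add_zero]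
      refine h1.trans ?_
      simp only [Q]
      rw [e2, NoiseM_gram hz]
      refine NoiseM_diff (fun a b => ?_) θ
      rw [ten_apply, ten_apply]
      split_ifs
      · have h3 := hk c.n c.π c.ω v hv a.1 b.1
        rw [norm_sub_rev] at h3
        exact (Complex.abs_im_le_norm _).trans h3
      · simpa using hδ.le
    · exact h2.trans (le_add_of_nonneg_left (by positivity))
  refine ((abs_avg_le _).trans (avg_mono key)).trans_lt ?_
  rw [avg_add, avg_const_mul ‖f‖ (fun v => (open Classical in if ¬ TreeLike c.π.1 v k then 1 else 0))]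
  have h4 : (avg fun _ : Fin c.n => ‖f‖ * ((∑ a, |θ a|) ^ 2 * (ε / C))) ≤
      ‖f‖ * ((∑ a, |θ a|) ^ 2 * (ε / C)) := avg_le_of_le (by positivity) fun _ => le_rfl
  have h5 : ‖f‖ * (frac fun v => ¬ TreeLike c.π.1 v k) ≤ ‖f‖ * (ε / C) :=
    mul_le_mul_of_nonneg_left hc.le hf0
  have h6 : C * (ε / C) = ε := mul_div_cancel₀ _ hC0.ne'
  have h7 : (avg fun v => (open Classical in if ¬ TreeLike c.π.1 v k then (1 : ℝ) else 0)) =
      frac fun v => ¬ TreeLike c.π.1 v k := by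
    unfold frac
    congr!
  rw [h7]
  generalize ε / C = δ at *
  rw [hC] at h6
  nlinarith

end

end Crest.Agent.R166.B
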