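import Crest.Agent.R166.B.Basic
import Crest.Agent.R166.B.GInt
import Crest.Agent.R166.B.GInt2

/-! # Existence of fine partitions -/

set_option autoImplicit false
set_option linter.unusedVariables false
set_option linter.unusedSectionVars false

open MeasureTheory ProbabilityTheory Filter Topology Matrix
open scoped ENNReal BoundedContinuousFunction Kronecker

namespace Crest.Agent.R166.B

theorem h73_mkPart {D p : ℕ} {A T K : Type} [Finite A] [Finite T] [Finite K] (a : J → A)
    (t : Env D → T) (k : (Fin p → ℝ) → K) (cmb : A → (Fin D → T) → T)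
    (hcmb : ∀ v f, t (comb v f) = cmb (a v) fun c => t (f c))
    (ma : ∀ x, MeasurableSet (a ⁻¹' {x})) (mt : ∀ x, MeasurableSet (t ⁻¹' {x}))
    (mk' : ∀ x, MeasurableSet (k ⁻¹' {x})) (pos : ∀ c, 0 < (gpi (Fin p)).real (k ⁻¹' {c})) :
    ∃ Q : Part D p, ∀ q q' : SX D p, Q.τ q = Q.τ q' ↔ a q.1.1 = a q'.1.1 ∧
      (∀ j, t (q.1.2 j) = t (q'.1.2 j)) ∧
      ∀ v, (k fun i => q.2 (v, i)) = k fun i => q'.2 (v, i) := by
  have hpre : ∀ {X Y : Type} {m : ℕ} (e : Y ≃ Fin m) (f : X → Y) (c : Fin m),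
      (fun x => e (f x)) ⁻¹' {c} = f ⁻¹' {e.symm c} := fun e f c => by
    ext x; simp [Equiv.eq_symm_apply]
  let eA := Finite.equivFin A
  let eT := Finite.equivFin T
  let eK := Finite.equivFin K
  refine ⟨⟨_, _, _, fun v => eA (a v), fun e => eT (t e), fun y => eK (k y),
    fun x f => eT (cmb (eA.symm x) fun c => eT.symm (f c)), fun v f => by simp [hcmb],
    measurable_to_countable' fun c => by rw [hpre]; exact ma _,
    measurable_to_countable' fun c => by rw [hpre]; exact mt _,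
    measurable_to_countable' fun c => by rw [hpre]; exact mk' _,
    fun c => by rw [hpre]; exact pos _⟩, fun q q' => ?_⟩
  simp [Part.τ, funext_iff]

/-- the clipped discretisation. -/
noncomputable def h73_dz (M : ℕ) (t : ℝ) : Set.Icc (-(M : ℤ) ^ 2) ((M : ℤ) ^ 2) :=
  ⟨max (-(M : ℤ) ^ 2) (min ((M : ℤ) ^ 2) (round ((M : ℝ) * t))), le_max_left _ _,
    max_le (by nlinarith [sq_nonneg (M : ℤ)]) (min_le_left _ _)⟩

theorem h73_dz_meas (M : ℕ) (c : Set.Icc (-(M : ℤ) ^ 2) ((M : ℤ) ^ 2)) :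
    MeasurableSet (h73_dz M ⁻¹' {c}) := by
  have h1 : Measurable fun t : ℝ => round ((M : ℝ) * t) := by
    simp only [round_eq]
    exact Measurable.floor (by fun_prop)
  have h2 : Measurable fun t : ℝ =>
      max (-(M : ℤ) ^ 2) (min ((M : ℤ) ^ 2) (round ((M : ℝ) * t))) :=
    (measurable_of_countable fun i : ℤ => max (-(M : ℤ) ^ 2) (min ((M : ℤ) ^ 2) i)).comp h1
  have : h73_dz M ⁻¹' {c} = (fun t : ℝ =>
      max (-(M : ℤ) ^ 2) (min ((M : ℤ) ^ 2) (round ((M : ℝ) * t)))) ⁻¹' {c.1} := by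
    ext t; simp [h73_dz, Subtype.ext_iff]
  rw [this]
  exact h2 (measurableSet_singleton _)

theorem h73_dz_loc (M : ℕ) {t : ℝ} (ht : ∀ i : ℤ, (M : ℝ) * t + 1 / 2 ≠ i) :
    ∀ᶠ t' in 𝓝 t, h73_dz M t' = h73_dz M t := by
  have h1 : (⌊(M : ℝ) * t + 1 / 2⌋ : ℝ) < (M : ℝ) * t + 1 / 2 :=
    lt_of_le_of_ne (Int.floor_le _) (ht _).symm
  have h2 := Int.lt_floor_add_one ((M : ℝ) * t + 1 / 2)
  have hc : Tendsto (fun t' : ℝ => (M : ℝ) * t' + 1 / 2) (𝓝 t) (𝓝 ((M : ℝ) * t + 1 / 2)) :=
    (by fun_prop : Continuous fun t' : ℝ => (M : ℝ) * t' + 1 / 2).tendsto t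
  filter_upwards [hc.eventually (Ioo_mem_nhds h1 h2)] with t' ht'
  have : round ((M : ℝ) * t') = round ((M : ℝ) * t) := by
    rw [round_eq, round_eq, Int.floor_eq_iff]
    exact ⟨ht'.1.le, ht'.2⟩
  simp only [h73_dz, this]

theorem h73_dz_val (M : ℕ) {t : ℝ} (ht : |t| ≤ M) : (h73_dz M t).1 = round ((M : ℝ) * t) := by
  have hM : (0 : ℝ) ≤ M := Nat.cast_nonneg M
  obtain ⟨h1, h2⟩ := abs_le.1 ht
  have h3 : round ((M : ℝ) * t) ≤ (M : ℤ) ^ 2 := by
    rw [round_eq, Int.floor_le_iff]; push_cast; nlinarith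
  have h4 : -(M : ℤ) ^ 2 ≤ round ((M : ℝ) * t) := by
    rw [round_eq, Int.le_floor]; push_cast; nlinarith
  simp only [h73_dz, min_eq_right h3, max_eq_right h4]

theorem h73_dz_close {M : ℕ} {t t' : ℝ} (ht : |t| ≤ M) (ht' : |t'| ≤ M)
    (h : h73_dz M t = h73_dz M t') : (M : ℝ) * |t - t'| ≤ 1 := by
  have h1 := h73_dz_val M ht
  rw [h, h73_dz_val M ht'] at h1
  have h2 := abs_le.1 (abs_sub_round ((M : ℝ) * t))
  have h3 := abs_le.1 (abs_sub_round ((M : ℝ) * t'))
  rw [h1] at h3
  rw [← abs_of_nonneg (Nat.cast_nonneg (α := ℝ) M), ← abs_mul, abs_le]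
  constructor <;> nlinarith [h2.1, h2.2, h3.1, h3.2]

theorem h73_bad_countable {M : ℕ} (hM : 0 < M) :
    Set.Countable {t : ℝ | ¬ ∀ i : ℤ, (M : ℝ) * t + 1 / 2 ≠ i} := by
  have hM' : (M : ℝ) ≠ 0 := by positivity
  refine (Set.countable_range fun i : ℤ => ((i : ℝ) - 1 / 2) / M).mono fun t ht => ?_
  simp only [Set.mem_ofPred_eq, not_forall, not_not] at ht
  obtain ⟨i, hi⟩ := ht
  exact ⟨i, by simp only [← hi]; field_simp; ring⟩

theorem h73_part {D p : ℕ} {M : ℕ} (hM : 0 < M) : ∃ Q : Part D p, ∀ q q' : SX D p,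
    Q.τ q = Q.τ q' ↔ h73_dz M q.1.1 = h73_dz M q'.1.1 ∧
      (∀ j (l : {l : List (Fin D) | l.length < M}),
        h73_dz M (q.1.2 j l.1) = h73_dz M (q'.1.2 j l.1)) ∧
      ∀ k, h73_dz M (q.2 k) = h73_dz M (q'.2 k) := by
  have : Finite {l : List (Fin D) | l.length < M} := (List.finite_length_lt (Fin D) M).to_subtype
  have hM' : (0 : ℝ) < M := by exact_mod_cast hM
  obtain ⟨Q, hQ⟩ := h73_mkPart (D := D) (p := p) (fun v : J => h73_dz M v)
    (fun (e : Env D) (l : {l : List (Fin D) | l.length < M}) => h73_dz M (e l.1))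
    (fun y i => h73_dz M (y i))
    (fun x f l => match l with
      | ⟨[], _⟩ => x
      | ⟨c :: l', h⟩ => f c ⟨l', Nat.lt_of_succ_lt h⟩)
    (fun v f => funext fun l => match l with
      | ⟨[], _⟩ => rfl
      | ⟨c :: l', h⟩ => rfl)
    (fun x => measurable_subtype_coe (h73_dz_meas M x))
    (fun x => by
      have : (fun (e : Env D) (l : {l : List (Fin D) | l.length < M}) => h73_dz M (e l.1)) ⁻¹' {x}
          = ⋂ l, (fun e : Env D => (e l.1 : ℝ)) ⁻¹' (h73_dz M ⁻¹' {x l}) := by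
        ext e; simp [funext_iff]
      rw [this]
      exact MeasurableSet.iInter fun l =>
        (measurable_subtype_coe.comp (measurable_pi_apply l.1)) (h73_dz_meas M _))
    (fun x => by
      have : (fun (y : Fin p → ℝ) i => h73_dz M (y i)) ⁻¹' {x}
          = ⋂ i, (fun y : Fin p → ℝ => y i) ⁻¹' (h73_dz M ⁻¹' {x i}) := by
        ext e; simp [funext_iff]
      rw [this]
      exact MeasurableSet.iInter fun i => (measurable_pi_apply i) (h73_dz_meas M _))
    (fun c => by
      have : (gaussianReal 0 1).IsOpenPosMeasure :=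
        (gaussianReal_absolutelyContinuous' 0 one_ne_zero).isOpenPosMeasure
      have : (gpi (Fin p)).IsOpenPosMeasure := by unfold gpi; infer_instance
      have hval : ∀ i, (M : ℝ) * (((c i).1 : ℝ) / M) = ((c i).1 : ℝ) := fun i => by field_simp
      have hdz : ∀ i, h73_dz M (((c i).1 : ℝ) / M) = c i := fun i => by
        apply Subtype.ext
        simp only [h73_dz, hval, round_intCast, min_eq_right (c i).2.2, max_eq_right (c i).2.1]
      have hn : (fun (y : Fin p → ℝ) i => h73_dz M (y i)) ⁻¹' {c} ∈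
          𝓝 fun i => ((c i).1 : ℝ) / M := by
        have : ∀ᶠ y : Fin p → ℝ in 𝓝 fun i => ((c i).1 : ℝ) / M, ∀ i, h73_dz M (y i) = c i := by
          refine eventually_all.2 fun i => ?_
          have h1 := h73_dz_loc M (t := ((c i).1 : ℝ) / M) fun j hj => by
            rw [hval] at hj
            have : (2 * (c i).1 + 1 : ℤ) = 2 * j := by
              have : (2 * ((c i).1 : ℝ) + 1) = 2 * j := by linarith
              exact_mod_cast this
            omega
          rw [hdz] at h1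
          exact ((continuous_apply i).tendsto fun i : Fin p => ((c i).1 : ℝ) / M).eventually h1
        exact this.mono fun y hy => funext hy
      exact ENNReal.toReal_pos (Measure.measure_pos_of_mem_nhds _ hn).ne' (measure_ne_top _ _))
  refine ⟨Q, fun q q' => (hQ q q').trans ?_⟩
  simp only [funext_iff, Prod.forall]

theorem h73_ae_good {D p : ℕ} {s : ℝ} {β : Measure J} (hβ : Adm s β) {M : ℕ} (hM : 0 < M) :
    ∀ᵐ q ∂(lamS D p β), (∀ i : ℤ, (M : ℝ) * q.1.1 + 1 / 2 ≠ i) ∧
      (∀ j l, ∀ i : ℤ, (M : ℝ) * q.1.2 j l + 1 / 2 ≠ i) ∧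
      ∀ k, ∀ i : ℤ, (M : ℝ) * q.2 k + 1 / 2 ≠ i := by
  have := hβ.prob
  have hb : ∀ᵐ v : J ∂β, ∀ i : ℤ, (M : ℝ) * (v : ℝ) + 1 / 2 ≠ i := by
    rcases hβ with rfl | ⟨-, rfl⟩
    · rw [ae_dirac_eq]
      intro i hi
      have : (1 : ℝ) = 2 * i := by simp [J0] at hi; linarith
      have : (1 : ℤ) = 2 * i := by exact_mod_cast this
      omega
    · unfold unifJ
      refine Measure.ae_smul_measure ?_ _
      rw [ae_iff, comap_subtype_coe_apply measurableSet_Icc]
      refine measure_mono_null ?_ ((h73_bad_countable hM).measure_zero volume)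
      rintro _ ⟨v, hv, rfl⟩
      exact hv
  have hg : ∀ᵐ t ∂(gaussianReal 0 1), ∀ i : ℤ, (M : ℝ) * t + 1 / 2 ≠ i :=
    gaussianReal_absolutelyContinuous 0 one_ne_zero ((h73_bad_countable hM).measure_zero volume)
  have p1 : MeasurePreserving Prod.fst (lamS D p β) (starLaw D β) := measurePreserving_fst
  have p2 : MeasurePreserving Prod.snd (lamS D p β) (gpi (SV D × Fin p)) := measurePreserving_snd
  have p3 : MeasurePreserving Prod.fst (starLaw D β) β := measurePreserving_fst
  have p4 : MeasurePreserving Prod.snd (starLaw D β) (Measure.pi fun _ => envLaw D β) :=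
    measurePreserving_snd
  refine ((p3.comp p1).quasiMeasurePreserving.ae hb).and
    ((ae_all_iff.2 fun j => ae_all_iff.2 fun l => ?_).and (ae_all_iff.2 fun k => ?_))
  · have p5 : MeasurePreserving (Function.eval l) (envLaw D β) β :=
      measurePreserving_eval_infinitePi (fun _ => β) l
    exact (p5.comp ((measurePreserving_eval (fun _ => envLaw D β) j).comp
      (p4.comp p1))).quasiMeasurePreserving.ae hb
  · exact ((measurePreserving_eval (fun _ => gaussianReal 0 1) k).comp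
      p2).quasiMeasurePreserving.ae hg

theorem h73_lim_eq {U : Filter ℕ} [U.NeBot] (hU : U ≤ atTop) {u v : ℕ → ℝ} {x y : ℝ}
    (hu : Tendsto u U (𝓝 x)) (hv : Tendsto v U (𝓝 y))
    (h : ∀ᶠ M : ℕ in atTop, ((M + 1 : ℕ) : ℝ) * |u M - v M| ≤ 1) : x = y := by
  have h1 : Tendsto (fun M => |u M - v M|) U (𝓝 |x - y|) := (hu.sub hv).abs
  have h2 : Tendsto (fun M : ℕ => 1 / ((M : ℝ) + 1)) U (𝓝 0) :=
    tendsto_one_div_add_atTop_nhds_zero_nat.mono_left hU
  have h3 : |x - y| ≤ 0 := le_of_tendsto_of_tendsto h1 h2 ((h.filter_mono hU).mono fun M hM => by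
    beta_reduce
    rw [le_div_iff₀ (by positivity)]
    push_cast at hM
    linarith)
  exact sub_eq_zero.1 (abs_nonpos_iff.1 h3)

/-- Level `M`: `dz t = max (-M²) (min M² (round (M t)))`, `a v = dz v`,
`t e = (dz (e l))_{l.length < M}`, `k y = (dz (y i))_i`, transported to `Fin _` by
`Fintype.equivFin`.  `dz` is locally constant off the countable set `{t | M t - 1/2 ∈ ℤ}`, which is
null for `gaussianReal`, `unifJ` and `dirac J0`; every cell contains an interval.  Fineness: uniform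
continuity of `g` on the compact `StarEnv × closedBall` (two points in the same cell have their
coordinates of depth `< M` within `1/M`; argue by compactness in the product topology, or with
the entourages of the product uniformity). -/
theorem exists_part {D p : ℕ} {s : ℝ} {β : Measure J} (hβ : Adm s β) {g : SX D p → ℝ}
    (hg : Continuous g) (R : ℝ) {ε : ℝ} (hε : 0 < ε) : ∃ Q : Part D p, Q.Null β ∧
      ∀ q q', ‖q.2‖ ≤ R → ‖q'.2‖ ≤ R → Q.τ q = Q.τ q' → |g q - g q'| ≤ ε := by
  choose Q hQ using fun M : ℕ => h73_part (D := D) (p := p) (Nat.succ_pos M)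
  have hnull : ∀ M, (Q M).Null β := fun M => by
    have : Finite {l : List (Fin D) | l.length < M + 1} :=
      (List.finite_length_lt (Fin D) (M + 1)).to_subtype
    filter_upwards [h73_ae_good (D := D) (p := p) hβ (Nat.succ_pos M)] with q hq
    simp only [hQ]
    refine Eventually.and ?_ (Eventually.and (eventually_all.2 fun j => eventually_all.2 fun l => ?_)
      (eventually_all.2 fun k => ?_))
    · exact ((by fun_prop : Continuous fun q : SX D p => (q.1.1 : ℝ)).tendsto q).eventually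
        (h73_dz_loc _ hq.1)
    · exact ((by fun_prop : Continuous fun q : SX D p => (q.1.2 j l.1 : ℝ)).tendsto q).eventually
        (h73_dz_loc _ (hq.2.1 j l.1))
    · exact ((by fun_prop : Continuous fun q : SX D p => q.2 k).tendsto q).eventually
        (h73_dz_loc _ (hq.2.2 k))
  by_contra hcon
  push Not at hcon
  choose q q' h1 h2 h3 h4 using fun M => hcon (Q M) (hnull M)
  have hK : IsCompact ((Set.univ : Set (StarEnv D)) ×ˢ
      Metric.closedBall (0 : SV D × Fin p → ℝ) R) := isCompact_univ.prod (isCompact_closedBall _ _)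
  let U := hyperfilter ℕ
  have hU : (U : Filter ℕ) ≤ atTop := Nat.hyperfilter_le_atTop
  obtain ⟨x, -, hx⟩ := hK.ultrafilter_le_nhds' (U.map q)
    (Ultrafilter.mem_map.2 (univ_mem' fun M => ⟨trivial, mem_closedBall_zero_iff.2 (h1 M)⟩))
  obtain ⟨x', -, hx'⟩ := hK.ultrafilter_le_nhds' (U.map q')
    (Ultrafilter.mem_map.2 (univ_mem' fun M => ⟨trivial, mem_closedBall_zero_iff.2 (h2 M)⟩))
  have hx1 : Tendsto q U (𝓝 x) := hx
  have hx2 : Tendsto q' U (𝓝 x') := hx'
  have hJ : ∀ (M : ℕ) (v : J), |(v : ℝ)| ≤ ((M + 1 : ℕ) : ℝ) := fun M v =>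
    (abs_le.2 v.2).trans (by exact_mod_cast Nat.le_add_left 1 M)
  have hc : ∀ {c : SX D p → ℝ}, Continuous c →
      (∀ᶠ M : ℕ in atTop, ((M + 1 : ℕ) : ℝ) * |c (q M) - c (q' M)| ≤ 1) → c x = c x' :=
    fun hc h => h73_lim_eq hU ((hc.tendsto x).comp hx1) ((hc.tendsto x').comp hx2) h
  have hxx : x = x' := by
    refine Prod.ext (Prod.ext (Subtype.ext ?_) (funext fun j => funext fun l => Subtype.ext ?_))
      (funext fun k => ?_)
    · exact hc (c := fun q => (q.1.1 : ℝ)) (by fun_prop) (Eventually.of_forall fun M =>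
        h73_dz_close (hJ M _) (hJ M _) ((hQ M _ _).1 (h3 M)).1)
    · refine hc (c := fun q => (q.1.2 j l : ℝ)) (by fun_prop) ?_
      filter_upwards [eventually_ge_atTop l.length] with M hM
      exact h73_dz_close (hJ M _) (hJ M _) (((hQ M _ _).1 (h3 M)).2.1 j ⟨l, Nat.lt_succ_of_le hM⟩)
    · refine hc (c := fun q => q.2 k) (by fun_prop) ?_
      filter_upwards [tendsto_natCast_atTop_atTop.eventually_ge_atTop R] with M hM
      have hR : R ≤ ((M + 1 : ℕ) : ℝ) := by push_cast; linarith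
      exact h73_dz_close (((norm_le_pi_norm _ k).trans (h1 M)).trans hR)
        (((norm_le_pi_norm _ k).trans (h2 M)).trans hR) (((hQ M _ _).1 (h3 M)).2.2 k)
  have h5 : Tendsto (fun M => |g (q M) - g (q' M)|) U (𝓝 |g x - g x'|) :=
    (((hg.tendsto x).comp hx1).sub ((hg.tendsto x').comp hx2)).abs
  have h6 := ge_of_tendsto' h5 fun M => (h4 M).le
  rw [hxx, sub_self, abs_zero] at h6
  linarith

end Crest.Agent.R166.B
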