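import Crest.Agent.R166.B.Basic

/-! # Functional equations -/

set_option autoImplicit false
set_option linter.unusedVariables false
set_option linter.unusedSectionVars false

open MeasureTheory ProbabilityTheory Filter Topology Matrix
open scoped ENNReal BoundedContinuousFunction Kronecker

namespace Crest.Agent.R166.B

private theorem third {D : ℕ} (hD : 2 ≤ D) (i j : Fin (D + 1)) : ∃ k, k ≠ i ∧ k ≠ j := by
  by_contra h
  push Not at h
  have : (Finset.univ : Finset (Fin (D + 1))) ⊆ {i, j} := fun k _ => by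
    rw [Finset.mem_insert, Finset.mem_singleton, or_iff_not_imp_left]
    exact h k
  have h2 := (Finset.card_le_card this).trans Finset.card_le_two
  simp at h2
  omega

/-- the tail only depends on the tail variable (three ports) -/
theorem tail_indep {D p : ℕ} (hD : 2 ≤ D) (c : ℝ)
    (φ : Fin (D + 1) → (Fin 2 × Fin p → ℝ) → Fin p → ℝ)
    (h : ∀ y : SV D × Fin p → ℝ, (∀ a, ∑ j, y (some j, a) = c * y (none, a)) →
      ∀ i j, φ i (y ∘ eI i) = φ j (y ∘ eI j)) :
    ∀ i j (y y' : Fin 2 × Fin p → ℝ), (∀ a, y (0, a) = y' (0, a)) → φ i y = φ j y' := by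
  have key : ∀ i j (y y' : Fin 2 × Fin p → ℝ), i ≠ j → (∀ a, y (0, a) = y' (0, a)) →
      φ i y = φ j y' := fun i j y y' hij hy => by
    obtain ⟨k, hi, hj⟩ := third hD i j
    let w : SV D × Fin p → ℝ := fun q => q.1.elim (y (0, q.2)) fun l =>
      (if l = i then y (1, q.2) else 0) + (if l = j then y' (1, q.2) else 0) +
        if l = k then c * y (0, q.2) - y (1, q.2) - y' (1, q.2) else 0
    have h1 := h w (fun a => by simp [w, Finset.sum_add_distrib]) i j
    have h2 : w ∘ eI i = y := funext fun ⟨b, a⟩ => by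
      fin_cases b <;> simp [w, eI, eV, hij, hi.symm]
    have h3 : w ∘ eI j = y' := funext fun ⟨b, a⟩ => by
      fin_cases b <;> simp [w, eI, eV, hij.symm, hj.symm, hy]
    rwa [h2, h3] at h1
  intro i j y y' hy
  obtain ⟨k, hi, hj⟩ := third hD i j
  exact (key i k y y hi.symm fun _ => rfl).trans (key k j y y' hj hy)

/-- Cauchy's equation -/
theorem heads_affine {D p : ℕ} (hD : 2 ≤ D) (H : Fin (D + 1) → (Fin p → ℝ) → Fin p → ℝ)
    (hH : ∀ j, Continuous (H j))
    (h : ∀ v : Fin (D + 1) → Fin p → ℝ, ∑ j, v j = 0 → ∑ j, H j (v j) = ∑ j, H j 0) :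
    ∃ A : Matrix (Fin p) (Fin p) ℝ, ∀ j v, H j v = H j 0 + A *ᵥ v := by
  have h3 : ∀ i j k, i ≠ j → k ≠ i → k ≠ j → ∀ v v',
      (H i v - H i 0) + (H j v' - H j 0) + (H k (-(v + v')) - H k 0) = 0 := by
    intro i j k hij hi hj v v'
    have h1 := h (fun l => (if l = i then v else 0) + (if l = j then v' else 0) +
      if l = k then -(v + v') else 0) (by simp [Finset.sum_add_distrib])
    rw [← sub_eq_zero, ← Finset.sum_sub_distrib, ← Finset.sum_subset (Finset.subset_univ {i, j, k})
      fun l _ hl => by simp at hl; simp [hl], Finset.sum_insert (by simp [hij, hi.symm]),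
      Finset.sum_pair hj.symm] at h1
    simpa [hij, hij.symm, hi, hi.symm, hj, hj.symm, add_assoc] using h1
  have h4 : ∀ i j v, H i v - H i 0 = H j v - H j 0 := fun i j v => by
    obtain ⟨k, hi, hj⟩ := third hD i j
    obtain ⟨l, h5, h6⟩ := third hD i k
    obtain ⟨l', h7, h8⟩ := third hD j k
    have k1 := h3 i l k h5.symm hi h6.symm v 0
    have k2 := h3 j l' k h7.symm hj h8.symm v 0
    rw [sub_self, add_zero] at k1 k2
    exact add_right_cancel (k1.trans k2.symm)
  obtain ⟨j, hj, -⟩ := third hD 0 0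
  obtain ⟨k, hk, hk'⟩ := third hD 0 j
  let f : (Fin p → ℝ) →+ (Fin p → ℝ) := AddMonoidHom.mk' (fun v => H 0 v - H 0 0) fun v v' => by
    have k1 := h3 0 j k hj.symm hk hk' v v'
    have k2 := h3 0 j k hj.symm hk hk' (v + v') 0
    rw [sub_self, add_zero, add_zero] at k2
    rw [h4 j 0] at k1
    exact add_right_cancel (k2.trans k1.symm)
  refine ⟨LinearMap.toMatrix' (f.toRealLinearMap ((hH 0).sub continuous_const)).toLinearMap,
    fun i v => ?_⟩
  rw [LinearMap.toMatrix'_mulVec, ← sub_eq_iff_eq_add']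
  exact h4 i 0 v

/-- transfer of an a.e. identity between continuous functions through a measurable map -/
theorem ae_forall_of_map {α γ Y : Type} [MeasurableSpace α] [MeasurableSpace γ] [TopologicalSpace Y]
    [TopologicalSpace.SeparableSpace Y] {m : Measure α} {f : α → γ} (hf : Measurable f)
    {G H : γ → Y → ℝ} (hG : ∀ y, Measurable fun e => G e y) (hH : ∀ y, Measurable fun e => H e y)
    (hc : ∀ᵐ e ∂(m.map f), Continuous (G e) ∧ Continuous (H e))
    (h : ∀ᵐ a ∂m, ∀ y, G (f a) y = H (f a) y) : ∀ᵐ e ∂(m.map f), ∀ y, G e y = H e y := by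
  obtain ⟨T, h1, h2⟩ := TopologicalSpace.exists_countable_dense Y
  have h3 : ∀ y ∈ T, ∀ᵐ e ∂(m.map f), G e y = H e y := fun y _ =>
    (ae_map_iff hf.aemeasurable (measurableSet_eq_fun (hG y) (hH y))).2 (h.mono fun a ha => ha y)
  filter_upwards [hc, (ae_ball_iff h1).2 h3] with e h4 h5
  exact congrFun (Continuous.ext_on h2 h4.1 h4.2 h5)

end Crest.Agent.R166.B
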