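import Crest.Agent.R166.B.Bayes
import Crest.Agent.R166.B.Gibbs

/-! # The white channel at small signal-to-noise ratio -/

set_option autoImplicit false
set_option linter.unusedVariables false
set_option linter.unusedSectionVars false

open MeasureTheory ProbabilityTheory Filter Topology Matrix
open scoped ENNReal BoundedContinuousFunction Kronecker

namespace Crest.Agent.R166.B

section
variable {N : Type} [Fintype N] [DecidableEq N]

private theorem Small_sq (x : N → ℝ) : 0 ≤ x ⬝ᵥ x :=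
  Finset.sum_nonneg fun k _ => mul_self_nonneg _

private theorem Small_abs (x y : N → ℝ) : |x ⬝ᵥ y| ≤ (x ⬝ᵥ x + y ⬝ᵥ y) / 2 := by
  have h1 := Small_sq (x - y)
  have h2 := Small_sq (x + y)
  simp only [sub_dotProduct, dotProduct_sub, add_dotProduct, dotProduct_add,
    dotProduct_comm y x] at h1 h2
  rw [abs_le]
  constructor <;> linarith

private theorem Small_sub (x y : N → ℝ) : (x - y) ⬝ᵥ (x - y) ≤ 2 * (x ⬝ᵥ x) + 2 * (y ⬝ᵥ y) := by
  have h := (abs_le.1 (Small_abs x y)).1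
  simp only [sub_dotProduct, dotProduct_sub, dotProduct_comm y x]
  linarith

private theorem Small_add (x y : N → ℝ) : (x + y) ⬝ᵥ (x + y) ≤ 2 * (x ⬝ᵥ x) + 2 * (y ⬝ᵥ y) := by
  have h := (abs_le.1 (Small_abs x y)).2
  simp only [add_dotProduct, dotProduct_add, dotProduct_comm y x]
  linarith

private theorem Small_coord {x : N → ℝ} {Λ : ℝ} (h : x ⬝ᵥ x ≤ Λ) (k : N) : |x k| ≤ (1 + Λ) / 2 := by
  have h1 : x k * x k ≤ x ⬝ᵥ x :=
    Finset.single_le_sum (f := fun k => x k * x k) (fun k _ => mul_self_nonneg _)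
      (Finset.mem_univ k)
  rw [abs_le]
  constructor <;> nlinarith [mul_self_nonneg (x k - 1), mul_self_nonneg (x k + 1)]

private theorem Small_exp {t B : ℝ} (h : |t| ≤ B) : Real.exp t ≤ 1 + t + t ^ 2 * Real.exp B := by
  have h0 : 0 ≤ B := (abs_nonneg t).trans h
  have h1 : 1 ≤ Real.exp B := Real.one_le_exp h0
  rcases le_total t 0 with ht | ht
  · -- `exp t ≤ 1 / (1 - t) ≤ 1 + t + t ^ 2`
    have h2 : Real.exp t * (1 - t) ≤ 1 := by
      have h3 := Real.add_one_le_exp (-t)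
      calc Real.exp t * (1 - t) ≤ Real.exp t * Real.exp (-t) :=
            mul_le_mul_of_nonneg_left (by linarith) (Real.exp_pos _).le
        _ = 1 := by rw [← Real.exp_add]; simp
    have h4 : Real.exp t ≤ 1 + t + t ^ 2 := by
      by_contra h5
      push Not at h5
      have h6 : (1 + t + t ^ 2) * (1 - t) < Real.exp t * (1 - t) :=
        mul_lt_mul_of_pos_right h5 (by linarith)
      nlinarith [mul_nonneg (mul_self_nonneg t) (neg_nonneg.2 ht)]
    nlinarith [sq_nonneg t]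
  · -- `exp t - 1 ≤ t exp t` twice
    have h2 : Real.exp t * (1 - t) ≤ 1 := by
      have h3 := Real.add_one_le_exp (-t)
      calc Real.exp t * (1 - t) ≤ Real.exp t * Real.exp (-t) :=
            mul_le_mul_of_nonneg_left (by linarith) (Real.exp_pos _).le
        _ = 1 := by rw [← Real.exp_add]; simp
    have h3 : Real.exp t ≤ Real.exp B := Real.exp_le_exp.2 ((le_abs_self t).trans h)
    have h4 : t * (Real.exp t * (1 - t)) ≤ t * 1 := mul_le_mul_of_nonneg_left h2 ht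
    nlinarith [mul_le_mul_of_nonneg_left h3 (sq_nonneg t)]

variable {m : Measure (N → ℝ)} [IsProbabilityMeasure m] {Λ δ : ℝ}

private theorem Small_int (hb : ∀ᵐ w ∂m, w ⬝ᵥ w ≤ Λ) (k : N) : Integrable (fun w => w k) m :=
  Integrable.of_bound (measurable_pi_apply k).aestronglyMeasurable ((1 + Λ) / 2)
    (hb.mono fun w hw => Small_coord hw k)

private theorem Small_dot (hb : ∀ᵐ w ∂m, w ⬝ᵥ w ≤ Λ) (b : N → ℝ) :
    Integrable (fun w => b ⬝ᵥ w) m ∧ ∫ w, b ⬝ᵥ w ∂m = b ⬝ᵥ fun k => ∫ w, w k ∂m := by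
  have hi : ∀ k ∈ (Finset.univ : Finset N), Integrable (fun w : N → ℝ => b k * w k) m :=
    fun k _ => (Small_int hb k).const_mul _
  refine ⟨integrable_finsetSum _ hi, ?_⟩
  unfold dotProduct
  rw [integral_finsetSum _ hi]
  exact Finset.sum_congr rfl fun k _ => integral_const_mul _ _

private theorem Small_mean (hb : ∀ᵐ w ∂m, w ⬝ᵥ w ≤ Λ) :
    ((fun k => ∫ w, w k ∂m) ⬝ᵥ fun k => ∫ w, w k ∂m) ≤ Λ := by
  set a : N → ℝ := fun k => ∫ w, w k ∂m with ha
  obtain ⟨h1, h2⟩ := Small_dot hb a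
  have h3 : ∫ w, a ⬝ᵥ w ∂m ≤ ∫ _w, (a ⬝ᵥ a + Λ) / 2 ∂m :=
    integral_mono_ae h1 (integrable_const _) (hb.mono fun w hw => by
      have := (abs_le.1 (Small_abs a w)).2
      simp only
      linarith)
  rw [h2, integral_const, probReal_univ, one_smul] at h3
  linarith

private theorem Small_wt (hb : ∀ᵐ w ∂m, w ⬝ᵥ w ≤ Λ) (h0 : 0 ≤ δ) (y : N → ℝ) :
    Integrable (wt 1 δ y) m :=
  integrable_wt Matrix.PosSemidef.one h0
    (Or.inr (Or.inr ⟨(1 + Λ) / 2, hb.mono fun w hw => Small_coord hw⟩))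

private theorem Small_logZ (hb : ∀ᵐ w ∂m, w ⬝ᵥ w ≤ Λ) (h0 : 0 ≤ δ) (h1 : δ ≤ 1) (y : N → ℝ) :
    |Real.log (Zf 1 m δ y)| ≤ Λ + y ⬝ᵥ y / 2 := by
  have hi := Small_wt hb h0 y
  have hb' : ∀ᵐ x ∂m, |x ⬝ᵥ y - δ / 2 * (x ⬝ᵥ x)| ≤ Λ + y ⬝ᵥ y / 2 := hb.mono fun x hx => by
    have h2 := abs_le.1 (Small_abs x y)
    have h3 := Small_sq x
    have h4 : 0 ≤ δ * (x ⬝ᵥ x) := mul_nonneg h0 h3
    have h5 : δ * (x ⬝ᵥ x) ≤ 1 * (x ⬝ᵥ x) := mul_le_mul_of_nonneg_right h1 h3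
    rw [abs_le]
    constructor <;> linarith [h2.1, h2.2]
  have hup : Zf 1 m δ y ≤ Real.exp (Λ + y ⬝ᵥ y / 2) := by
    have := integral_mono_ae hi (integrable_const (Real.exp (Λ + y ⬝ᵥ y / 2)))
      (hb'.mono fun x hx => by
        simp only [wt, one_mulVec]
        exact Real.exp_le_exp.2 (abs_le.1 hx).2)
    rwa [integral_const, probReal_univ, one_smul] at this
  have hlo : Real.exp (-(Λ + y ⬝ᵥ y / 2)) ≤ Zf 1 m δ y := by
    have := integral_mono_ae (integrable_const (Real.exp (-(Λ + y ⬝ᵥ y / 2)))) hi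
      (hb'.mono fun x hx => by
        simp only [wt, one_mulVec]
        exact Real.exp_le_exp.2 (abs_le.1 hx).1)
    rwa [integral_const, probReal_univ, one_smul] at this
  have hp := Zf_pos hi
  rw [abs_le]
  exact ⟨(Real.le_log_iff_exp_le hp).2 hlo, (Real.log_le_iff_le_exp hp).2 hup⟩

private theorem Small_cont (δ : ℝ) :
    Continuous fun w : (N → ℝ) × (N → ℝ) => ob (1 : Matrix N N ℝ) δ w.1 w.2 := by
  simp only [ob, one_mulVec]
  fun_prop

private theorem Small_ob (h0 : 0 ≤ δ) (h1 : δ ≤ 1) {w : N → ℝ} (hw : w ⬝ᵥ w ≤ Λ) (ξ : N → ℝ) :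
    ob (1 : Matrix N N ℝ) δ w ξ ⬝ᵥ ob (1 : Matrix N N ℝ) δ w ξ ≤ 2 * Λ + 2 * (ξ ⬝ᵥ ξ) := by
  simp only [ob, one_mulVec]
  refine (Small_add _ _).trans ?_
  simp only [smul_dotProduct, dotProduct_smul, smul_eq_mul]
  rw [← mul_assoc (√δ), Real.mul_self_sqrt h0]
  have h2 := Small_sq w
  have h3 := Small_sq ξ
  have h4 : δ * (ξ ⬝ᵥ ξ) ≤ 1 * (ξ ⬝ᵥ ξ) := mul_le_mul_of_nonneg_right h1 h3
  have h5 : δ * (w ⬝ᵥ w) ≤ 1 * (w ⬝ᵥ w) := mul_le_mul_of_nonneg_right h1 h2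
  have h6 : δ * (δ * (w ⬝ᵥ w)) ≤ 1 * (δ * (w ⬝ᵥ w)) :=
    mul_le_mul_of_nonneg_right h1 (mul_nonneg h0 h2)
  linarith

private theorem Small_intZ (hb : ∀ᵐ w ∂m, w ⬝ᵥ w ≤ Λ) (h0 : 0 ≤ δ) (h1 : δ ≤ 1) :
    Integrable (fun w : (N → ℝ) × (N → ℝ) =>
      Real.log (Zf 1 m δ (ob (1 : Matrix N N ℝ) δ w.1 w.2))) (m.prod (gpi N)) := by
  have hq : Integrable (fun ξ : N → ℝ => ξ ⬝ᵥ ξ) (gpi N) := by
    simpa using (integral_quad (1 : Matrix N N ℝ) (1 : Matrix N N ℝ) 0).1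
  have hq' : Integrable (fun w : (N → ℝ) × (N → ℝ) => 2 * Λ + w.2 ⬝ᵥ w.2) (m.prod (gpi N)) :=
    (integrable_const _).add (hq.comp_snd m)
  refine hq'.mono' ((measurable_Zf'.comp (Small_cont δ).measurable).log).aestronglyMeasurable ?_
  filter_upwards [Measure.quasiMeasurePreserving_fst.ae hb] with w hw
  have h2 := Small_logZ hb h0 h1 (ob (1 : Matrix N N ℝ) δ w.1 w.2)
  have h3 := Small_ob h0 h1 hw w.2
  rw [Real.norm_eq_abs]
  linarith

private theorem Small_logf (a w ξ : N → ℝ) :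
    Real.log (wt 1 δ (ob (1 : Matrix N N ℝ) δ w ξ) a) =
      δ * (a ⬝ᵥ w) - δ / 2 * (a ⬝ᵥ a) + √δ * (a ⬝ᵥ ξ) := by
  simp only [wt, ob, one_mulVec, Real.log_exp, dotProduct_add, dotProduct_smul, smul_eq_mul]
  ring

private theorem Small_intf (a w : N → ℝ) :
    Integrable (fun ξ => Real.log (wt 1 δ (ob (1 : Matrix N N ℝ) δ w ξ) a)) (gpi N) ∧
    ∫ ξ, Real.log (wt 1 δ (ob (1 : Matrix N N ℝ) δ w ξ) a) ∂(gpi N) =
      δ * (a ⬝ᵥ w) - δ / 2 * (a ⬝ᵥ a) := by
  simp only [Small_logf]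
  obtain ⟨h1, h2⟩ := integral_dot a
  refine ⟨(integrable_const _).add (h1.const_mul _), ?_⟩
  rw [integral_add (integrable_const _) (h1.const_mul _), integral_const_mul, h2, integral_const,
    probReal_univ, one_smul, mul_zero, add_zero]

private theorem Small_upper (hb : ∀ᵐ w ∂m, w ⬝ᵥ w ≤ Λ) (h0 : 0 ≤ δ) (h1 : δ ≤ 1) {a : N → ℝ}
    (ha : a = fun k => ∫ w, w k ∂m) {w : N → ℝ} (hw : w ⬝ᵥ w ≤ Λ)
    (hi : Integrable (fun ξ => Real.log (Zf 1 m δ (ob (1 : Matrix N N ℝ) δ w ξ))) (gpi N)) :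
    ∫ ξ, Real.log (Zf 1 m δ (ob (1 : Matrix N N ℝ) δ w ξ)) ∂(gpi N) ≤
      δ * (a ⬝ᵥ w) - δ / 2 * (a ⬝ᵥ a) + cS Λ * δ ^ 2 := by
  have haa : a ⬝ᵥ a ≤ Λ := by rw [ha]; exact Small_mean hb
  set H : (N → ℝ) → (N → ℝ) → ℝ := fun x ξ =>
    Real.exp (δ * ((x - a) ⬝ᵥ w) - δ / 2 * (x ⬝ᵥ x - a ⬝ᵥ a)) *
      Real.exp ((√δ • (x - a)) ⬝ᵥ ξ) with hH
  have hH1 : ∀ x, Integrable (H x) (gpi N) := fun x => (integral_exp_dot _).1.const_mul _
  have hH2 : ∀ x, ∫ ξ, H x ξ ∂(gpi N) = Real.exp (δ * ((x - a) ⬝ᵥ (w - a))) := by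
    intro x
    simp only [hH]
    rw [integral_const_mul, (integral_exp_dot _).2, ← Real.exp_add]
    congr 1
    simp only [smul_dotProduct, dotProduct_smul, smul_eq_mul]
    rw [← mul_assoc (√δ), Real.mul_self_sqrt h0]
    simp only [sub_dotProduct, dotProduct_sub, dotProduct_comm a x]
    ring
  have hbd : ∀ᵐ x ∂m, |δ * ((x - a) ⬝ᵥ (w - a))| ≤ 4 * Λ * δ := hb.mono fun x hx => by
    have h2 := Small_abs (x - a) (w - a)
    have h3 := Small_sub x a
    have h4 := Small_sub w a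
    rw [abs_mul, abs_of_nonneg h0, mul_comm]
    exact mul_le_mul_of_nonneg_right (by linarith) h0
  have hΛ : 0 ≤ Λ := (Small_sq a).trans haa
  have hΛδ : 4 * Λ * δ ≤ 4 * Λ := by nlinarith
  have hE : Integrable (fun x => Real.exp (δ * ((x - a) ⬝ᵥ (w - a)))) m := by
    refine Integrable.of_bound (Continuous.aestronglyMeasurable (by fun_prop))
      (Real.exp (4 * Λ)) (hbd.mono fun x hx => ?_)
    rw [Real.norm_eq_abs, abs_of_pos (Real.exp_pos _)]
    exact Real.exp_le_exp.2 ((le_abs_self _).trans (hx.trans hΛδ))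
  have hHi : Integrable (Function.uncurry H) (m.prod (gpi N)) := by
    have hc : Continuous (Function.uncurry H) := by
      simp only [hH, Function.uncurry_def]
      fun_prop
    refine (integrable_prod_iff hc.aestronglyMeasurable).2 ⟨Eventually.of_forall hH1, ?_⟩
    refine hE.congr (Eventually.of_forall fun x => ?_)
    simp only [Function.uncurry_apply_pair]
    rw [← hH2]
    refine integral_congr_ae (Eventually.of_forall fun ξ => ?_)
    simp only [hH]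
    rw [Real.norm_eq_abs, abs_of_pos (by positivity)]
  have hq : ∀ ξ, Zf 1 m δ (ob (1 : Matrix N N ℝ) δ w ξ) / wt 1 δ (ob (1 : Matrix N N ℝ) δ w ξ) a =
      ∫ x, H x ξ ∂m := by
    intro ξ
    unfold Zf
    rw [← integral_div]
    refine integral_congr_ae (Eventually.of_forall fun x => ?_)
    simp only [hH, wt, ob, one_mulVec]
    rw [← Real.exp_sub, ← Real.exp_add]
    congr 1
    simp only [smul_dotProduct, dotProduct_smul, smul_eq_mul, sub_dotProduct, dotProduct_add]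
    ring
  obtain ⟨hf1, hf2⟩ := Small_intf (δ := δ) a w
  have hI : Integrable (fun ξ => ∫ x, H x ξ ∂m) (gpi N) := hHi.integral_prod_right
  have h2 : ∫ ξ, Real.log (Zf 1 m δ (ob (1 : Matrix N N ℝ) δ w ξ)) ∂(gpi N) ≤
      ∫ ξ, (Real.log (wt 1 δ (ob (1 : Matrix N N ℝ) δ w ξ) a) + (∫ x, H x ξ ∂m - 1)) ∂(gpi N) := by
    refine integral_mono hi (hf1.add (hI.sub (integrable_const _))) fun ξ => ?_
    have hZ := Zf_pos (Small_wt hb h0 (ob (1 : Matrix N N ℝ) δ w ξ))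
    have hw' := wt_pos (1 : Matrix N N ℝ) δ (ob (1 : Matrix N N ℝ) δ w ξ) a
    have h3 := Real.log_le_sub_one_of_pos (div_pos hZ hw')
    rw [Real.log_div hZ.ne' hw'.ne', hq] at h3
    simp only
    linarith
  rw [integral_add hf1 (hI.sub' (integrable_const _)), integral_sub hI (integrable_const _), hf2,
    ← integral_integral_swap hHi, integral_const, probReal_univ, one_smul] at h2
  simp only [hH2] at h2
  obtain ⟨hd1, hd2⟩ := Small_dot hb (w - a)
  have hl : Integrable (fun x => 1 + δ * ((w - a) ⬝ᵥ x - (w - a) ⬝ᵥ a) + cS Λ * δ ^ 2) m :=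
    ((integrable_const _).add ((hd1.sub (integrable_const _)).const_mul _)).add
      (integrable_const _)
  have h3 : ∫ x, Real.exp (δ * ((x - a) ⬝ᵥ (w - a))) ∂m ≤
      ∫ x, (1 + δ * ((w - a) ⬝ᵥ x - (w - a) ⬝ᵥ a) + cS Λ * δ ^ 2) ∂m := by
    refine integral_mono_ae hE hl (hbd.mono fun x hx => ?_)
    have h4 := Small_exp (hx.trans hΛδ)
    have h5 : (δ * ((x - a) ⬝ᵥ (w - a))) ^ 2 ≤ (4 * Λ * δ) ^ 2 := by
      rw [← sq_abs]
      exact pow_le_pow_left₀ (abs_nonneg _) hx 2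
    have h6 := mul_le_mul_of_nonneg_right h5 (Real.exp_pos (4 * Λ)).le
    have h7 : (x - a) ⬝ᵥ (w - a) = (w - a) ⬝ᵥ x - (w - a) ⬝ᵥ a := by
      rw [dotProduct_comm, dotProduct_sub]
    have h8 : (4 * Λ * δ) ^ 2 * Real.exp (4 * Λ) = cS Λ * δ ^ 2 := by unfold cS; ring
    simp only
    rw [← h7]
    linarith
  have hl' : Integrable (fun x => 1 + δ * ((w - a) ⬝ᵥ x - (w - a) ⬝ᵥ a)) m :=
    (integrable_const _).add ((hd1.sub (integrable_const _)).const_mul _)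
  rw [integral_add hl' (integrable_const _),
    integral_add (integrable_const _) ((hd1.sub' (integrable_const _)).const_mul _),
    integral_const_mul, integral_sub hd1 (integrable_const _), hd2, ← ha] at h3
  simp only [integral_const, probReal_univ, one_smul, sub_self, mul_zero, add_zero] at h3
  linarith

end

/-- `Y = δ w + √δ ξ` has density `Z = Zf 1 m δ` with respect to `√δ ξ` (`bayes_obs`, `bayes_integral`).
Let `f y = exp (a ⬝ y - δ a ⬝ a / 2)`, `∫ f (√δ ξ) = 1`, `E log f (Y) = δ a ⬝ a / 2`.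
Lower bound: `log (f / Z) ≤ f / Z - 1`.  Upper bound: `log (Z / f) ≤ Z / f - 1` and
`E (Z / f)(Y) = ∫ Z² / f (√δ ξ) dξ = ∫∫ exp (δ (w - a) ⬝ (w' - a)) dm dm` (`integral_exp_dot`),
`eᵗ ≤ 1 + t + t² e^{|t|}`, `|(w - a) ⬝ (w' - a)| ≤ 4 Λ`, `∫∫ (w - a) ⬝ (w' - a) = 0`. -/
theorem psi_small {N : Type} [Fintype N] [DecidableEq N] (m : Measure (N → ℝ))
    [IsProbabilityMeasure m] {Λ δ : ℝ} (hb : ∀ᵐ w ∂m, w ⬝ᵥ w ≤ Λ) (h0 : 0 ≤ δ) (h1 : δ ≤ 1) :
    δ / 2 * ((fun k => ∫ w, w k ∂m) ⬝ᵥ fun k => ∫ w, w k ∂m) ≤ psi 1 (1 : Matrix N N ℝ) m δ ∧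
    psi 1 (1 : Matrix N N ℝ) m δ ≤
      δ / 2 * ((fun k => ∫ w, w k ∂m) ⬝ᵥ fun k => ∫ w, w k ∂m) + cS Λ * δ ^ 2 := by
  set a : N → ℝ := fun k => ∫ w, w k ∂m with ha
  have hZi := Small_intZ hb h0 h1
  obtain ⟨hd1, hd2⟩ := Small_dot hb a
  rw [← ha] at hd2
  have hR : Integrable (fun w => δ * (a ⬝ᵥ w) - δ / 2 * (a ⬝ᵥ a)) m :=
    (hd1.const_mul _).sub (integrable_const _)
  have hRi : ∫ w, (δ * (a ⬝ᵥ w) - δ / 2 * (a ⬝ᵥ a)) ∂m = δ / 2 * (a ⬝ᵥ a) := by
    rw [integral_sub (hd1.const_mul _) (integrable_const _), integral_const_mul, hd2,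
      integral_const, probReal_univ, one_smul]
    ring
  constructor
  · have hc : Ch (1 : Matrix N N ℝ) (1 : Matrix N N ℝ) m :=
      ⟨Matrix.PosSemidef.one, Eventually.of_forall fun x => by simp⟩
    have hB := bayes_obs hc h0
    set ν : Measure (N → ℝ) := (gpi N).withDensity fun ξ =>
      ENNReal.ofReal (Zf 1 m δ (√δ • (1 : Matrix N N ℝ) *ᵥ ξ)) with hν
    have hs : Measurable fun ξ : N → ℝ => √δ • (1 : Matrix N N ℝ) *ᵥ ξ := by
      simp only [one_mulVec]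
      fun_prop
    have hY := (Small_cont (N := N) δ).measurable
    have hprob : IsProbabilityMeasure ν := by
      constructor
      have h2 := congrArg (fun μ : Measure (N → ℝ) => μ Set.univ) hB
      simp only [Measure.map_apply hs MeasurableSet.univ, Measure.map_apply hY MeasurableSet.univ,
        Set.preimage_univ, measure_univ] at h2
      exact h2.symm
    have tr : ∀ G : (N → ℝ) → ℝ, Measurable G →
        Integrable (fun w : (N → ℝ) × (N → ℝ) => G (ob (1 : Matrix N N ℝ) δ w.1 w.2))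
          (m.prod (gpi N)) →
        Integrable (fun ξ => G (√δ • (1 : Matrix N N ℝ) *ᵥ ξ)) ν ∧
          ∫ ξ, G (√δ • (1 : Matrix N N ℝ) *ᵥ ξ) ∂ν =
            ∫ w, G (ob (1 : Matrix N N ℝ) δ w.1 w.2) ∂(m.prod (gpi N)) := by
      intro G hG hi
      refine ⟨?_, ?_⟩
      · have h2 := (integrable_map_measure hG.aestronglyMeasurable hY.aemeasurable).2 hi
        rw [hB] at h2
        exact (integrable_map_measure hG.aestronglyMeasurable hs.aemeasurable).1 h2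
      · rw [← integral_map hs.aemeasurable hG.aestronglyMeasurable, ← hB,
          integral_map hY.aemeasurable hG.aestronglyMeasurable]
    have hwm : Measurable fun y : N → ℝ => wt (1 : Matrix N N ℝ) δ y a := by
      simp only [wt, one_mulVec]
      exact Continuous.measurable (by fun_prop)
    have hfi : Integrable (fun w : (N → ℝ) × (N → ℝ) =>
        Real.log (wt 1 δ (ob (1 : Matrix N N ℝ) δ w.1 w.2) a)) (m.prod (gpi N)) := by
      simp only [Small_logf]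
      exact (hR.comp_fst (gpi N)).add (((integral_dot a).1.const_mul _).comp_snd m)
    obtain ⟨t1, t2⟩ := tr (fun y => Real.log (Zf 1 m δ y)) measurable_Zf'.log hZi
    obtain ⟨t3, t4⟩ := tr (fun y => Real.log (wt 1 δ y a)) hwm.log hfi
    have hfe : (fun ξ : N → ℝ => wt (1 : Matrix N N ℝ) δ (√δ • (1 : Matrix N N ℝ) *ᵥ ξ) a) =
        fun ξ => Real.exp (-(δ / 2 * (a ⬝ᵥ a))) * Real.exp ((√δ • a) ⬝ᵥ ξ) := by
      funext ξ
      simp only [wt, one_mulVec, smul_dotProduct, dotProduct_smul, smul_eq_mul]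
      rw [← Real.exp_add]
      congr 1
      ring
    have hg := gibbs (l := gpi N) (ν := ν)
      (ϱ := fun ξ => Zf 1 m δ (√δ • (1 : Matrix N N ℝ) *ᵥ ξ))
      (f := fun ξ => wt (1 : Matrix N N ℝ) δ (√δ • (1 : Matrix N N ℝ) *ᵥ ξ) a)
      (measurable_Zf'.comp hs) (fun ξ => Zf_pos (Small_wt hb h0 _)) hν (hwm.comp hs)
      (fun ξ => (wt_pos _ _ _ _).le) (by rw [hfe]; exact (integral_exp_dot _).1.const_mul _)
      (Eventually.of_forall fun ξ => wt_pos _ _ _ _) t1 t3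
    have hone : ∫ ξ, wt (1 : Matrix N N ℝ) δ (√δ • (1 : Matrix N N ℝ) *ᵥ ξ) a ∂(gpi N) = 1 := by
      rw [hfe, integral_const_mul, (integral_exp_dot _).2, ← Real.exp_add]
      simp only [smul_dotProduct, dotProduct_smul, smul_eq_mul]
      rw [← mul_assoc (√δ), Real.mul_self_sqrt h0, ← Real.exp_zero]
      congr 1
      ring
    rw [hone, t2, t4, integral_prod _ hZi, integral_prod _ hfi] at hg
    simp only [(Small_intf a _).2] at hg
    rw [hRi] at hg
    unfold psi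
    linarith
  · have h2 : psi 1 (1 : Matrix N N ℝ) m δ ≤
        ∫ w, (δ * (a ⬝ᵥ w) - δ / 2 * (a ⬝ᵥ a) + cS Λ * δ ^ 2) ∂m := by
      refine integral_mono_ae hZi.integral_prod_left (hR.add (integrable_const _)) ?_
      filter_upwards [hb, hZi.prod_right_ae] with w hw hi
      exact Small_upper hb h0 h1 ha hw hi
    rwa [integral_add hR (integrable_const _), hRi, integral_const, probReal_univ, one_smul] at h2

end Crest.Agent.R166.B
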